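import Vale.Agent.P119.KU.Scat10

/-!
# The flux formula

Integration over the lines which meet a given line, in terms of the time `s` of closest approach,
the relative impact vector `ρ` and the velocity; inversion of the scattering map.
-/

open MeasureTheory Filter Topology Set ProbabilityTheory
open scoped ENNReal NNReal RealInnerProductSpace

noncomputable section

namespace Vale.Agent.P119.KU

variable {Φ : E3 → ℝ} {ε : ℝ}

/-- The tube of lines of direction `V` with impact vector in the unit disc. -/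
theorem lintegral_tube {V : E3} (hV : V ≠ 0) {G : E3 → ℝ≥0∞} (hG : Measurable G) :
    ∫⁻ Y in {Y : E3 | ‖perp (Y, V)‖ < 1}, G Y =
      ‖V‖ₑ * ∫⁻ s : ℝ, ∫⁻ ρ, G (ρ + s • V) ∂(kappa V) := by
  have hm : MeasurableSet {Y : E3 | ‖perp (Y, V)‖ < 1} :=
    measurableSet_lt (measurable_perp_left V).norm measurable_const
  have hG2 : Measurable (fun q : ℝ × E3 => G (q.2 + q.1 • V)) := by
    apply hG.comp; fun_prop
  have h1 : ∀ s : ℝ, ∫⁻ ρ, G (ρ + s • V) ∂(kappa V) =
      ∫⁻ ρ : (ℝ ∙ V : Submodule ℝ E3)ᗮ in Metric.ball 0 1, G ((ρ : E3) + s • V) := by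
    intro s
    exact lintegral_kappa_eq hV (hG2.comp measurable_prodMk_left)
  simp_rw [h1]
  have hG3 : Measurable (fun q : ℝ × (ℝ ∙ V : Submodule ℝ E3)ᗮ => G ((q.2 : E3) + q.1 • V)) := by
    apply hG.comp; fun_prop
  rw [lintegral_lintegral_swap (by exact hG3.aemeasurable), ← lintegral_indicator hm,
    lintegral_line hV (hG.indicator hm), ← lintegral_indicator Metric.isOpen_ball.measurableSet]
  congr 1
  refine lintegral_congr fun ρ => ?_
  by_cases hρ : ρ ∈ Metric.ball (0 : (ℝ ∙ V : Submodule ℝ E3)ᗮ) 1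
  · rw [indicator_of_mem hρ]
    refine lintegral_congr fun s => ?_
    rw [indicator_of_mem]
    change ‖perp ((ρ : E3) + s • V, V)‖ < 1
    rw [perp_line]
    simpa using hρ
  · rw [indicator_of_notMem hρ, ← lintegral_zero (μ := (volume : Measure ℝ))]
    refine lintegral_congr fun s => ?_
    rw [indicator_of_notMem]
    intro h
    change ‖perp ((ρ : E3) + s • V, V)‖ < 1 at h
    rw [perp_line] at h
    apply hρ
    simpa using h

theorem lintegral_scale {c : ℝ} (hc : 0 < c) {g : E3 → ℝ≥0∞} (hg : Measurable g) :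
    ∫⁻ y, g y = ENNReal.ofReal (c ^ 3) * ∫⁻ y, g (c • y) := by
  have h1 := Measure.map_addHaar_smul (volume : Measure E3) hc.ne'
  have hm : Measurable (fun y : E3 => c • y) := by fun_prop
  have h2 : ∫⁻ y, g (c • y) = ∫⁻ y, g y ∂((volume : Measure E3).map (fun y => c • y)) :=
    (lintegral_map hg hm).symm
  have h3 : (volume : Measure E3).map (fun y => c • y) = ENNReal.ofReal ((c ^ 3)⁻¹) • volume := by
    have h4 : Module.finrank ℝ E3 = 3 := by rw [finrank_euclideanSpace, Fintype.card_fin]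
    rw [h4, abs_of_pos (by positivity)] at h1
    exact h1
  rw [h2, h3, lintegral_smul_measure, smul_eq_mul, ← mul_assoc,
    ← ENNReal.ofReal_mul (by positivity), mul_inv_cancel₀ (by positivity), ENNReal.ofReal_one,
    one_mul]

theorem lintegral_scale_one {c : ℝ} (hc : 0 < c) {g : ℝ → ℝ≥0∞} (hg : Measurable g) :
    ∫⁻ s, g s = ENNReal.ofReal c * ∫⁻ s, g (c * s) := by
  have h1 := Measure.map_addHaar_smul (volume : Measure ℝ) hc.ne'
  have hm : Measurable (fun s : ℝ => c * s) := by fun_prop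
  have h2 : ∫⁻ s, g (c * s) = ∫⁻ s, g s ∂((volume : Measure ℝ).map (fun s => c * s)) :=
    (lintegral_map hg hm).symm
  have h3 : (volume : Measure ℝ).map (fun s => c * s) = ENNReal.ofReal (c⁻¹) • volume := by
    rw [Module.finrank_self, pow_one, abs_of_pos (by positivity)] at h1
    exact h1
  rw [h2, h3, lintegral_smul_measure, smul_eq_mul, ← mul_assoc,
    ← ENNReal.ofReal_mul (by positivity), mul_inv_cancel₀ (by positivity), ENNReal.ofReal_one,
    one_mul]

/-- The line which at time `s` is at relative position `-ε ρ` to the line `l`, with velocity `u`: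
`(l(s) - partner(s)) = ε ρ`. -/
def partner (ε : ℝ) (l : Ph) (u : E3) (s : ℝ) (ρ : E3) : Ph :=
  (l.1 + s • (l.2 - u) - ε • ρ, u)

theorem rel_partner (hε : ε ≠ 0) (l : Ph) (u : E3) (s : ℝ) (ρ : E3) :
    rel ε (l, partner ε l u s ρ) = free (-(s / ε)) (ρ, l.2 - u) := by
  unfold rel partner free
  ext1
  · simp only
    have h : l.1 - (l.1 + s • (l.2 - u) - ε • ρ) = ε • ρ - s • (l.2 - u) := by module
    rw [h, smul_sub, smul_smul, smul_smul, inv_mul_cancel₀ hε, one_smul, neg_smul,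
      sub_eq_add_neg, inv_mul_eq_div]
  · rfl

theorem perp_rel_partner (hε : ε ≠ 0) (l : Ph) (u : E3) (s : ℝ) {ρ : E3}
    (hρ : (inner ℝ ρ (l.2 - u) : ℝ) = 0) : perp (rel ε (l, partner ε l u s ρ)) = ρ := by
  rw [rel_partner hε, perp_free, perp_of_inner (p := (ρ, l.2 - u)) hρ]

theorem crd_rel_partner (hε : ε ≠ 0) (l : Ph) {u : E3} (hu : l.2 - u ≠ 0) (s : ℝ) {ρ : E3}
    (hρ : (inner ℝ ρ (l.2 - u) : ℝ) = 0) : crd (rel ε (l, partner ε l u s ρ)) = -(s / ε) := by
  rw [rel_partner hε, crd_free (p := (ρ, l.2 - u)) hu, crd_of_inner (p := (ρ, l.2 - u)) hρ,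
    zero_add]

/-- The impact time: the collision starts at `s - ε half`. -/
theorem hitT_partner (hε : ε ≠ 0) (l : Ph) {u : E3} (hu : l.2 - u ≠ 0) (s : ℝ) {ρ : E3}
    (hρ : (inner ℝ ρ (l.2 - u) : ℝ) = 0) :
    hitT ε (l, partner ε l u s ρ) = s - ε * half (ρ, l.2 - u) := by
  unfold hitT tin
  rw [crd_rel_partner hε l hu s hρ, rel_partner hε, half_free, neg_neg, mul_sub,
    mul_div_cancel₀ _ hε]

theorem measurable_partner (l : Ph) :
    Measurable (fun q : E3 × ℝ × E3 => partner ε l q.1 q.2.1 q.2.2) := by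
  unfold partner; fun_prop

theorem measurableSet_meets : MeasurableSet {q : Ph × Ph | Meets ε q} := by
  have h1 : Measurable (fun q : Ph × Ph => q.1.2 - q.2.2) := by fun_prop
  have h2 : Measurable (fun q : Ph × Ph => ‖perp (rel ε q)‖) :=
    (measurable_perp.comp continuous_rel.measurable).norm
  exact (measurableSet_eq_fun h1 measurable_const).compl.inter
    (measurableSet_lt h2 measurable_const)

/-- **The flux formula**: the lines which meet a given line. -/
theorem lintegral_partner (hε : 0 < ε) (l : Ph) {F : Ph → ℝ≥0∞} (hF : Measurable F) :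
    ∫⁻ l' in {l' : Ph | Meets ε (l, l')}, F l' =
      ENNReal.ofReal (ε ^ 2) * ∫⁻ u : E3, ‖l.2 - u‖ₑ * ∫⁻ s : ℝ, ∫⁻ ρ,
        F (partner ε l u s ρ) ∂(kappa (l.2 - u)) := by
  have hε0 : ε ≠ 0 := hε.ne'
  set Ms : Set Ph := {l' : Ph | Meets ε (l, l')} with hMs
  have hMm : MeasurableSet Ms := measurable_prodMk_left measurableSet_meets
  rw [← lintegral_indicator hMm, Measure.volume_eq_prod,
    lintegral_prod_symm _ (hF.indicator hMm).aemeasurable, ← lintegral_const_mul]
  swap
  · have h1 : Measurable (fun q : (E3 × ℝ) × E3 => F (partner ε l q.1.1 q.1.2 q.2)) := by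
      apply hF.comp; unfold partner; fun_prop
    have h2 := h1.lintegral_kernel_prod_right'
      (κ := kappa.comap (fun q : E3 × ℝ => l.2 - q.1) (by fun_prop))
    simp_rw [Kernel.comap_apply] at h2
    have h3 : Measurable (fun u : E3 => ∫⁻ s : ℝ, ∫⁻ ρ, F (partner ε l u s ρ)
        ∂(kappa (l.2 - u))) := h2.lintegral_prod_right'
    have h4 : Measurable (fun u : E3 => ‖l.2 - u‖ₑ) := by fun_prop
    exact h4.mul h3
  have hne : ∀ᵐ u : E3, l.2 - u ≠ 0 := by
    have h0 : (volume : Measure E3) {l.2} = 0 := measure_singleton _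
    have h1 : ∀ᵐ u : E3, u ∉ ({l.2} : Set E3) := measure_eq_zero_iff_ae_notMem.1 h0
    filter_upwards [h1] with u hu h
    exact hu (sub_eq_zero.1 h).symm
  refine lintegral_congr_ae ?_
  filter_upwards [hne] with u hu
  set V : E3 := l.2 - u with hV
  -- reflect and scale
  have hmF : Measurable (fun y : E3 => Ms.indicator F (y, u)) :=
    (hF.indicator hMm).comp measurable_prodMk_right
  have h1 : ∫⁻ y : E3, Ms.indicator F (y, u) = ∫⁻ y : E3, Ms.indicator F (l.1 - y, u) := by
    have h := (Measure.measurePreserving_sub_left (volume : Measure E3) l.1).lintegral_comp hmF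
    exact h.symm
  have hmF2 : Measurable (fun y : E3 => Ms.indicator F (l.1 - y, u)) := by
    apply hmF.comp (measurable_const.sub measurable_id)
  rw [h1, lintegral_scale hε hmF2]
  have h2 : ∀ Y : E3, Ms.indicator F (l.1 - ε • Y, u) =
      ({Y : E3 | ‖perp (Y, V)‖ < 1}).indicator (fun Y => F (l.1 - ε • Y, u)) Y := by
    intro Y
    have h3 : rel ε (l, (l.1 - ε • Y, u)) = (Y, V) := by
      unfold rel
      simp only
      rw [sub_sub_cancel, smul_smul, inv_mul_cancel₀ hε0, one_smul]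
    by_cases hY : ‖perp (Y, V)‖ < 1
    · rw [indicator_of_mem (show Y ∈ {Y : E3 | ‖perp (Y, V)‖ < 1} from hY), indicator_of_mem]
      refine ⟨hu, ?_⟩
      rw [h3]; exact hY
    · rw [indicator_of_notMem (show Y ∉ {Y : E3 | ‖perp (Y, V)‖ < 1} from hY),
        indicator_of_notMem]
      rintro ⟨-, h4⟩
      rw [h3] at h4
      exact hY h4
  simp_rw [h2]
  have hmt : MeasurableSet {Y : E3 | ‖perp (Y, V)‖ < 1} :=
    measurableSet_lt (measurable_perp_left V).norm measurable_const
  have hmF3 : Measurable (fun Y : E3 => F (l.1 - ε • Y, u)) := by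
    apply hF.comp; fun_prop
  rw [lintegral_indicator hmt, lintegral_tube hu hmF3]
  -- change the time variable
  have hmS : Measurable (fun s : ℝ => ∫⁻ ρ, F (partner ε l u s ρ) ∂(kappa V)) := by
    have h4 : Measurable (fun q : ℝ × E3 => F (partner ε l u q.1 q.2)) := by
      apply hF.comp; unfold partner; fun_prop
    exact h4.lintegral_prod_right'
  have h5 : ∫⁻ s : ℝ, ∫⁻ ρ, F (partner ε l u s ρ) ∂(kappa V) =
      ENNReal.ofReal ε * ∫⁻ s : ℝ, ∫⁻ ρ, F (l.1 - ε • (ρ + s • V), u) ∂(kappa V) := by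
    rw [lintegral_scale_one hε hmS, ← lintegral_neg_eq_self]
    congr 1
    refine lintegral_congr fun s => lintegral_congr fun ρ => ?_
    unfold partner
    congr 2
    rw [← hV]
    module
  rw [h5, ← mul_assoc, ← mul_assoc, ← mul_assoc]
  congr 1
  rw [mul_comm (ENNReal.ofReal (ε ^ 2)), mul_assoc, mul_comm (ENNReal.ofReal (ε ^ 3)),
    ← ENNReal.ofReal_mul (by positivity)]
  congr 2

/-! ### Inversion of the scattering map -/

/-- The inverse of the scattering map. -/
def sc2inv (Φ : E3 → ℝ) (ε : ℝ) (q : Ph × Ph) : Ph × Ph :=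
  (rev (sc2 Φ ε (rev q.1, rev q.2)).1, rev (sc2 Φ ε (rev q.1, rev q.2)).2)

theorem sc2inv_sc2 (hΦ : IsPotential Φ) (hε : ε ≠ 0) {q : Ph × Ph} (h : Exits Φ (rel ε q)) :
    sc2inv Φ ε (sc2 Φ ε q) = q := by
  unfold sc2inv
  rw [sc2_rev hΦ hε h]
  simp only [rev_rev]

theorem sc2_sc2inv (hΦ : IsPotential Φ) (hε : ε ≠ 0) {q : Ph × Ph}
    (h : Exits Φ (rev (rel ε q))) : sc2 Φ ε (sc2inv Φ ε q) = q := by
  have h1 : Exits Φ (rel ε (rev q.1, rev q.2)) := by rw [rel_rev]; exact h
  have h2 := sc2_rev hΦ hε h1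
  simp only [rev_rev] at h2
  exact h2

theorem meets_sc2 (hΦ : IsPotential Φ) (hε : ε ≠ 0) (q : Ph × Ph) :
    Meets ε (sc2 Φ ε q) ↔ Meets ε q := by
  have h1 : ∀ q : Ph × Ph, q.1.2 - q.2.2 = (rel ε q).2 := fun q => rfl
  unfold Meets
  rw [h1, h1, rel_sc2 hε, norm_perp_scat hΦ, ← norm_ne_zero_iff, scat_snd_norm hΦ,
    norm_ne_zero_iff]

theorem measurable_sc2inv (hΦ : IsPotential Φ) (hε : ε ≠ 0) : Measurable (sc2inv Φ ε) := by
  have hr := continuous_rev.measurable
  have h1 : Measurable (fun q : Ph × Ph => ((rev q.1, rev q.2) : Ph × Ph)) :=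
    (hr.comp measurable_fst).prodMk (hr.comp measurable_snd)
  have h2 := (measurable_sc2 hΦ hε).comp h1
  exact (hr.comp h2.fst).prodMk (hr.comp h2.snd)

/-- **Change of variables** from incoming to outgoing lines. -/
theorem lintegral_sc2 (hΦ : IsPotential Φ) (hε : ε ≠ 0) {F : Ph × Ph → Ph × Ph → ℝ≥0∞}
    (hF : Measurable (fun q : (Ph × Ph) × (Ph × Ph) => F q.1 q.2)) :
    ∫⁻ q in {q : Ph × Ph | Meets ε q}, F q (sc2 Φ ε q) =
      ∫⁻ q in {q : Ph × Ph | Meets ε q}, F (sc2inv Φ ε q) q := by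
  have hm : MeasurableSet {q : Ph × Ph | Meets ε q} := measurableSet_meets
  have hG : Measurable (fun q : Ph × Ph => F (sc2inv Φ ε q) q) :=
    hF.comp ((measurable_sc2inv hΦ hε).prodMk measurable_id)
  rw [← (measurePreserving_sc2 hΦ hε).setLIntegral_comp_preimage hm hG]
  have e : sc2 Φ ε ⁻¹' {q : Ph × Ph | Meets ε q} = {q : Ph × Ph | Meets ε q} := by
    ext q; exact meets_sc2 hΦ hε q
  rw [e]
  refine lintegral_congr_ae ?_
  filter_upwards [ae_restrict_of_ae (ae_exits_pair hΦ hε)] with q hq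
  rw [sc2inv_sc2 hΦ hε hq]

end Vale.Agent.P119.KU
end
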