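import Vale.Agent.P119.KU.Scat3

/-!
# Almost every line is scattered, and scattering preserves Lebesgue measure
-/

open MeasureTheory Filter Topology Set
open scoped ENNReal NNReal RealInnerProductSpace

noncomputable section

namespace Vale.Agent.P119.KU

variable {Φ : E3 → ℝ}

theorem acc_eq_zero (hΦ : IsPotential Φ) {x : E3} (hx : 1 ≤ ‖x‖) : acc Φ x = 0 := by
  have h1 : Φ x < 1 := by rw [hΦ.vanishing x hx]; exact one_pos
  rw [← acc_congr (trunc_eventuallyEq' hΦ (adm_of_one_le hx) h1)]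
  exact (sm_trunc hΦ zero_le_one).acc_eq_zero hx

/-! ### Trajectories which stay in the ball -/

/-- Points which stay in the closed ball in the future. -/
def Kp (Φ : E3 → ℝ) : Set Ph := {q | ∀ t : ℝ, 0 ≤ t → ‖(gflow Φ t q).1‖ ≤ 1}

/-- Points which stay in the closed ball for all times. -/
def Kall (Φ : E3 → ℝ) : Set Ph := {q | ∀ t : ℝ, ‖(gflow Φ t q).1‖ ≤ 1}

theorem measurableSet_norm_gflow (hΦ : IsPotential Φ) (t : ℝ) :
    MeasurableSet {q : Ph | ‖(gflow Φ t q).1‖ ≤ 1} :=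
  measurableSet_le (measurable_gflow hΦ t).fst.norm measurable_const

theorem measurableSet_Kp (hΦ : IsPotential Φ) : MeasurableSet (Kp Φ) := by
  have e : Kp Φ = ⋂ r : ℚ, ⋂ _ : 0 ≤ r, {q : Ph | ‖(gflow Φ r q).1‖ ≤ 1} := by
    ext q
    simp only [mem_iInter]
    constructor
    · intro h r hr
      exact h r (by exact_mod_cast hr)
    · intro h t ht
      by_contra hcon
      rw [not_le] at hcon
      have hc : Continuous (fun t => ‖(gflow Φ t q).1‖) :=
        (continuous_fst.comp (continuous_gflow_time hΦ q)).norm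
      have h1 : ∀ᶠ s in 𝓝 t, 1 < ‖(gflow Φ s q).1‖ := hc.continuousAt.eventually (lt_mem_nhds hcon)
      obtain ⟨δ, hδ, h2⟩ := Metric.eventually_nhds_iff.1 h1
      obtain ⟨r, hr1, hr2⟩ := exists_rat_btwn (show t < t + δ by linarith)
      have h3 : dist (r : ℝ) t < δ := by
        rw [Real.dist_eq, abs_lt]; constructor <;> linarith
      have h4 := h2 h3
      have h5 : (0 : ℝ) ≤ r := by linarith
      have h6 : ‖(gflow Φ r q).1‖ ≤ 1 := h r (by exact_mod_cast h5)
      linarith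
  rw [e]
  exact MeasurableSet.iInter fun r => MeasurableSet.iInter fun _ => measurableSet_norm_gflow hΦ r

theorem measure_Kp_lt_top (hΦ : IsPotential Φ) (M : ℕ) :
    (volume : Measure Ph) (Kp Φ ∩ eset Φ M) < ∞ := by
  obtain ⟨m, hm, hm'⟩ := hΦ.bddBelow
  set R : ℝ := 4 * M + 4 * m + 1 with hR
  have hM0 : (0 : ℝ) ≤ M := Nat.cast_nonneg M
  have h1 : (volume : Measure Ph) (Kp Φ ∩ eset Φ M) ≤
      volume (Metric.closedBall (0 : E3) 1 ×ˢ Metric.closedBall (0 : E3) R) := by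
    have hae : ∀ᵐ p : Ph, p.1 ≠ 0 := by
      have h1 : (volume : Measure Ph) ({p : Ph | p.1 = 0}) = 0 := by
        have e : {p : Ph | p.1 = 0} = ({0} : Set E3) ×ˢ (univ : Set E3) := by
          ext p; simp
        rw [e, Measure.volume_eq_prod, Measure.prod_prod, measure_singleton, zero_mul]
      rw [ae_iff]; simpa using h1
    refine measure_mono_ae ?_
    filter_upwards [hae] with p hp0 hp
    obtain ⟨h2, h3, h4⟩ : p ∈ Kp Φ ∧ Adm Φ p.1 ∧ en Φ p < 2 * (M : ℝ) := hp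
    have h5 := h2 0 le_rfl
    rw [gflow_zero hΦ] at h5
    refine ⟨by simpa using h5, ?_⟩
    rw [mem_closedBall_zero_iff]
    unfold en at h4
    have h6 := hm' p.1 hp0
    have h7 : ‖p.2‖ ^ 2 ≤ R := by rw [hR]; linarith
    have h8 : R ≤ R ^ 2 := by nlinarith
    exact le_of_sq_le_sq (h7.trans h8) (by linarith)
  refine h1.trans_lt ?_
  rw [Measure.volume_eq_prod, Measure.prod_prod]
  exact ENNReal.mul_lt_top (isCompact_closedBall _ _).measure_lt_top
    (isCompact_closedBall _ _).measure_lt_top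

theorem measure_Kp_diff (hΦ : IsPotential Φ) (M : ℕ) :
    (volume : Measure Ph) ((Kp Φ ∩ eset Φ M) \ Kall Φ) = 0 := by
  set A : Set Ph := Kp Φ ∩ eset Φ M with hA
  have hAm : MeasurableSet A := (measurableSet_Kp hΦ).inter (measurableSet_eset hΦ M)
  have hAf : (volume : Measure Ph) A < ∞ := measure_Kp_lt_top hΦ M
  set An : ℕ → Set Ph := fun n => gflow Φ (-(n : ℝ)) ⁻¹' A with hAn
  have hsub : ∀ n, An n ⊆ A := by
    intro n q hq
    obtain ⟨h1, h2⟩ : gflow Φ (-(n : ℝ)) q ∈ Kp Φ ∧ gflow Φ (-(n : ℝ)) q ∈ eset Φ M := hq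
    refine ⟨fun t ht => ?_, (mem_eset_gflow hΦ _).1 h2⟩
    have h3 := h1 (t + n) (by positivity)
    rwa [← gflow_add hΦ, add_neg_cancel_right] at h3
  have hvol : ∀ n, (volume : Measure Ph) (A \ An n) = 0 := by
    intro n
    have h1 : (volume : Measure Ph) (An n) = volume A :=
      (measurePreserving_gflow hΦ _).measure_preimage hAm.nullMeasurableSet
    rw [measure_sdiff (hsub n) ((measurable_gflow hΦ _) hAm).nullMeasurableSet
      (by rw [h1]; exact hAf.ne), h1, tsub_self]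
  have hcov : A \ Kall Φ ⊆ ⋃ n, A \ An n := by
    rintro q ⟨hq, hqK⟩
    by_contra hcon
    apply hqK
    intro t
    have h1 : ∀ n, q ∈ An n := by
      intro n
      by_contra h2
      exact hcon (mem_iUnion.2 ⟨n, hq, h2⟩)
    obtain ⟨n, hn⟩ := exists_nat_ge (-t)
    have h2 : gflow Φ (-(n : ℝ)) q ∈ Kp Φ := (h1 n).1
    have h3 := h2 (t + n) (by linarith)
    rwa [← gflow_add hΦ, add_neg_cancel_right] at h3
  exact measure_mono_null hcov (measure_iUnion_null hvol)

/-- Almost no point which stays in the ball in the future has been outside of it. -/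
theorem measure_captured (hΦ : IsPotential Φ) :
    (volume : Measure Ph) ((Kp Φ ∩ {p : Ph | Adm Φ p.1}) \ Kall Φ) = 0 := by
  have h1 : (Kp Φ ∩ {p : Ph | Adm Φ p.1}) \ Kall Φ ⊆
      ⋃ M : ℕ, (Kp Φ ∩ eset Φ M) \ Kall Φ := by
    rintro p ⟨⟨h1, h2⟩, h3⟩
    exact mem_iUnion.2 ⟨lev Φ p, ⟨h1, h2, en_lt_lev p⟩, h3⟩
  exact measure_mono_null h1 (measure_iUnion_null fun M => measure_Kp_diff hΦ M)

/-! ### Lines which do not exit are captured -/

theorem exists_norm_lt_one (hΦ : IsPotential Φ) {p : Ph} (hp : p.2 ≠ 0)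
    (h : ∀ t, ¬ Out (traj Φ p t)) : ∃ t, ‖(traj Φ p t).1‖ < 1 := by
  by_contra hcon
  push Not at hcon
  -- the motion is free
  have h1 : ∀ t, HasDerivAt (fun s => free (-s) (traj Φ p s)) 0 t := by
    intro t
    have h2 := traj_isRed hΦ hp t
    have h3 : HasDerivAt (fun s => (traj Φ p s).1) (traj Φ p t).2 t := h2.fst
    have h4 : HasDerivAt (fun s => (traj Φ p s).2) 0 t := by
      have h5 : HasDerivAt (fun s => (traj Φ p s).2) (acc Φ (traj Φ p t).1) t := h2.snd
      rwa [acc_eq_zero hΦ (hcon t)] at h5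
    have h6 : HasDerivAt (fun s : ℝ => (-s) • (traj Φ p s).2)
        ((-t) • (0 : E3) + (-1 : ℝ) • (traj Φ p t).2) t := (hasDerivAt_neg t).smul h4
    have h7 := (h3.add h6).prodMk h4
    refine h7.congr_deriv ?_
    ext1
    · simp
    · rfl
  have h2 : ∀ s t, free (-s) (traj Φ p s) = free (-t) (traj Φ p t) := fun s t =>
    is_const_of_deriv_eq_zero (fun t => (h1 t).differentiableAt) (fun t => (h1 t).deriv) s t
  have h3 : ∀ t, traj Φ p t = free t p := by
    intro t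
    have h4 := h2 t (-inT p)
    rw [traj_early hΦ hp le_rfl, ← free_add, neg_add_cancel, free_zero] at h4
    have h5 := congrArg (free t) h4
    rwa [← free_add, add_neg_cancel, free_zero] at h5
  apply h (inT p)
  rw [h3]
  exact out_free hp le_rfl

theorem norm_lt_one_of_ge (hΦ : IsPotential Φ) {p : Ph} (hp : p.2 ≠ 0)
    (h : ∀ t, ¬ Out (traj Φ p t)) {t₁ : ℝ} (h1 : ‖(traj Φ p t₁).1‖ < 1) {t : ℝ} (ht : t₁ ≤ t) :
    ‖(traj Φ p t).1‖ < 1 := by
  by_contra hcon
  rw [not_lt] at hcon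
  have hc : Continuous (fun s => ‖(traj Φ p s).1‖) :=
    (continuous_fst.comp (continuous_traj hΦ p)).norm
  set K : Set ℝ := Icc t₁ t ∩ {s | 1 ≤ ‖(traj Φ p s).1‖} with hK
  have hKc : IsCompact K := isCompact_Icc.inter_right (isClosed_le continuous_const hc)
  obtain ⟨τ, hτ⟩ := hKc.exists_isLeast ⟨t, ⟨ht, le_rfl⟩, hcon⟩
  have hτ1 : 1 ≤ ‖(traj Φ p τ).1‖ := hτ.1.2
  have hτt : t₁ < τ := by
    rcases hτ.1.1.1.lt_or_eq with h2 | h2
    · exact h2
    · rw [← h2] at hτ1; linarith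
  have hlt : ∀ s ∈ Ico t₁ τ, ‖(traj Φ p s).1‖ < 1 := by
    intro s hs
    by_contra h2
    have h3 := hτ.2 ⟨⟨hs.1, hs.2.le.trans hτ.1.1.2⟩, not_lt.1 h2⟩
    linarith [hs.2]
  have hneg : (inner ℝ (traj Φ p τ).1 (traj Φ p τ).2 : ℝ) < 0 := by
    by_contra h2
    exact h τ ⟨hτ1, not_lt.1 h2⟩
  have hd : HasDerivAt (fun s => ‖(traj Φ p s).1‖ ^ 2)
      (2 * inner ℝ (traj Φ p τ).1 (traj Φ p τ).2) τ := by
    have h3 : HasDerivAt (fun s => (traj Φ p s).1) (traj Φ p τ).2 τ := (traj_isRed hΦ hp τ).fst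
    exact h3.norm_sq
  have hs := (hasDerivAt_iff_tendsto_slope.1 hd).eventually
    (gt_mem_nhds (show 2 * (inner ℝ (traj Φ p τ).1 (traj Φ p τ).2 : ℝ) < 0 by linarith))
  have hs' : ∀ᶠ s in 𝓝[<] τ, slope (fun s => ‖(traj Φ p s).1‖ ^ 2) τ s < 0 :=
    hs.filter_mono (nhdsWithin_mono _ fun s hs => ne_of_lt hs)
  have hmem : ∀ᶠ s in 𝓝[<] τ, s ∈ Ioo t₁ τ := Ioo_mem_nhdsLT hτt
  obtain ⟨s, hs1, hs2⟩ := (hs'.and hmem).exists
  have h4 := hlt s ⟨hs2.1.le, hs2.2⟩
  rw [slope_def_field, div_neg_iff] at hs1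
  have h5 : s - τ < 0 := by linarith [hs2.2]
  have h6 : ‖(traj Φ p s).1‖ ^ 2 < 1 := by nlinarith [norm_nonneg (traj Φ p s).1]
  have h7 : 1 ≤ ‖(traj Φ p τ).1‖ ^ 2 := by nlinarith
  rcases hs1 with hs1 | hs1
  · linarith [hs1.1]
  · linarith [hs1.2]

theorem captured_of_not_exits (hΦ : IsPotential Φ) {p : Ph} (hp : p.2 ≠ 0)
    (h : ¬ Exits Φ p) :
    ∃ n : ℕ, traj Φ p n ∈ (Kp Φ ∩ {p : Ph | Adm Φ p.1}) \ Kall Φ := by
  have h0 : ∀ t, ¬ Out (traj Φ p t) := fun t ht => h ⟨hp, t, ht⟩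
  obtain ⟨t₁, h1⟩ := exists_norm_lt_one hΦ hp h0
  obtain ⟨n, hn⟩ := exists_nat_ge t₁
  refine ⟨n, ⟨fun t ht => ?_, adm_traj hΦ hp _⟩, fun hK => ?_⟩
  · rw [gflow_traj hΦ]
    exact (norm_lt_one_of_ge hΦ hp h0 h1 (by linarith)).le
  · have h2 := hK (-(inT p + 1) - n)
    rw [gflow_traj hΦ, sub_add_cancel, traj_early hΦ hp (by linarith)] at h2
    unfold free at h2
    simp only at h2
    have hV : 0 < ‖p.2‖ := norm_pos_iff.2 hp
    have h3 : ‖(-(inT p + 1)) • p.2‖ = (inT p + 1) * ‖p.2‖ := by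
      rw [norm_smul, Real.norm_eq_abs, abs_neg, abs_of_nonneg (by linarith [inT_nonneg p])]
    have h4 := norm_sub_norm_le ((-(inT p + 1)) • p.2) (-p.1)
    rw [sub_neg_eq_add, norm_neg, add_comm _ p.1, h3, add_mul, inT_mul hp, one_mul] at h4
    linarith

/-! ### Measurability of scattering -/

theorem measurableSet_out : MeasurableSet {q : Ph | Out q} := by
  have h1 : Measurable (fun q : Ph => ‖q.1‖) := by fun_prop
  have h2 : Measurable (fun q : Ph => (inner ℝ q.1 q.2 : ℝ)) := by fun_prop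
  exact (measurableSet_le (measurable_const (a := (1 : ℝ))) h1).inter
    (measurableSet_le (measurable_const (a := (0 : ℝ))) h2)

theorem exits_iff_nat (hΦ : IsPotential Φ) {p : Ph} :
    Exits Φ p ↔ p.2 ≠ 0 ∧ ∃ n : ℕ, Out (traj Φ p n) := by
  constructor
  · rintro ⟨hp, t, ht⟩
    obtain ⟨n, hn⟩ := exists_nat_ge t
    exact ⟨hp, n, (out_mono hΦ hn ht).1⟩
  · rintro ⟨hp, n, hn⟩
    exact ⟨hp, n, hn⟩

theorem measurableSet_exits (hΦ : IsPotential Φ) : MeasurableSet {p : Ph | Exits Φ p} := by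
  have e : {p : Ph | Exits Φ p} =
      {p : Ph | p.2 = 0}ᶜ ∩ ⋃ n : ℕ, (fun p : Ph => traj Φ p n) ⁻¹' {q : Ph | Out q} := by
    ext p
    rw [mem_inter_iff, mem_iUnion]
    exact exits_iff_nat hΦ
  rw [e]
  exact (measurableSet_eq_fun (by fun_prop) (by fun_prop)).compl.inter
    (MeasurableSet.iUnion fun n => measurable_traj hΦ n measurableSet_out)

theorem measurable_scat (hΦ : IsPotential Φ) : Measurable (scat Φ) := by
  classical
  have h1 : ∀ n : ℕ, Measurable (fun p : Ph =>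
      if p ∈ {p : Ph | Exits Φ p} then free (-(n : ℝ)) (traj Φ p n) else p) := by
    intro n
    refine Measurable.ite (measurableSet_exits hΦ) ?_ measurable_id
    exact (free_preserving (-(n : ℝ))).measurable.comp (measurable_traj hΦ n)
  refine measurable_of_tendsto_metrizable h1 ?_
  rw [tendsto_pi_nhds]
  intro p
  by_cases hp : Exits Φ p
  · refine tendsto_const_nhds.congr' ?_
    have h2 := tendsto_natCast_atTop_atTop (R := ℝ) |>.eventually (hp.eventually hΦ)
    filter_upwards [h2] with n hn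
    rw [if_pos hp, scat_eq hΦ hp.1 hn.1]
  · refine tendsto_const_nhds.congr' ?_
    filter_upwards with n
    rw [if_neg hp, scat_of_not hp]

/-! ### Almost every line exits -/

theorem ae_snd_ne : ∀ᵐ p : Ph, p.2 ≠ 0 := by
  have h1 : (volume : Measure Ph) ({p : Ph | p.2 = 0}) = 0 := by
    have e : {p : Ph | p.2 = 0} = (univ : Set E3) ×ˢ ({0} : Set E3) := by
      ext p; simp
    rw [e, Measure.volume_eq_prod, Measure.prod_prod, measure_singleton, mul_zero]
  rw [ae_iff]; simpa using h1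

/-- Lines which enter before time `-m`. -/
theorem null_preimage_traj (hΦ : IsPotential Φ) {N : Set Ph}
    (hN : (volume : Measure Ph) N = 0) (n : ℝ) :
    (volume : Measure Ph) {p : Ph | p.2 ≠ 0 ∧ traj Φ p n ∈ N} = 0 := by
  have h1 : {p : Ph | p.2 ≠ 0 ∧ traj Φ p n ∈ N} ⊆
      ⋃ m : ℕ, (gflow Φ (n + m) ∘ free (-(m : ℝ))) ⁻¹' N := by
    rintro p ⟨hp, hpN⟩
    obtain ⟨m, hm⟩ := exists_nat_ge (inT p)
    refine mem_iUnion.2 ⟨m, ?_⟩
    rw [traj_eq hΦ hp hm] at hpN
    exact hpN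
  refine measure_mono_null h1 (measure_iUnion_null fun m => ?_)
  exact ((measurePreserving_gflow hΦ _).comp (free_preserving _)).quasiMeasurePreserving.preimage_null
    hN

/-- **The capture set is null.** -/
theorem ae_exits (hΦ : IsPotential Φ) : ∀ᵐ p : Ph, Exits Φ p := by
  have h1 : ∀ n : ℕ, (volume : Measure Ph)
      {p : Ph | p.2 ≠ 0 ∧ traj Φ p n ∈ (Kp Φ ∩ {p : Ph | Adm Φ p.1}) \ Kall Φ} = 0 :=
    fun n => null_preimage_traj hΦ (measure_captured hΦ) n
  have h2 := measure_iUnion_null h1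
  have h3 : ∀ᵐ p : Ph, p ∉ ⋃ n : ℕ,
      {p : Ph | p.2 ≠ 0 ∧ traj Φ p n ∈ (Kp Φ ∩ {p : Ph | Adm Φ p.1}) \ Kall Φ} :=
    measure_eq_zero_iff_ae_notMem.1 h2
  filter_upwards [h3, ae_snd_ne] with p hp hp0
  by_contra hcon
  obtain ⟨n, hn⟩ := captured_of_not_exits hΦ hp0 hcon
  exact hp (mem_iUnion.2 ⟨n, hp0, hn⟩)

/-! ### Scattering preserves Lebesgue measure on phase space -/

/-- Lines entering before time `-n` and out at time `n`. -/
def eN (Φ : E3 → ℝ) (n : ℕ) : Set Ph := {p | p.2 ≠ 0 ∧ inT p ≤ n ∧ Out (traj Φ p n)}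

theorem measurable_inT : Measurable inT := by unfold inT; fun_prop

theorem measurableSet_eN (hΦ : IsPotential Φ) (n : ℕ) : MeasurableSet (eN Φ n) := by
  have e : eN Φ n = {p : Ph | p.2 = 0}ᶜ ∩ ({p : Ph | inT p ≤ n} ∩
      (fun p : Ph => traj Φ p n) ⁻¹' {q : Ph | Out q}) := rfl
  rw [e]
  exact (measurableSet_eq_fun (by fun_prop) (by fun_prop)).compl.inter
    ((measurableSet_le measurable_inT measurable_const).inter
      (measurable_traj hΦ n measurableSet_out))

theorem monotone_eN (hΦ : IsPotential Φ) : Monotone (eN Φ) := by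
  rintro m n hmn p ⟨h1, h2, h3⟩
  have : (m : ℝ) ≤ n := by exact_mod_cast hmn
  exact ⟨h1, h2.trans this, (out_mono hΦ this h3).1⟩

theorem iUnion_eN (hΦ : IsPotential Φ) : ⋃ n, eN Φ n = {p : Ph | Exits Φ p} := by
  ext p
  rw [mem_iUnion]
  constructor
  · rintro ⟨n, h1, h2, h3⟩
    exact ⟨h1, n, h3⟩
  · rintro ⟨h1, t, ht⟩
    obtain ⟨n, hn⟩ := exists_nat_ge (max t (inT p))
    exact ⟨n, h1, (le_max_right _ _).trans hn, (out_mono hΦ ((le_max_left _ _).trans hn) ht).1⟩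

/-- The free flow as a measurable equivalence. -/
def freeEquiv (t : ℝ) : Ph ≃ᵐ Ph where
  toFun := free t
  invFun := free (-t)
  left_inv := fun p => by rw [← free_add, neg_add_cancel, free_zero]
  right_inv := fun p => by rw [← free_add, add_neg_cancel, free_zero]
  measurable_toFun := (free_preserving t).measurable
  measurable_invFun := (free_preserving (-t)).measurable

/-- The finite time scattering map. -/
def tN (hΦ : IsPotential Φ) (n : ℕ) : Ph ≃ᵐ Ph :=
  ((freeEquiv (-(n : ℝ))).trans (gequiv hΦ (n + n))).trans (freeEquiv (-(n : ℝ)))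

theorem tN_preserving (hΦ : IsPotential Φ) (n : ℕ) :
    MeasurePreserving (tN hΦ n) (volume : Measure Ph) volume :=
  (free_preserving _).comp ((measurePreserving_gflow hΦ _).comp (free_preserving _))

theorem scat_eq_tN (hΦ : IsPotential Φ) {n : ℕ} {p : Ph} (hp : p ∈ eN Φ n) :
    scat Φ p = tN hΦ n p := by
  obtain ⟨h1, h2, h3⟩ := hp
  rw [scat_eq hΦ h1 h3, traj_eq hΦ h1 h2]
  rfl

theorem image_exits (hΦ : IsPotential Φ) :
    scat Φ '' {p : Ph | Exits Φ p} = rev ⁻¹' {p : Ph | Exits Φ p} := by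
  ext q
  constructor
  · rintro ⟨p, hp, rfl⟩
    exact exits_rev_scat hΦ hp
  · intro hq
    have hq' : Exits Φ (rev q) := hq
    refine ⟨rev (scat Φ (rev q)), exits_rev_scat hΦ hq', ?_⟩
    rw [scat_rev_scat hΦ hq', rev_rev]

/-- **Scattering preserves Lebesgue measure.** -/
theorem measurePreserving_scat (hΦ : IsPotential Φ) :
    MeasurePreserving (scat Φ) (volume : Measure Ph) volume := by
  refine ⟨measurable_scat hΦ, ?_⟩
  ext B hB
  rw [Measure.map_apply (measurable_scat hΦ) hB]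
  have hE : (volume : Measure Ph) {p : Ph | Exits Φ p}ᶜ = 0 := by
    have := ae_exits hΦ
    rwa [ae_iff] at this
  have hrE : (volume : Measure Ph) (rev ⁻¹' {p : Ph | Exits Φ p})ᶜ = 0 := by
    rw [← preimage_compl]
    exact rev_preserving.quasiMeasurePreserving.preimage_null hE
  have h1 : (volume : Measure Ph) (scat Φ ⁻¹' B) =
      ⨆ n, (volume : Measure Ph) (scat Φ ⁻¹' B ∩ eN Φ n) := by
    rw [← Monotone.measure_iUnion, ← inter_iUnion, iUnion_eN hΦ]
    · exact (measure_inter_conull hE).symm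
    · exact fun m n h => inter_subset_inter_right _ (monotone_eN hΦ h)
  have h2 : (volume : Measure Ph) B =
      ⨆ n, (volume : Measure Ph) (B ∩ scat Φ '' eN Φ n) := by
    rw [← Monotone.measure_iUnion, ← inter_iUnion, ← image_iUnion, iUnion_eN hΦ,
      image_exits hΦ]
    · exact (measure_inter_conull hrE).symm
    · exact fun m n h => inter_subset_inter_right _ (image_mono (monotone_eN hΦ h))
  rw [h1, h2]
  refine iSup_congr fun n => ?_
  have h3 : scat Φ '' eN Φ n = tN hΦ n '' eN Φ n :=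
    image_congr fun p hp => scat_eq_tN hΦ hp
  have h4 : scat Φ ⁻¹' B ∩ eN Φ n = tN hΦ n ⁻¹' (B ∩ tN hΦ n '' eN Φ n) := by
    ext p
    rw [mem_inter_iff, mem_preimage, mem_preimage, mem_inter_iff,
      (tN hΦ n).injective.mem_set_image]
    constructor
    · rintro ⟨h5, h6⟩
      rw [scat_eq_tN hΦ h6] at h5
      exact ⟨h5, h6⟩
    · rintro ⟨h5, h6⟩
      rw [scat_eq_tN hΦ h6]
      exact ⟨h5, h6⟩
  rw [h4, h3]
  exact (tN_preserving hΦ n).measure_preimage
    (hB.inter ((tN hΦ n).measurableSet_image.2 (measurableSet_eN hΦ n))).nullMeasurableSet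

end Vale.Agent.P119.KU
end
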