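import Vale.Agent.P119.KU.Scat2

/-!
# Scattering of the reduced motion

A phase point `p = (x, v)` with `v ≠ 0` stands for the line `t ↦ x + t v`. `traj Φ p` is the
trajectory which is asymptotic to this line in the past; `scat Φ p` is the line to which it is
asymptotic in the future, if it leaves the unit ball.
-/

open MeasureTheory Filter Topology Set
open scoped ENNReal NNReal RealInnerProductSpace

noncomputable section

namespace Vale.Agent.P119.KU

variable {Φ : E3 → ℝ}

/-! ### Free motion -/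

theorem free_zero (p : Ph) : free 0 p = p := by simp [free]

theorem free_add (s t : ℝ) (p : Ph) : free (s + t) p = free s (free t p) := by
  unfold free
  ext1
  · simp only [add_smul]; abel
  · rfl

theorem free_snd (t : ℝ) (p : Ph) : (free t p).2 = p.2 := rfl

theorem continuous_free : Continuous (fun q : ℝ × Ph => free q.1 q.2) := by
  unfold free; fun_prop

theorem free_preserving (t : ℝ) : MeasurePreserving (free t) (volume : Measure Ph) volume :=
  shear_preserving t

/-- A time after which the free line is outside and incoming, in the past. -/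
def inT (p : Ph) : ℝ := (1 + ‖p.1‖) / ‖p.2‖

theorem inT_nonneg (p : Ph) : 0 ≤ inT p := by unfold inT; positivity

theorem inT_mul {p : Ph} (hp : p.2 ≠ 0) : inT p * ‖p.2‖ = 1 + ‖p.1‖ := by
  unfold inT
  rw [div_mul_cancel₀]
  simpa using hp

/-- Outside and outgoing. -/
def Out (q : Ph) : Prop := 1 ≤ ‖q.1‖ ∧ 0 ≤ (inner ℝ q.1 q.2 : ℝ)

/-- Outside and incoming. -/
def Inc (q : Ph) : Prop := 1 ≤ ‖q.1‖ ∧ (inner ℝ q.1 q.2 : ℝ) ≤ 0

theorem out_rev {q : Ph} : Out (rev q) ↔ Inc q := by
  unfold Out Inc rev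
  simp

theorem inc_rev {q : Ph} : Inc (rev q) ↔ Out q := by
  unfold Out Inc rev
  simp

theorem Out.free {q : Ph} (h : Out q) {t : ℝ} (ht : 0 ≤ t) : Out (free t q) := by
  have h1 : (0 : ℝ) ≤ inner ℝ q.1 (t • q.2) := by
    rw [inner_smul_right]; exact mul_nonneg ht h.2
  refine ⟨one_le_norm_of_inner_nonneg h.1 h1, ?_⟩
  unfold KU.free
  simp only
  rw [inner_add_left, real_inner_smul_left]
  have h2 : 0 ≤ (inner ℝ q.2 q.2 : ℝ) := real_inner_self_nonneg
  have h3 := h.2
  nlinarith [mul_nonneg ht h2]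

theorem inc_free {p : Ph} (hp : p.2 ≠ 0) {s : ℝ} (hs : inT p ≤ s) : Inc (free (-s) p) := by
  have hV : 0 < ‖p.2‖ := norm_pos_iff.2 hp
  have h1 : 1 + ‖p.1‖ ≤ s * ‖p.2‖ := by
    rw [← inT_mul hp]; exact mul_le_mul_of_nonneg_right hs hV.le
  have hs0 : 0 ≤ s := (inT_nonneg p).trans hs
  constructor
  · unfold free
    have h2 : ‖(-s) • p.2‖ = s * ‖p.2‖ := by
      rw [norm_smul, Real.norm_eq_abs, abs_neg, abs_of_nonneg hs0]
    have h3 := norm_sub_norm_le ((-s) • p.2) (-p.1)
    rw [sub_neg_eq_add, norm_neg, add_comm] at h3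
    simp only
    linarith
  · unfold free
    simp only
    rw [inner_add_left, real_inner_smul_left, real_inner_self_eq_norm_sq]
    have h2 := real_inner_le_norm p.1 p.2
    nlinarith

theorem out_free {p : Ph} (hp : p.2 ≠ 0) {s : ℝ} (hs : inT p ≤ s) : Out (free s p) := by
  have h1 : Inc (free (-s) (rev p)) := by
    apply inc_free
    · unfold rev; simpa using hp
    · have : inT (rev p) = inT p := by unfold inT rev; simp
      rw [this]; exact hs
  rw [← inc_rev]
  have e : rev (free s p) = free (-s) (rev p) := by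
    simp [rev, free]
  rw [e]; exact h1

/-! ### The trajectory asymptotic to a line in the past -/

/-- The trajectory which is equal to the free line in the past. -/
def traj (Φ : E3 → ℝ) (p : Ph) (t : ℝ) : Ph := gflow Φ (t + inT p) (free (-inT p) p)

theorem traj_eq (hΦ : IsPotential Φ) {p : Ph} (hp : p.2 ≠ 0) {s : ℝ} (hs : inT p ≤ s) (t : ℝ) :
    traj Φ p t = gflow Φ (t + s) (free (-s) p) := by
  have h1 := inc_free hp (le_refl (inT p))
  have h2 : free (-s) p = gflow Φ (-(s - inT p)) (free (-inT p) p) := by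
    rw [gflow_free_bwd hΦ h1.1 h1.2 (by linarith), ← free_add]
    congr 1; ring
  rw [h2, ← gflow_add hΦ]
  unfold traj
  congr 1; ring

theorem adm_free {p : Ph} (hp : p.2 ≠ 0) {s : ℝ} (hs : inT p ≤ s) : Adm Φ (free (-s) p).1 :=
  adm_of_one_le (inc_free hp hs).1

theorem traj_isRed (hΦ : IsPotential Φ) {p : Ph} (hp : p.2 ≠ 0) : IsRed Φ (traj Φ p) := by
  intro t
  have h := (gflow_isRed hΦ (adm_free (Φ := Φ) hp le_rfl)).1 (t + inT p)
  have h2 := HasDerivAt.scomp t h ((hasDerivAt_id t).add_const (inT p))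
  rw [one_smul] at h2
  exact h2

theorem adm_traj (hΦ : IsPotential Φ) {p : Ph} (hp : p.2 ≠ 0) (t : ℝ) :
    Adm Φ (traj Φ p t).1 := adm_gflow hΦ _ (adm_free hp le_rfl)

theorem gflow_traj (hΦ : IsPotential Φ) (p : Ph) (s t : ℝ) :
    gflow Φ s (traj Φ p t) = traj Φ p (s + t) := by
  unfold traj; rw [← gflow_add hΦ, add_assoc]

theorem traj_early (hΦ : IsPotential Φ) {p : Ph} (hp : p.2 ≠ 0) {t : ℝ} (ht : t ≤ -inT p) :
    traj Φ p t = free t p := by
  rw [traj_eq hΦ hp (s := -t) (by linarith), add_neg_cancel, gflow_zero hΦ, neg_neg]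

theorem traj_free (hΦ : IsPotential Φ) {p : Ph} (hp : p.2 ≠ 0) (s t : ℝ) :
    traj Φ (free s p) t = traj Φ p (t + s) := by
  have hp' : (free s p).2 ≠ 0 := hp
  set L := max (inT (free s p)) (inT p + s) with hL
  rw [traj_eq hΦ hp' (le_max_left _ (inT p + s)), ← hL,
    traj_eq hΦ hp (s := L - s) (by linarith [le_max_right (inT (free s p)) (inT p + s)]),
    ← free_add]
  congr 1
  · ring
  · congr 1; ring

theorem continuous_traj (hΦ : IsPotential Φ) (p : Ph) : Continuous (traj Φ p) := by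
  have h1 : Continuous (fun t : ℝ => t + inT p) := continuous_id.add continuous_const
  exact (continuous_gflow_time hΦ (free (-inT p) p)).comp h1

theorem en_traj (hΦ : IsPotential Φ) {p : Ph} (hp : p.2 ≠ 0) (t : ℝ) :
    en Φ (traj Φ p t) = ‖p.2‖ ^ 2 / 2 := by
  unfold traj
  rw [en_gflow hΦ, en_of_one_le hΦ (inc_free hp le_rfl).1, free_snd]

theorem ang_traj (hΦ : IsPotential Φ) (a b : E3) (p : Ph) (t : ℝ) :
    ang a b (traj Φ p t) = ang a b p := by
  unfold traj
  rw [ang_gflow hΦ]
  unfold ang free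
  simp only [inner_add_right, inner_smul_right]
  ring

theorem measurable_traj_uncurry (hΦ : IsPotential Φ) :
    Measurable (fun q : ℝ × Ph => traj Φ q.2 q.1) := by
  have h1 : Measurable inT := by unfold inT; fun_prop
  have h3 : Measurable (fun q : ℝ × Ph => inT q.2) := h1.comp measurable_snd
  have h5 : Measurable (fun q : ℝ × Ph => ((-inT q.2, q.2) : ℝ × Ph)) :=
    h3.neg.prodMk measurable_snd
  have h6 : Measurable (fun q : ℝ × Ph => free (-inT q.2) q.2) :=
    continuous_free.measurable.comp h5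
  have h7 : Measurable (fun q : ℝ × Ph => ((q.1 + inT q.2, free (-inT q.2) q.2) : ℝ × Ph)) :=
    (measurable_fst.add h3).prodMk h6
  exact (measurable_gflow_uncurry hΦ).comp h7

theorem measurable_traj (hΦ : IsPotential Φ) (t : ℝ) :
    Measurable (fun p : Ph => traj Φ p t) := by
  have h1 : Measurable (fun p : Ph => ((t, p) : ℝ × Ph)) := measurable_prodMk_left
  have h2 := measurable_traj_uncurry hΦ
  have h3 := h2.comp h1
  exact h3

/-- Uniqueness of the trajectory with given past. -/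
theorem eq_traj (hΦ : IsPotential Φ) {p : Ph} (hp : p.2 ≠ 0) {z : ℝ → Ph} (hz : IsRed Φ z)
    (he : ∀ᶠ t in atBot, z t = free t p) : z = traj Φ p := by
  obtain ⟨t₀, h1, h2⟩ := (he.and (eventually_le_atBot (-inT p))).exists
  refine red_unique hΦ hz (traj_isRed hΦ hp) (t₀ := t₀) ?_ ?_
  · rw [h1, traj_early hΦ hp h2]
  · rw [h1]
    have := adm_free (Φ := Φ) hp (s := -t₀) (by linarith)
    rwa [neg_neg] at this

theorem traj_act (hΦ : IsPotential Φ) (A : E3 ≃ₗᵢ[ℝ] E3) (p : Ph) (t : ℝ) :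
    traj Φ (act A p) t = act A (traj Φ p t) := by
  unfold traj
  have h1 : inT (act A p) = inT p := by
    unfold inT act
    simp only [LinearIsometryEquiv.norm_map]
  have h2 : ∀ s, free s (act A p) = act A (free s p) := by
    intro s; unfold free act; simp only [map_add, map_smul]
  rw [h1, h2, gflow_act hΦ]

/-! ### Exit -/

/-- The trajectory leaves the unit ball. -/
def Exits (Φ : E3 → ℝ) (p : Ph) : Prop := p.2 ≠ 0 ∧ ∃ t, Out (traj Φ p t)

theorem out_mono (hΦ : IsPotential Φ) {p : Ph} {s t : ℝ} (hst : s ≤ t)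
    (h : Out (traj Φ p s)) : Out (traj Φ p t) ∧ traj Φ p t = free (t - s) (traj Φ p s) := by
  have h1 : traj Φ p t = free (t - s) (traj Φ p s) := by
    rw [← gflow_free_fwd hΦ h.1 h.2 (sub_nonneg.2 hst), gflow_traj hΦ, sub_add_cancel]
  refine ⟨?_, h1⟩
  rw [h1]; exact h.free (sub_nonneg.2 hst)

open Classical in
/-- The line to which the trajectory is asymptotic in the future. -/
def scat (Φ : E3 → ℝ) (p : Ph) : Ph :=
  if h : Exits Φ p then free (-h.2.choose) (traj Φ p h.2.choose) else p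

theorem scat_of_not {p : Ph} (h : ¬ Exits Φ p) : scat Φ p = p := by
  unfold scat; rw [dif_neg h]

theorem scat_eq (hΦ : IsPotential Φ) {p : Ph} (hp : p.2 ≠ 0) {t : ℝ}
    (h : Out (traj Φ p t)) : scat Φ p = free (-t) (traj Φ p t) := by
  have hE : Exits Φ p := ⟨hp, t, h⟩
  unfold scat
  rw [dif_pos hE]
  have key : ∀ s t, s ≤ t → Out (traj Φ p s) → 
      free (-s) (traj Φ p s) = free (-t) (traj Φ p t) := by
    intro s t hst hs
    rw [(out_mono hΦ hst hs).2, ← free_add]
    congr 1; ring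
  rcases le_total hE.2.choose t with h1 | h1
  · exact key _ _ h1 hE.2.choose_spec
  · exact (key _ _ h1 h).symm

theorem traj_late (hΦ : IsPotential Φ) {p : Ph} (hp : p.2 ≠ 0) {t : ℝ}
    (h : Out (traj Φ p t)) : traj Φ p t = free t (scat Φ p) := by
  rw [scat_eq hΦ hp h, ← free_add, add_neg_cancel, free_zero]

theorem Exits.eventually (hΦ : IsPotential Φ) {p : Ph} (h : Exits Φ p) :
    ∀ᶠ t in atTop, Out (traj Φ p t) ∧ traj Φ p t = free t (scat Φ p) := by
  obtain ⟨hp, t₀, h0⟩ := h
  filter_upwards [eventually_ge_atTop t₀] with t ht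
  have h1 := (out_mono hΦ ht h0).1
  exact ⟨h1, traj_late hΦ hp h1⟩

theorem scat_snd_norm (hΦ : IsPotential Φ) (p : Ph) : ‖(scat Φ p).2‖ = ‖p.2‖ := by
  by_cases h : Exits Φ p
  · obtain ⟨hp, t, ht⟩ := h
    rw [scat_eq hΦ hp ht, free_snd]
    have h1 := en_traj hΦ hp t
    rw [en_of_one_le hΦ ht.1] at h1
    have h2 : ‖(traj Φ p t).2‖ ^ 2 = ‖p.2‖ ^ 2 := by linarith
    exact (sq_eq_sq₀ (norm_nonneg _) (norm_nonneg _)).1 h2
  · rw [scat_of_not h]

theorem scat_ang (hΦ : IsPotential Φ) (a b : E3) (p : Ph) : ang a b (scat Φ p) = ang a b p := by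
  by_cases h : Exits Φ p
  · obtain ⟨hp, t, ht⟩ := h
    rw [scat_eq hΦ hp ht]
    have h1 := ang_traj hΦ a b p t
    rw [← h1]
    unfold ang free
    simp only [inner_add_right, inner_smul_right]
    ring
  · rw [scat_of_not h]

theorem scat_snd_ne (hΦ : IsPotential Φ) {p : Ph} (hp : p.2 ≠ 0) : (scat Φ p).2 ≠ 0 := by
  rw [← norm_ne_zero_iff, scat_snd_norm hΦ]
  exact norm_ne_zero_iff.2 hp

theorem exits_free (hΦ : IsPotential Φ) {p : Ph} (s : ℝ) : Exits Φ (free s p) ↔ Exits Φ p := by
  have key : ∀ (p : Ph) (s : ℝ), Exits Φ p → Exits Φ (free s p) := by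
    rintro p s ⟨hp, t, ht⟩
    refine ⟨hp, t - s, ?_⟩
    rw [traj_free hΦ hp, sub_add_cancel]
    exact ht
  refine ⟨fun h => ?_, key p s⟩
  have := key _ (-s) h
  rwa [← free_add, neg_add_cancel, free_zero] at this

/-- Scattering commutes with the free motion. -/
theorem scat_free (hΦ : IsPotential Φ) (s : ℝ) (p : Ph) :
    scat Φ (free s p) = free s (scat Φ p) := by
  by_cases h : Exits Φ p
  · obtain ⟨hp, t, ht⟩ := h
    have h1 : Out (traj Φ (free s p) (t - s)) := by
      rw [traj_free hΦ hp, sub_add_cancel]; exact ht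
    rw [scat_eq hΦ (p := free s p) hp h1, scat_eq hΦ hp ht, traj_free hΦ hp, sub_add_cancel,
      ← free_add]
    congr 1; ring
  · rw [scat_of_not h, scat_of_not (fun h' => h ((exits_free hΦ s).1 h'))]

theorem exits_act (hΦ : IsPotential Φ) (A : E3 ≃ₗᵢ[ℝ] E3) (p : Ph) :
    Exits Φ (act A p) ↔ Exits Φ p := by
  unfold Exits
  have h1 : ∀ q : Ph, Out (act A q) ↔ Out q := by
    intro q
    unfold Out act
    simp only [LinearIsometryEquiv.norm_map, LinearIsometryEquiv.inner_map_map]
  simp_rw [traj_act hΦ, h1]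
  unfold act
  simp only [Ne, map_eq_zero_iff A A.injective]

theorem scat_act (hΦ : IsPotential Φ) (A : E3 ≃ₗᵢ[ℝ] E3) (p : Ph) :
    scat Φ (act A p) = act A (scat Φ p) := by
  by_cases h : Exits Φ p
  · have h' := (exits_act hΦ A p).2 h
    obtain ⟨hp, t, ht⟩ := h
    have h1 : Out (traj Φ (act A p) t) := by
      rw [traj_act hΦ]
      unfold Out act
      simp only [LinearIsometryEquiv.norm_map, LinearIsometryEquiv.inner_map_map]
      exact ht
    rw [scat_eq hΦ h'.1 h1, scat_eq hΦ hp ht, traj_act hΦ]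
    unfold free act
    simp only [map_add, map_smul]
  · rw [scat_of_not h, scat_of_not (fun h' => h ((exits_act hΦ A p).1 h'))]

/-- Time reversal: the reversed outgoing line is scattered to the reversed incoming line. -/
theorem traj_rev_scat (hΦ : IsPotential Φ) {p : Ph} (h : Exits Φ p) (t : ℝ) :
    traj Φ (rev (scat Φ p)) t = rev (traj Φ p (-t)) := by
  have hp := h.1
  have hp' : (rev (scat Φ p)).2 ≠ 0 := by
    unfold rev; simpa using scat_snd_ne hΦ hp
  have h1 : (fun t => rev (traj Φ p (-t))) = traj Φ (rev (scat Φ p)) := by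
    refine eq_traj hΦ hp' (isRed_rev (traj_isRed hΦ hp)) ?_
    have h2 := tendsto_neg_atBot_atTop.eventually (h.eventually hΦ)
    filter_upwards [h2] with t ht
    rw [ht.2]
    unfold rev free
    simp
  exact (congrFun h1 t).symm

theorem exits_rev_scat (hΦ : IsPotential Φ) {p : Ph} (h : Exits Φ p) :
    Exits Φ (rev (scat Φ p)) := by
  refine ⟨by unfold rev; simpa using scat_snd_ne hΦ h.1, inT p, ?_⟩
  rw [traj_rev_scat hΦ h, traj_early hΦ h.1 le_rfl, out_rev]
  exact inc_free h.1 le_rfl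

theorem scat_rev_scat (hΦ : IsPotential Φ) {p : Ph} (h : Exits Φ p) :
    scat Φ (rev (scat Φ p)) = rev p := by
  have h1 : Out (traj Φ (rev (scat Φ p)) (inT p)) := by
    rw [traj_rev_scat hΦ h, traj_early hΦ h.1 le_rfl, out_rev]
    exact inc_free h.1 le_rfl
  rw [scat_eq hΦ (exits_rev_scat hΦ h).1 h1, traj_rev_scat hΦ h, traj_early hΦ h.1 le_rfl]
  unfold rev free
  simp

/-! ### Comparison with the definition of the problem -/

theorem scatters_iff (hΦ : IsPotential Φ) {V ρ V' : E3} (hV : V ≠ 0) :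
    Scatters Φ V ρ V' ↔ Exits Φ (ρ, V) ∧ (scat Φ (ρ, V)).2 = V' := by
  have hp : ((ρ, V) : Ph).2 ≠ 0 := hV
  constructor
  · rintro ⟨r, w, h1, h2, h3⟩
    have hz : IsRed Φ (fun t => (r t, w t)) := fun t => (h1 t).1.prodMk (h1 t).2
    have h4 : (fun t => (r t, w t)) = traj Φ (ρ, V) := by
      refine eq_traj hΦ hp hz ?_
      obtain ⟨T, hT⟩ := eventually_atBot.1 h2
      filter_upwards [eventually_lt_atBot T] with t ht
      have h5 : r =ᶠ[𝓝 t] fun s => ρ + s • V := by
        filter_upwards [Iio_mem_nhds ht] with s hs using hT s (le_of_lt hs)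
      have h6 : HasDerivAt (fun s : ℝ => ρ + s • V) V t := by
        have := ((hasDerivAt_id t).smul_const V).const_add ρ
        simpa using this
      have h7 : w t = V := ((h1 t).1.congr_of_eventuallyEq h5.symm).unique h6
      unfold free
      ext1
      · exact hT t ht.le
      · exact h7
    have h4' : ∀ t, traj Φ (ρ, V) t = (r t, w t) := fun t => (congrFun h4 t).symm
    -- late times
    obtain ⟨T, hT⟩ := eventually_atTop.1 h3
    have hnorm : ‖V'‖ = ‖V‖ := by
      have h5 := en_traj hΦ hp T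
      rw [h4', en_of_one_le hΦ (p := (r T, w T)) (hT T le_rfl).1] at h5
      simp only [(hT T le_rfl).2] at h5
      have h6 : ‖V'‖ ^ 2 = ‖V‖ ^ 2 := by linarith
      exact (sq_eq_sq₀ (norm_nonneg _) (norm_nonneg _)).1 h6
    have hV' : 0 < ‖V'‖ := by rw [hnorm]; exact norm_pos_iff.2 hV
    have hr : ∀ t, T ≤ t → r t = r T + (t - T) • V' := by
      intro t ht
      have h5 : ∀ s ∈ Icc T t, HasDerivWithinAt (fun s => r s - s • V') 0 (Icc T t) s := by
        intro s hs
        have h6 := (h1 s).1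
        rw [(hT s hs.1).2] at h6
        have h7 : HasDerivAt (fun s : ℝ => s • V') V' s := by
          simpa using (hasDerivAt_id s).smul_const V'
        have h8 := (h6.sub h7).hasDerivWithinAt (s := Icc T t)
        rw [sub_self] at h8
        exact h8
      have h6 : (fun s => r s - s • V') t = (fun s => r s - s • V') T := by
        rcases ht.eq_or_lt with h7 | h7
        · rw [h7]
        · exact constant_of_has_deriv_right_zero
            (fun s hs => (h5 s hs).continuousWithinAt)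
            (fun s hs => ((h5 s ⟨hs.1, hs.2.le⟩).mono_of_mem_nhdsWithin
              (Icc_mem_nhdsGE_of_mem hs))) t ⟨ht, le_rfl⟩
      simp only at h6
      rw [sub_eq_iff_eq_add] at h6
      rw [h6, sub_smul]
      abel
    obtain ⟨t, ht1, ht2⟩ : ∃ t, T ≤ t ∧ 0 ≤ (inner ℝ (r t) V' : ℝ) := by
      refine ⟨T + |(inner ℝ (r T) V' : ℝ)| / ‖V'‖ ^ 2, by
        have : 0 ≤ |(inner ℝ (r T) V' : ℝ)| / ‖V'‖ ^ 2 := by positivity
        linarith, ?_⟩
      rw [hr _ (by
        have : 0 ≤ |(inner ℝ (r T) V' : ℝ)| / ‖V'‖ ^ 2 := by positivity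
        linarith)]
      rw [inner_add_left, real_inner_smul_left, real_inner_self_eq_norm_sq, add_sub_cancel_left,
        div_mul_cancel₀ _ (by positivity)]
      have := neg_abs_le (inner ℝ (r T) V' : ℝ)
      linarith
    have hout : Out (traj Φ (ρ, V) t) := by
      rw [h4']
      refine ⟨(hT t ht1).1, ?_⟩
      simp only [(hT t ht1).2]
      exact ht2
    refine ⟨⟨hp, t, hout⟩, ?_⟩
    rw [scat_eq hΦ hp hout, free_snd, h4']
    exact (hT t ht1).2
  · rintro ⟨h1, h2⟩
    refine ⟨fun t => (traj Φ (ρ, V) t).1, fun t => (traj Φ (ρ, V) t).2, fun t => ?_, ?_, ?_⟩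
    · have h3 := traj_isRed hΦ hp t
      exact ⟨h3.fst, h3.snd⟩
    · filter_upwards [eventually_le_atBot (-inT (ρ, V))] with t ht
      rw [traj_early hΦ hp ht]
      rfl
    · filter_upwards [h1.eventually hΦ] with t ht
      refine ⟨ht.1.1, ?_⟩
      rw [ht.2, free_snd, h2]

theorem outVel_eq (hΦ : IsPotential Φ) {V : E3} (ρ : E3) (hV : V ≠ 0) :
    outVel Φ V ρ = (scat Φ (ρ, V)).2 := by
  classical
  unfold outVel
  by_cases h : Exits Φ (ρ, V)
  · have hex : ∃ V', Scatters Φ V ρ V' := ⟨_, (scatters_iff hΦ hV).2 ⟨h, rfl⟩⟩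
    rw [dif_pos hex]
    exact ((scatters_iff hΦ hV).1 hex.choose_spec).2.symm
  · rw [scat_of_not h, dif_neg]
    rintro ⟨V', hV'⟩
    exact h ((scatters_iff hΦ hV).1 hV').1

end Vale.Agent.P119.KU
end
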