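import Vale.Agent.P119.KU.Scat6

/-!
# Collision invariance: the form used by the collision operator
-/

open MeasureTheory Filter Topology Set ProbabilityTheory
open scoped ENNReal NNReal RealInnerProductSpace

noncomputable section

namespace Vale.Agent.P119.KU

variable {Φ : E3 → ℝ}

theorem measurable_lintegral_kappa {F : E3 → E3 → ℝ≥0∞}
    (hF : Measurable (fun q : E3 × E3 => F q.1 q.2)) :
    Measurable (fun V : E3 => ∫⁻ ρ, F V ρ ∂(kappa V)) :=
  hF.lintegral_kernel_prod_right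

/-- For almost every velocity and impact vector the line is scattered. -/
theorem ae_exits_kappa (hΦ : IsPotential Φ) :
    ∀ᵐ V : E3, ∀ᵐ ρ ∂(kappa V), Exits Φ (ρ, V) := by
  classical
  have hE := (measurableSet_exits hΦ).compl
  have hFm : Measurable (fun q : E3 × E3 =>
      (({p : Ph | Exits Φ p}ᶜ).indicator 1 ((q.2, q.1) : Ph) : ℝ≥0∞)) :=
    ((measurable_one.indicator hE)).comp (measurable_snd.prodMk measurable_fst)
  have h1 := lintegral_bundle (F := fun V ρ => ({p : Ph | Exits Φ p}ᶜ).indicator 1 ((ρ, V) : Ph))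
    hFm
  have h2 : ∫⁻ p in cyl, (({p : Ph | Exits Φ p}ᶜ).indicator 1 ((perp p, p.2) : Ph) : ℝ≥0∞) = 0 := by
    have h3 : ∀ p : Ph, (({p : Ph | Exits Φ p}ᶜ).indicator 1 ((perp p, p.2) : Ph) : ℝ≥0∞) =
        ({p : Ph | Exits Φ p}ᶜ).indicator 1 p := by
      intro p
      have h4 : ((perp p, p.2) : Ph) ∈ {p : Ph | Exits Φ p}ᶜ ↔ p ∈ {p : Ph | Exits Φ p}ᶜ := by
        rw [mem_compl_iff, mem_compl_iff, not_iff_not]
        have h5 := exits_free hΦ (p := (perp p, p.2)) (crd p)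
        rw [free_crd_perp] at h5
        exact h5.symm
      by_cases hp : p ∈ {p : Ph | Exits Φ p}ᶜ
      · rw [indicator_of_mem (h4.2 hp), indicator_of_mem hp]
        rfl
      · rw [indicator_of_notMem (fun h => hp (h4.1 h)), indicator_of_notMem hp]
    simp_rw [h3]
    rw [lintegral_indicator hE]
    have h5 : (volume : Measure Ph) {p : Ph | Exits Φ p}ᶜ = 0 := by
      have := ae_exits hΦ
      rwa [ae_iff] at this
    rw [Measure.restrict_restrict hE]
    apply setLIntegral_measure_zero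
    exact measure_mono_null inter_subset_left h5
  rw [h2] at h1
  have hmeas := measurable_lintegral_kappa
    (F := fun V ρ => ({p : Ph | Exits Φ p}ᶜ).indicator 1 ((ρ, V) : Ph)) hFm
  have h6 := (lintegral_eq_zero_iff (measurable_enorm.mul hmeas)).1 h1
  have hne : ∀ᵐ V : E3, V ≠ 0 := by
    rw [ae_iff]; simp
  filter_upwards [h6, hne] with V hV hV0
  have h7 : ∫⁻ ρ, (({p : Ph | Exits Φ p}ᶜ).indicator 1 ((ρ, V) : Ph) : ℝ≥0∞) ∂(kappa V) = 0 := by
    have h8 : ‖V‖ₑ * ∫⁻ ρ, (({p : Ph | Exits Φ p}ᶜ).indicator 1 ((ρ, V) : Ph) : ℝ≥0∞)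
        ∂(kappa V) = 0 := hV
    rcases mul_eq_zero.1 h8 with h9 | h9
    · exact absurd h9 (by simpa using hV0)
    · exact h9
  have h8 : Measurable (fun ρ : E3 => (({p : Ph | Exits Φ p}ᶜ).indicator 1 ((ρ, V) : Ph) : ℝ≥0∞)) :=
    (measurable_one.indicator hE).comp measurable_prodMk_right
  have h9 := (lintegral_eq_zero_iff h8).1 h7
  filter_upwards [h9] with ρ hρ
  by_contra hcon
  have h10 : ((ρ, V) : Ph) ∈ {p : Ph | Exits Φ p}ᶜ := hcon
  simp only [Pi.zero_apply] at hρ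
  rw [indicator_of_mem h10] at hρ
  exact one_ne_zero hρ

/-! ### Equivariance of the kernel -/

/-- The kernel is equivariant under linear isometries. -/
theorem lintegral_kappa_map (A : E3 ≃ₗᵢ[ℝ] E3) (V : E3) {F : E3 → ℝ≥0∞} (hF : Measurable F) :
    ∫⁻ ρ, F ρ ∂(kappa (A V)) = ∫⁻ ρ, F (A ρ) ∂(kappa V) := by
  by_cases hV : V = 0
  · rw [hV, map_zero, kappa_zero]; simp
  have hAm : Measurable (fun x : E3 => A x) := A.continuous.measurable
  have h1 := lintegral_kappa (A V) hF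
  have hFA : Measurable (fun x : E3 => F (A x)) := hF.comp hAm
  have h2 := lintegral_kappa V hFA
  have hFp : Measurable (fun x : E3 => F (perp (x, A V))) := hF.comp (measurable_perp_left (A V))
  have hmA : MeasurePreserving (fun x : E3 => A x) volume volume := A.measurePreserving
  have h3 : ∫⁻ x in cylAt (A V), F (perp (x, A V)) = ∫⁻ x in cylAt V, F (A (perp (x, V))) := by
    rw [← hmA.setLIntegral_comp_preimage (measurableSet_cylAt _) hFp]
    have h4 : (fun x : E3 => A x) ⁻¹' cylAt (A V) = cylAt V := by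
      ext x
      have hc := crd_act A (x, V)
      have hp := perp_act A (x, V)
      unfold act at hc hp
      simp only at hc hp
      simp only [cylAt, cyl, mem_preimage, mem_ofPred_eq]
      rw [hc, hp, A.norm_map, Ne, map_eq_zero_iff A A.injective]
    rw [h4]
    refine setLIntegral_congr_fun (measurableSet_cylAt V) fun x _ => ?_
    have hp := perp_act A (x, V)
    unfold act at hp
    simp only at hp
    rw [hp]
  rw [h3, ← h2] at h1
  have h5 : ‖A V‖ₑ = ‖V‖ₑ := by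
    rw [← ofReal_norm, ← ofReal_norm, A.norm_map]
  rw [h5] at h1
  exact (ENNReal.mul_right_inj (by simpa using hV) enorm_ne_top).1 h1

theorem kappa_smul {c : ℝ} (hc : c ≠ 0) (V : E3) : kappa (c • V) = kappa V := by
  by_cases hV : V = 0
  · rw [hV, smul_zero]
  · rw [kappa_eq_hausdorff hV, kappa_eq_hausdorff (smul_ne_zero hc hV)]
    congr 1
    ext ρ
    simp only [mem_ofPred_eq, real_inner_smul_right, mul_eq_zero, hc, false_or]

theorem kappa_neg (V : E3) : kappa (-V) = kappa V := by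
  have := kappa_smul (c := -1) (by norm_num) V
  rwa [neg_one_smul] at this

/-- The parity. -/
def parity : E3 ≃ₗᵢ[ℝ] E3 := LinearIsometryEquiv.neg ℝ

theorem parity_apply (x : E3) : parity x = -x := rfl

theorem lintegral_kappa_neg (V : E3) {F : E3 → ℝ≥0∞} (hF : Measurable F) :
    ∫⁻ ρ, F (-ρ) ∂(kappa V) = ∫⁻ ρ, F ρ ∂(kappa V) := by
  have h := lintegral_kappa_map parity V hF
  rw [parity_apply, kappa_neg] at h
  exact h.symm

/-! ### Microreversibility -/

/-- The inverse collision. -/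
theorem outVel_inv (hΦ : IsPotential Φ) {V ρ : E3} (h : Exits Φ (ρ, V)) :
    outVel Φ (outVel Φ V ρ) (-outImp Φ V ρ) = V ∧
    ((inner ℝ ρ V : ℝ) = 0 → outImp Φ (outVel Φ V ρ) (-outImp Φ V ρ) = -ρ) ∧
    Exits Φ (-outImp Φ V ρ, outVel Φ V ρ) := by
  have hV : V ≠ 0 := h.1
  have h1 := scat_rev_scat hΦ h
  have hE := exits_rev_scat hΦ h
  have hV' : outVel Φ V ρ ≠ 0 := by
    rw [← norm_ne_zero_iff, norm_outVel hΦ hV]; exact norm_ne_zero_iff.2 hV
  rw [scat_eq_out hΦ hV] at h1 hE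
  unfold rev at h1 hE
  simp only at h1 hE
  -- parity
  have h2 : ∀ q : Ph, act parity q = (-q.1, -q.2) := fun q => rfl
  have h3 := congrArg (act parity) h1
  rw [← scat_act hΦ, h2, h2] at h3
  simp only [neg_neg] at h3
  have hE2 := (exits_act hΦ parity _).2 hE
  rw [h2] at hE2
  simp only [neg_neg] at hE2
  -- shift
  have h4 : ((-(outImp Φ V ρ - delay Φ V ρ • outVel Φ V ρ), outVel Φ V ρ) : Ph) =
      free (delay Φ V ρ) (-outImp Φ V ρ, outVel Φ V ρ) := by
    unfold free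
    ext1
    · simp only; abel
    · rfl
  rw [h4, scat_free hΦ] at h3
  rw [h4, exits_free hΦ] at hE2
  refine ⟨?_, ?_, hE2⟩
  · rw [outVel_eq hΦ _ hV']
    have h5 := congrArg Prod.snd h3
    rw [free_snd] at h5
    exact h5
  · intro h0
    unfold outImp
    have h5 := congrArg perp h3
    rw [perp_free] at h5
    have h6 : perp ((-ρ, V) : Ph) = -ρ := by
      apply perp_of_inner (p := ((-ρ, V) : Ph))
      simp only; rw [inner_neg_left, h0, neg_zero]
    rw [h6] at h5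
    exact h5

/-- Impact vectors are orthogonal to the velocity, almost everywhere. -/
theorem ae_inner_kappa (V : E3) : ∀ᵐ ρ ∂(kappa V), (inner ℝ ρ V : ℝ) = 0 ∧ ‖ρ‖ < 1 := by
  by_cases hV : V = 0
  · rw [hV, kappa_zero]; simp
  · rw [kappa_eq_hausdorff hV]
    have hm : MeasurableSet {ρ : E3 | ‖ρ‖ < 1 ∧ ⟪ρ, V⟫ = 0} :=
      (measurableSet_lt measurable_norm measurable_const).inter
        (measurableSet_eq_fun (by fun_prop) measurable_const)
    filter_upwards [ae_restrict_mem hm] with ρ hρ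
    exact ⟨hρ.2, hρ.1⟩

/-- **Microreversibility** of scattering. -/
theorem lintegral_micro (hΦ : IsPotential Φ) {A : E3 → E3 → E3 → E3 → ℝ≥0∞}
    (hA : Measurable (fun q : (E3 × E3) × (E3 × E3) => A q.1.1 q.1.2 q.2.1 q.2.2)) :
    ∫⁻ V, ‖V‖ₑ * ∫⁻ ρ, A V ρ (outVel Φ V ρ) (outImp Φ V ρ) ∂(kappa V) =
      ∫⁻ V, ‖V‖ₑ * ∫⁻ ρ, A (outVel Φ V ρ) (-outImp Φ V ρ) V (-ρ) ∂(kappa V) := by
  have mV := measurable_outVel hΦ
  have mI := measurable_outImp hΦ
  have mneg : Measurable (fun q : E3 × E3 => ((q.1, -q.2) : E3 × E3)) :=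
    measurable_fst.prodMk measurable_snd.neg
  have mG : Measurable (fun q : E3 × E3 =>
      A (outVel Φ q.1 (-q.2)) (-outImp Φ q.1 (-q.2)) q.1 q.2) := by
    have m1 : Measurable (fun q : E3 × E3 => outVel Φ q.1 (-q.2)) := mV.comp mneg
    have m2 : Measurable (fun q : E3 × E3 => -outImp Φ q.1 (-q.2)) := (mI.comp mneg).neg
    exact hA.comp ((m1.prodMk m2).prodMk (measurable_fst.prodMk measurable_snd))
  have h1 := lintegral_scattering hΦ
    (F := fun V ρ => A (outVel Φ V (-ρ)) (-outImp Φ V (-ρ)) V ρ) mG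
  have h2 : ∫⁻ V, ‖V‖ₑ * ∫⁻ ρ, A V ρ (outVel Φ V ρ) (outImp Φ V ρ) ∂(kappa V) =
      ∫⁻ V, ‖V‖ₑ * ∫⁻ ρ, A (outVel Φ (outVel Φ V ρ) (-outImp Φ V ρ))
        (-outImp Φ (outVel Φ V ρ) (-outImp Φ V ρ)) (outVel Φ V ρ) (outImp Φ V ρ) ∂(kappa V) := by
    refine lintegral_congr_ae ?_
    filter_upwards [ae_exits_kappa hΦ] with V hV
    congr 1
    refine lintegral_congr_ae ?_
    filter_upwards [hV, ae_inner_kappa V] with ρ hρ h0
    obtain ⟨h3, h4, -⟩ := outVel_inv hΦ hρ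
    rw [h3, h4 h0.1, neg_neg]
  rw [h2, h1]
  refine lintegral_congr fun V => ?_
  congr 1
  have h5 : Measurable (fun ρ : E3 => A (outVel Φ V (-ρ)) (-outImp Φ V (-ρ)) V ρ) :=
    mG.comp measurable_prodMk_left
  rw [← lintegral_kappa_neg V h5]
  refine lintegral_congr fun ρ => ?_
  rw [neg_neg]

/-! ### Two velocities -/

/-- Post-collisional velocity of the first particle. -/
def postV (Φ : E3 → ℝ) (v vs ρ : E3) : E3 := (2 : ℝ)⁻¹ • (v + vs + outVel Φ (v - vs) ρ)

/-- Post-collisional velocity of the second particle. -/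
def postW (Φ : E3 → ℝ) (v vs ρ : E3) : E3 := (2 : ℝ)⁻¹ • (v + vs - outVel Φ (v - vs) ρ)

theorem postV_sub_postW (v vs ρ : E3) :
    postV Φ v vs ρ - postW Φ v vs ρ = outVel Φ (v - vs) ρ := by
  unfold postV postW
  module

theorem postV_add_postW (v vs ρ : E3) : postV Φ v vs ρ + postW Φ v vs ρ = v + vs := by
  unfold postV postW
  module

/-- Conservation of energy. -/
theorem post_energy (hΦ : IsPotential Φ) (v vs ρ : E3) :
    ‖postV Φ v vs ρ‖ ^ 2 + ‖postW Φ v vs ρ‖ ^ 2 = ‖v‖ ^ 2 + ‖vs‖ ^ 2 := by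
  have h1 : ‖outVel Φ (v - vs) ρ‖ ^ 2 = ‖v - vs‖ ^ 2 := by
    by_cases h : v - vs = 0
    · rw [h, outVel_zero hΦ]
    · rw [norm_outVel hΦ h]
  have h2 := parallelogram_law_with_norm ℝ (postV Φ v vs ρ) (postW Φ v vs ρ)
  have h3 := parallelogram_law_with_norm ℝ v vs
  rw [postV_add_postW, postV_sub_postW] at h2
  nlinarith

theorem measurable_postV (hΦ : IsPotential Φ) :
    Measurable (fun q : (E3 × E3) × E3 => postV Φ q.1.1 q.1.2 q.2) := by
  have h1 : Measurable (fun q : (E3 × E3) × E3 => outVel Φ (q.1.1 - q.1.2) q.2) :=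
    (measurable_outVel hΦ).comp ((measurable_fst.fst.sub measurable_fst.snd).prodMk measurable_snd)
  unfold postV
  fun_prop

theorem measurable_postW (hΦ : IsPotential Φ) :
    Measurable (fun q : (E3 × E3) × E3 => postW Φ q.1.1 q.1.2 q.2) := by
  have h1 : Measurable (fun q : (E3 × E3) × E3 => outVel Φ (q.1.1 - q.1.2) q.2) :=
    (measurable_outVel hΦ).comp ((measurable_fst.fst.sub measurable_fst.snd).prodMk measurable_snd)
  unfold postW
  fun_prop

/-- The kernel of impact vectors for a pair of velocities. -/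
def kappa2 : Kernel (E3 × E3) E3 := kappa.comap (fun q => q.1 - q.2) (by fun_prop)

theorem kappa2_apply (q : E3 × E3) : kappa2 q = kappa (q.1 - q.2) := by
  unfold kappa2; rw [Kernel.comap_apply]

instance : IsFiniteKernel kappa2 := by unfold kappa2; infer_instance

/-- Centre of mass and relative velocity. -/
theorem cm_preserving : MeasurePreserving
    (fun q : E3 × E3 => ((q.1 + (2 : ℝ)⁻¹ • q.2, q.1 - (2 : ℝ)⁻¹ • q.2) : E3 × E3))
    volume volume := by
  have h1 : MeasurePreserving (fun p : E3 × E3 => (p.1 + (2 : ℝ)⁻¹ • p.2, p.2)) volume volume :=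
    shear_preserving (2 : ℝ)⁻¹
  have h2 : MeasurePreserving (fun p : E3 × E3 => (p.1, p.1 - p.2)) volume volume := by
    refine MeasurePreserving.skew_product (f := fun x : E3 => x) (g := fun x y => x - y)
      (MeasurePreserving.id _) (by fun_prop) ?_
    refine Eventually.of_forall fun x => ?_
    exact (Measure.measurePreserving_sub_left (volume : Measure E3) x).map_eq
  have h3 := h2.comp h1
  have e : (fun q : E3 × E3 => ((q.1 + (2 : ℝ)⁻¹ • q.2, q.1 - (2 : ℝ)⁻¹ • q.2) : E3 × E3)) =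
      (fun p : E3 × E3 => (p.1, p.1 - p.2)) ∘ (fun p : E3 × E3 => (p.1 + (2 : ℝ)⁻¹ • p.2, p.2)) := by
    funext q
    simp only [Function.comp]
    ext1
    · rfl
    · simp only; module
  rw [e]; exact h3

theorem lintegral_cm {G : E3 → E3 → ℝ≥0∞} (hG : Measurable (fun q : E3 × E3 => G q.1 q.2)) :
    ∫⁻ v, ∫⁻ vs, G v vs = ∫⁻ c, ∫⁻ V, G (c + (2 : ℝ)⁻¹ • V) (c - (2 : ℝ)⁻¹ • V) := by
  have h1 := cm_preserving.lintegral_comp hG
  have hG' : Measurable (fun q : E3 × E3 => G (q.1 + (2 : ℝ)⁻¹ • q.2) (q.1 - (2 : ℝ)⁻¹ • q.2)) :=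
    hG.comp cm_preserving.measurable
  rw [Measure.volume_eq_prod, lintegral_prod _ hG'.aemeasurable,
    lintegral_prod _ hG.aemeasurable] at h1
  exact h1.symm

/-- **The collision measure is invariant** under the collision. -/
theorem lintegral_collision (hΦ : IsPotential Φ) {F : E3 → E3 → E3 → ℝ≥0∞}
    (hF : Measurable (fun q : (E3 × E3) × E3 => F q.1.1 q.1.2 q.2)) :
    ∫⁻ v, ∫⁻ vs, ‖v - vs‖ₑ * ∫⁻ ρ, F (postV Φ v vs ρ) (postW Φ v vs ρ)
        (outImp Φ (v - vs) ρ) ∂(kappa (v - vs)) =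
      ∫⁻ v, ∫⁻ vs, ‖v - vs‖ₑ * ∫⁻ ρ, F v vs ρ ∂(kappa (v - vs)) := by
  have m0 : Measurable (fun q : E3 × E3 => q.1 - q.2) := by fun_prop
  have m1 : Measurable (fun q : (E3 × E3) × E3 => outImp Φ (q.1.1 - q.1.2) q.2) :=
    (measurable_outImp hΦ).comp ((measurable_fst.fst.sub measurable_fst.snd).prodMk measurable_snd)
  have hL : Measurable (fun q : (E3 × E3) × E3 =>
      F (postV Φ q.1.1 q.1.2 q.2) (postW Φ q.1.1 q.1.2 q.2) (outImp Φ (q.1.1 - q.1.2) q.2)) :=
    hF.comp (((measurable_postV hΦ).prodMk (measurable_postW hΦ)).prodMk m1)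
  have kL : Measurable (fun q : E3 × E3 => ‖q.1 - q.2‖ₑ *
      ∫⁻ ρ, F (postV Φ q.1 q.2 ρ) (postW Φ q.1 q.2 ρ) (outImp Φ (q.1 - q.2) ρ)
        ∂(kappa (q.1 - q.2))) := by
    have h := hL.lintegral_kernel_prod_right' (κ := kappa2)
    simp_rw [kappa2_apply] at h
    exact m0.enorm.mul h
  have kR : Measurable (fun q : E3 × E3 => ‖q.1 - q.2‖ₑ *
      ∫⁻ ρ, F q.1 q.2 ρ ∂(kappa (q.1 - q.2))) := by
    have h := hF.lintegral_kernel_prod_right' (κ := kappa2)
    simp_rw [kappa2_apply] at h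
    exact m0.enorm.mul h
  rw [lintegral_cm (G := fun v vs => ‖v - vs‖ₑ * ∫⁻ ρ, F (postV Φ v vs ρ) (postW Φ v vs ρ)
        (outImp Φ (v - vs) ρ) ∂(kappa (v - vs))) kL,
    lintegral_cm (G := fun v vs => ‖v - vs‖ₑ * ∫⁻ ρ, F v vs ρ ∂(kappa (v - vs))) kR]
  refine lintegral_congr fun c => ?_
  have e1 : ∀ V : E3, c + (2 : ℝ)⁻¹ • V - (c - (2 : ℝ)⁻¹ • V) = V := by intro V; module
  have e2 : ∀ V ρ : E3, postV Φ (c + (2 : ℝ)⁻¹ • V) (c - (2 : ℝ)⁻¹ • V) ρ =
      c + (2 : ℝ)⁻¹ • outVel Φ V ρ := by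
    intro V ρ; unfold postV; rw [e1]; module
  have e3 : ∀ V ρ : E3, postW Φ (c + (2 : ℝ)⁻¹ • V) (c - (2 : ℝ)⁻¹ • V) ρ =
      c - (2 : ℝ)⁻¹ • outVel Φ V ρ := by
    intro V ρ; unfold postW; rw [e1]; module
  simp only [e1, e2, e3]
  have m2 : Measurable (fun q : E3 × E3 =>
      (((c + (2 : ℝ)⁻¹ • q.1, c - (2 : ℝ)⁻¹ • q.1), q.2) : (E3 × E3) × E3)) := by fun_prop
  have hFc : Measurable (fun q : E3 × E3 => F (c + (2 : ℝ)⁻¹ • q.1) (c - (2 : ℝ)⁻¹ • q.1) q.2) :=
    hF.comp m2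
  exact lintegral_scattering hΦ
    (F := fun V ρ => F (c + (2 : ℝ)⁻¹ • V) (c - (2 : ℝ)⁻¹ • V) ρ) hFc

end Vale.Agent.P119.KU
end
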