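import Vale.Agent.P119.Bdl.B1

/-!
# The reduced two-body motion, smooth potentials

For a smooth radial potential vanishing outside the unit ball, the flow of
`r'' = -2 ∇Ψ(r)` on phase space: group property, conservation laws, equivariance under linear
isometries, time reversal, free motion outside the ball, preservation of Lebesgue measure.
-/

open MeasureTheory Filter Topology Set
open scoped ENNReal NNReal RealInnerProductSpace

noncomputable section

namespace Vale.Agent.P119.KU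

/-- The acceleration of the reduced motion. -/
def acc (Ψ : E3 → ℝ) (x : E3) : E3 := -((2 : ℝ) • gradient Ψ x)

/-- A global solution of the reduced equation `r'' = -2 ∇Φ(r)`. -/
def IsRed (Φ : E3 → ℝ) (z : ℝ → Ph) : Prop := ∀ t, HasDerivAt z (field (acc Φ) (z t)) t

/-- Smooth radial potentials vanishing outside the unit ball. -/
structure Sm (Ψ : E3 → ℝ) : Prop where
  smooth : ContDiff ℝ 2 Ψ
  radial : ∀ x y : E3, ‖x‖ = ‖y‖ → Ψ x = Ψ y
  vanishing : ∀ x : E3, 1 ≤ ‖x‖ → Ψ x = 0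

theorem sm_of_isPotential {Φ : E3 → ℝ} (h : IsPotential Φ) (hs : ContDiff ℝ 2 Φ) : Sm Φ :=
  ⟨hs, h.radial', h.vanishing⟩

theorem sm_trunc {Φ : E3 → ℝ} (h : IsPotential Φ) {M : ℝ} (hM : 0 ≤ M) : Sm (trunc Φ M) :=
  sm_of_isPotential (trunc_isPotential h hM) (trunc_smooth h M)

variable {Ψ : E3 → ℝ}

theorem Sm.acc_lipschitz (h : Sm Ψ) :
    ∃ K M : ℝ≥0, LipschitzWith K (acc Ψ) ∧ ∀ x, ‖acc Ψ x‖ ≤ M := by
  obtain ⟨K, M, hK, hM⟩ := gradient_lipschitz_bounded h.smooth h.vanishing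
  refine ⟨2 * K, 2 * M, LipschitzWith.of_dist_le_mul fun x y => ?_, fun x => ?_⟩
  · unfold acc
    rw [dist_neg_neg, dist_smul₀]
    have := hK.dist_le_mul x y
    simp only [Real.norm_ofNat, NNReal.coe_mul, NNReal.coe_ofNat]
    linarith
  · unfold acc
    rw [norm_neg, norm_smul]
    have := hM x
    simp only [Real.norm_ofNat, NNReal.coe_mul, NNReal.coe_ofNat]
    linarith

/-- The gradient vanishes at distance at least one. -/
theorem Sm.gradient_eq_zero (h : Sm Ψ) {x : E3} (hx : 1 ≤ ‖x‖) : gradient Ψ x = 0 := by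
  obtain ⟨K, M, hK, hM⟩ := gradient_lipschitz_bounded h.smooth h.vanishing
  have hcl : IsClosed {y : E3 | gradient Ψ y = 0} :=
    isClosed_eq hK.continuous continuous_const
  have hsub : (Metric.closedBall (0 : E3) 1)ᶜ ⊆ {y : E3 | gradient Ψ y = 0} := by
    intro y hy
    have hopen : IsOpen ((Metric.closedBall (0 : E3) 1)ᶜ) := Metric.isClosed_closedBall.isOpen_compl
    have h1 : Ψ =ᶠ[𝓝 y] fun _ => 0 := by
      filter_upwards [hopen.mem_nhds hy] with z hz
      apply h.vanishing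
      have hz' : ¬ ‖z‖ ≤ 1 := by simpa using hz
      exact (not_le.1 hz').le
    change gradient Ψ y = 0
    rw [h1.gradient_eq]
    unfold gradient
    simp
  have h2 : closure ((Metric.closedBall (0 : E3) 1)ᶜ) ⊆ {y : E3 | gradient Ψ y = 0} :=
    hcl.closure_subset_iff.2 hsub
  rw [closure_compl, interior_closedBall _ one_ne_zero] at h2
  apply h2
  simpa using hx

theorem Sm.acc_eq_zero (h : Sm Ψ) {x : E3} (hx : 1 ≤ ‖x‖) : acc Ψ x = 0 := by
  unfold acc; rw [h.gradient_eq_zero hx, smul_zero, neg_zero]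

/-- The force is parallel to the position. -/
theorem Sm.gradient_parallel (h : Sm Ψ) (x : E3) : ∃ c : ℝ, gradient Ψ x = c • x := by
  by_cases hx : x = 0
  · subst hx
    refine ⟨0, ?_⟩
    have h1 := gradient_odd h.radial (0 : E3)
    rw [neg_zero] at h1
    rw [smul_zero]
    have h2 : (2 : ℝ) • gradient Ψ (0 : E3) = 0 := by
      rw [two_smul]
      nth_rewrite 1 [h1]
      exact neg_add_cancel _
    simpa using h2
  · have hxx : (inner ℝ x x : ℝ) ≠ 0 := by rw [inner_self_eq_norm_sq_to_K]; simpa using hx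
    refine ⟨inner ℝ x (gradient Ψ x) / inner ℝ x x, ?_⟩
    set c : ℝ := inner ℝ x (gradient Ψ x) / inner ℝ x x with hc
    have h1 : (inner ℝ x (gradient Ψ x - c • x) : ℝ) = 0 := by
      rw [inner_sub_right, inner_smul_right, hc, div_mul_cancel₀ _ hxx, sub_self]
    have h2 : (inner ℝ (gradient Ψ x) (gradient Ψ x - c • x) : ℝ) = 0 :=
      gradient_inner_eq_zero h.radial ((h.smooth.differentiable (by norm_num)).differentiableAt) h1
    have h3 : (inner ℝ (gradient Ψ x - c • x) (gradient Ψ x - c • x) : ℝ) = 0 := by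
      rw [inner_sub_left, h2, inner_smul_left, h1]; simp
    exact sub_eq_zero.1 (inner_self_eq_zero.1 h3)

theorem Sm.acc_parallel (h : Sm Ψ) (x : E3) : ∃ c : ℝ, acc Ψ x = c • x := by
  obtain ⟨c, hc⟩ := h.gradient_parallel x
  exact ⟨-(2 * c), by unfold acc; rw [hc, smul_smul, neg_smul]⟩

/-! ### Uniqueness -/

theorem unique_of_lipschitz {Y : Type*} [NormedAddCommGroup Y] [NormedSpace ℝ Y] {F : Y → Y}
    {K : ℝ≥0} (hF : LipschitzWith K F) {z₁ z₂ : ℝ → Y} (h1 : ∀ t, HasDerivAt z₁ (F (z₁ t)) t)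
    (h2 : ∀ t, HasDerivAt z₂ (F (z₂ t)) t) {t₀ : ℝ} (h : z₁ t₀ = z₂ t₀) : z₁ = z₂ :=
  ODE_solution_unique_univ (v := fun _ => F) (s := fun _ => univ) (K := K)
    (fun _ => hF.lipschitzOnWith) (fun t => ⟨h1 t, trivial⟩) (fun t => ⟨h2 t, trivial⟩) h

theorem Sm.unique (h : Sm Ψ) {z₁ z₂ : ℝ → Ph} (h1 : IsRed Ψ z₁) (h2 : IsRed Ψ z₂) {t₀ : ℝ}
    (h0 : z₁ t₀ = z₂ t₀) : z₁ = z₂ := by
  obtain ⟨K, M, hK, hM⟩ := h.acc_lipschitz
  exact unique_of_lipschitz (field_lipschitz hK) h1 h2 h0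

/-! ### The flow -/

theorem Sm.exists_flow (h : Sm Ψ) : ∃ S : ℝ → Ph → Ph, (∀ p, S 0 p = p) ∧
    (∀ p, IsRed Ψ (fun t => S t p)) ∧ (∀ t, Continuous (S t)) ∧
    ∀ t, 0 ≤ t → (volume : Measure Ph).map (S t) ≤ volume := by
  obtain ⟨K, M, hK, hM⟩ := h.acc_lipschitz
  let G : (Fin 1 → E3) → (Fin 1 → E3) := fun x i => acc Ψ (x i)
  have hG : LipschitzWith K G := by
    refine LipschitzWith.of_dist_le_mul fun x y => ?_
    rw [dist_pi_le_iff (by positivity)]
    intro i
    refine (hK.dist_le_mul _ _).trans ?_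
    exact mul_le_mul_of_nonneg_left (dist_le_pi_dist x y i) K.2
  have hGM : ∀ x, ‖G x‖ ≤ M := by
    intro x
    exact (pi_norm_le_iff_of_nonneg M.2).2 fun i => hM _
  obtain ⟨S, hS0, hS, hSc⟩ := exists_config_flow hG hGM
  have hmp : MeasurePreserving (MeasurableEquiv.funUnique (Fin 1) Ph) volume volume :=
    volume_preserving_funUnique (Fin 1) Ph
  refine ⟨fun t p => S t (fun _ => p) 0, fun p => ?_, fun p t => ?_, fun t => ?_,
    fun t ht => ?_⟩
  · simp only [hS0]
  · exact hasDerivAt_pi.1 (hS (fun _ => p) t) 0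
  · have h1 : Continuous (fun p : Ph => (fun _ : Fin 1 => p)) := by fun_prop
    exact (continuous_apply 0).comp ((hSc t).comp h1)
  · have hmeas := (hSc t).measurable
    have hL := liouville hG hGM hS0 hS ht hmeas
    have e : (fun p : Ph => S t (fun _ => p) 0) =
        (MeasurableEquiv.funUnique (Fin 1) Ph) ∘ (S t) ∘
          (MeasurableEquiv.funUnique (Fin 1) Ph).symm := by
      funext p
      simp only [Function.comp]
      rfl
    change Measure.map (fun p : Ph => S t (fun _ => p) 0) volume ≤ volume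
    rw [e, ← Measure.map_map (MeasurableEquiv.measurable _)
      (hmeas.comp (MeasurableEquiv.measurable _)),
      ← Measure.map_map hmeas (MeasurableEquiv.measurable _), (hmp.symm _).map_eq]
    calc (Measure.map (S t) volume).map (MeasurableEquiv.funUnique (Fin 1) Ph)
        ≤ (volume : Measure (Fin 1 → Ph)).map (MeasurableEquiv.funUnique (Fin 1) Ph) :=
          Measure.map_mono hL (MeasurableEquiv.measurable _)
      _ = volume := hmp.map_eq

open Classical in
/-- The flow of the reduced motion for a smooth potential. -/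
def rflow (Ψ : E3 → ℝ) : ℝ → Ph → Ph :=
  if h : Sm Ψ then h.exists_flow.choose else fun _ p => p

theorem Sm.rflow_spec (h : Sm Ψ) : (∀ p, rflow Ψ 0 p = p) ∧
    (∀ p, IsRed Ψ (fun t => rflow Ψ t p)) ∧ (∀ t, Continuous (rflow Ψ t)) ∧
    ∀ t, 0 ≤ t → (volume : Measure Ph).map (rflow Ψ t) ≤ volume := by
  have e : rflow Ψ = h.exists_flow.choose := by
    unfold rflow; rw [dif_pos h]
  rw [e]
  exact h.exists_flow.choose_spec

theorem Sm.zero (h : Sm Ψ) (p : Ph) : rflow Ψ 0 p = p := h.rflow_spec.1 p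

theorem Sm.isRed (h : Sm Ψ) (p : Ph) : IsRed Ψ (fun t => rflow Ψ t p) := h.rflow_spec.2.1 p

theorem Sm.continuous (h : Sm Ψ) (t : ℝ) : Continuous (rflow Ψ t) := h.rflow_spec.2.2.1 t

theorem Sm.eq_rflow (h : Sm Ψ) {z : ℝ → Ph} (hz : IsRed Ψ z) (t₀ t : ℝ) :
    z t = rflow Ψ (t - t₀) (z t₀) := by
  have h1 : IsRed Ψ (fun t => rflow Ψ (t - t₀) (z t₀)) := by
    intro t
    have h2 := HasDerivAt.scomp t (h.isRed (z t₀) (t - t₀)) ((hasDerivAt_id t).sub_const t₀)
    rw [one_smul] at h2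
    exact h2
  have h2 := h.unique hz h1 (t₀ := t₀) (by simp only [sub_self]; rw [h.zero])
  exact congrFun h2 t

theorem Sm.add (h : Sm Ψ) (s t : ℝ) (p : Ph) : rflow Ψ (s + t) p = rflow Ψ s (rflow Ψ t p) := by
  have := h.eq_rflow (h.isRed p) t (s + t)
  rwa [add_sub_cancel_right] at this

theorem Sm.neg_left (h : Sm Ψ) (t : ℝ) (p : Ph) : rflow Ψ (-t) (rflow Ψ t p) = p := by
  rw [← h.add, neg_add_cancel, h.zero]

theorem Sm.neg_right (h : Sm Ψ) (t : ℝ) (p : Ph) : rflow Ψ t (rflow Ψ (-t) p) = p := by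
  rw [← h.add, add_neg_cancel, h.zero]

theorem Sm.continuous_time (h : Sm Ψ) (p : Ph) : Continuous (fun t => rflow Ψ t p) :=
  continuous_iff_continuousAt.2 fun t => (h.isRed p t).continuousAt

/-- Time reversal of phase points. -/
def rev (p : Ph) : Ph := (p.1, -p.2)

theorem rev_rev (p : Ph) : rev (rev p) = p := by simp [rev]

theorem isRed_rev {Φ : E3 → ℝ} {z : ℝ → Ph} (hz : IsRed Φ z) :
    IsRed Φ (fun t => rev (z (-t))) := by
  intro t
  have h1 := HasDerivAt.scomp t (hz (-t)) (hasDerivAt_neg t)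
  rw [neg_one_smul] at h1
  have h2 : HasDerivAt (fun s => (z (-s)).1) (-(z (-t)).2) t := h1.fst
  have h3 : HasDerivAt (fun s => (z (-s)).2) (-(acc Φ (z (-t)).1)) t := h1.snd
  have h4 := h2.prodMk h3.neg
  rw [neg_neg] at h4
  exact h4

theorem Sm.rev_flow (h : Sm Ψ) (t : ℝ) (p : Ph) : rflow Ψ t (rev p) = rev (rflow Ψ (-t) p) := by
  have h1 := h.eq_rflow (isRed_rev (h.isRed p)) 0 t
  simp only [sub_zero, neg_zero, h.zero] at h1
  exact h1.symm

theorem rev_preserving : MeasurePreserving rev (volume : Measure Ph) volume := by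
  have h1 : MeasurePreserving (fun v : E3 => -v) volume volume :=
    (LinearIsometryEquiv.neg ℝ (E := E3)).measurePreserving
  exact (MeasurePreserving.id volume).prod h1

theorem continuous_rev : Continuous rev := by unfold rev; fun_prop

theorem Sm.map_le (h : Sm Ψ) (t : ℝ) : (volume : Measure Ph).map (rflow Ψ t) ≤ volume := by
  rcases le_total 0 t with ht | ht
  · exact h.rflow_spec.2.2.2 t ht
  · have e : rflow Ψ t = rev ∘ rflow Ψ (-t) ∘ rev := by
      funext p
      simp only [Function.comp]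
      rw [h.rev_flow, neg_neg, rev_rev]
    have hc := (h.continuous (-t)).measurable
    have hr := continuous_rev.measurable
    rw [e, ← Measure.map_map hr (hc.comp hr), ← Measure.map_map hc hr, rev_preserving.map_eq]
    calc (Measure.map (rflow Ψ (-t)) volume).map rev
        ≤ (volume : Measure Ph).map rev :=
          Measure.map_mono (h.rflow_spec.2.2.2 (-t) (by linarith)) hr
      _ = volume := rev_preserving.map_eq

/-- **Liouville** for the reduced motion. -/
theorem Sm.measurePreserving (h : Sm Ψ) (t : ℝ) :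
    MeasurePreserving (rflow Ψ t) (volume : Measure Ph) volume := by
  refine ⟨(h.continuous t).measurable, le_antisymm (h.map_le t) ?_⟩
  have h1 : (volume : Measure Ph) =
      ((volume : Measure Ph).map (rflow Ψ (-t))).map (rflow Ψ t) := by
    rw [Measure.map_map (h.continuous t).measurable (h.continuous (-t)).measurable]
    have : rflow Ψ t ∘ rflow Ψ (-t) = id := by
      funext p; simp only [Function.comp, id]; exact h.neg_right t p
    rw [this, Measure.map_id]
  calc (volume : Measure Ph) = ((volume : Measure Ph).map (rflow Ψ (-t))).map (rflow Ψ t) := h1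
    _ ≤ (volume : Measure Ph).map (rflow Ψ t) :=
      Measure.map_mono (h.map_le (-t)) (h.continuous t).measurable

/-- The flow as a measurable equivalence. -/
def Sm.equiv (h : Sm Ψ) (t : ℝ) : Ph ≃ᵐ Ph where
  toFun := rflow Ψ t
  invFun := rflow Ψ (-t)
  left_inv := h.neg_left t
  right_inv := h.neg_right t
  measurable_toFun := (h.continuous t).measurable
  measurable_invFun := (h.continuous (-t)).measurable

/-- Joint continuity. -/
theorem Sm.continuous_uncurry (h : Sm Ψ) : Continuous (fun q : ℝ × Ph => rflow Ψ q.1 q.2) := by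
  obtain ⟨K, M, hK, hM⟩ := h.acc_lipschitz
  have hL := field_lipschitz hK
  rw [continuous_iff_continuousAt]
  rintro ⟨t₀, p₀⟩
  -- on a bounded time interval the maps are uniformly Lipschitz in the initial datum
  have hbd : ∀ T : ℝ, 0 ≤ T → ∀ p q : Ph, ∀ t ∈ Icc (-T) T,
      dist (rflow Ψ t p) (rflow Ψ t q) ≤ dist p q * Real.exp (((max 1 K : ℝ≥0) : ℝ) * T) := by
    have hfw : ∀ T : ℝ, 0 ≤ T → ∀ p q : Ph, ∀ t ∈ Icc (0 : ℝ) T,
        dist (rflow Ψ t p) (rflow Ψ t q) ≤
          dist p q * Real.exp (((max 1 K : ℝ≥0) : ℝ) * T) := by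
      intro T hT p q t ht
      have h3 := dist_le_of_trajectories_ODE (v := fun _ => field (acc Ψ)) (K := max 1 K)
        (f := fun t => rflow Ψ t p) (g := fun t => rflow Ψ t q) (a := 0) (b := T)
        (δ := dist p q) (fun _ => hL)
        (fun s _ => (h.isRed p s).continuousAt.continuousWithinAt)
        (fun s _ => (h.isRed p s).hasDerivWithinAt)
        (fun s _ => (h.isRed q s).continuousAt.continuousWithinAt)
        (fun s _ => (h.isRed q s).hasDerivWithinAt) (by rw [h.zero, h.zero]) t ht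
      refine h3.trans ?_
      gcongr
      linarith [ht.2]
    intro T hT p q t ht
    rcases le_total 0 t with h0 | h0
    · exact hfw T hT p q t ⟨h0, ht.2⟩
    · have e : ∀ p : Ph, rflow Ψ t p = rev (rflow Ψ (-t) (rev p)) := by
        intro p; rw [h.rev_flow, neg_neg, rev_rev]
      have hrd : ∀ p q : Ph, dist (rev p) (rev q) = dist p q := by
        intro p q
        simp only [rev, Prod.dist_eq, dist_neg_neg]
      rw [e, e, hrd, ← hrd p q]
      exact hfw T hT (rev p) (rev q) (-t) ⟨by linarith, by linarith [ht.1]⟩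
  set T : ℝ := |t₀| + 1 with hT
  have hT0 : 0 ≤ T := by positivity
  have h4 : Tendsto (fun q : ℝ × Ph => dist q.2 p₀ * Real.exp (((max 1 K : ℝ≥0) : ℝ) * T) +
      dist (rflow Ψ q.1 p₀) (rflow Ψ t₀ p₀)) (𝓝 (t₀, p₀)) (𝓝 0) := by
    have h5 : Continuous (fun q : ℝ × Ph => dist q.2 p₀ *
        Real.exp (((max 1 K : ℝ≥0) : ℝ) * T) + dist (rflow Ψ q.1 p₀) (rflow Ψ t₀ p₀)) := by
      have h6 := (h.continuous_time p₀).comp (continuous_fst (X := ℝ) (Y := Ph))
      have h7 : Continuous (fun q : ℝ × Ph => dist (rflow Ψ q.1 p₀) (rflow Ψ t₀ p₀)) :=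
        h6.dist continuous_const
      exact (((continuous_snd.dist continuous_const).mul continuous_const).add h7)
    have h8 := h5.tendsto (t₀, p₀)
    simpa using h8
  rw [ContinuousAt, tendsto_iff_dist_tendsto_zero]
  refine squeeze_zero' (Eventually.of_forall fun _ => dist_nonneg) ?_ h4
  have h9 : ∀ᶠ q : ℝ × Ph in 𝓝 (t₀, p₀), q.1 ∈ Ioo (t₀ - 1) (t₀ + 1) :=
    continuous_fst.continuousAt.eventually (Ioo_mem_nhds (by linarith) (by linarith))
  filter_upwards [h9] with q hq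
  refine (dist_triangle _ (rflow Ψ q.1 p₀) _).trans ?_
  gcongr
  apply hbd T hT0
  have := neg_abs_le t₀
  have := le_abs_self t₀
  exact ⟨by linarith [hq.1], by linarith [hq.2]⟩

/-! ### Conservation laws -/

/-- The energy of the reduced motion. -/
def en (Φ : E3 → ℝ) (p : Ph) : ℝ := ‖p.2‖ ^ 2 / 2 + 2 * Φ p.1

theorem hasDerivAt_en {Φ : E3 → ℝ} {z : ℝ → Ph} {t : ℝ}
    (hz : HasDerivAt z (field (acc Φ) (z t)) t) (hd : DifferentiableAt ℝ Φ (z t).1) :
    HasDerivAt (fun s => en Φ (z s)) 0 t := by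
  have h1 : HasDerivAt (fun s => (z s).1) (z t).2 t := hz.fst
  have h2 : HasDerivAt (fun s => (z s).2) (acc Φ (z t).1) t := hz.snd
  have h3 : HasDerivAt (fun s => ‖(z s).2‖ ^ 2) (2 * inner ℝ (z t).2 (acc Φ (z t).1)) t :=
    h2.norm_sq
  have h4 : HasDerivAt (fun s => Φ (z s).1) (fderiv ℝ Φ (z t).1 (z t).2) t :=
    hd.hasFDerivAt.comp_hasDerivAt t h1
  have h5 := (h3.div_const 2).add (h4.const_mul 2)
  refine h5.congr_deriv ?_
  rw [← inner_gradient_eq]
  unfold acc
  rw [inner_neg_right, inner_smul_right, real_inner_comm]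
  ring

theorem eq_of_hasDerivAt_zero {f : ℝ → ℝ} (h : ∀ t, HasDerivAt f 0 t) (s t : ℝ) : f s = f t :=
  is_const_of_deriv_eq_zero (fun t => (h t).differentiableAt) (fun t => (h t).deriv) s t

theorem Sm.energy (h : Sm Ψ) {z : ℝ → Ph} (hz : IsRed Ψ z) (s t : ℝ) :
    en Ψ (z s) = en Ψ (z t) :=
  eq_of_hasDerivAt_zero (fun t => hasDerivAt_en (hz t)
    ((h.smooth.differentiable (by norm_num)).differentiableAt)) s t

/-- Angular momentum, as a bilinear form. -/
def ang (a b : E3) (p : Ph) : ℝ := inner ℝ a p.1 * inner ℝ b p.2 - inner ℝ a p.2 * inner ℝ b p.1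

theorem hasDerivAt_ang {Φ : E3 → ℝ} {z : ℝ → Ph} {t : ℝ}
    (hz : HasDerivAt z (field (acc Φ) (z t)) t) {c : ℝ} (hc : acc Φ (z t).1 = c • (z t).1)
    (a b : E3) : HasDerivAt (fun s => ang a b (z s)) 0 t := by
  have h1 : HasDerivAt (fun s => (z s).1) (z t).2 t := hz.fst
  have h2 : HasDerivAt (fun s => (z s).2) (c • (z t).1) t := by
    have := hz.snd
    rw [← hc]; exact this
  have i1 : ∀ a : E3, HasDerivAt (fun s => (inner ℝ a (z s).1 : ℝ)) (inner ℝ a (z t).2) t := by
    intro a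
    have := (hasDerivAt_const t a).inner ℝ h1
    simpa using this
  have i2 : ∀ a : E3, HasDerivAt (fun s => (inner ℝ a (z s).2 : ℝ))
      (inner ℝ a (c • (z t).1)) t := by
    intro a
    have := (hasDerivAt_const t a).inner ℝ h2
    simpa using this
  have h5 := ((i1 a).mul (i2 b)).sub ((i2 a).mul (i1 b))
  refine h5.congr_deriv ?_
  simp only [inner_smul_right]
  ring

theorem Sm.angular (h : Sm Ψ) {z : ℝ → Ph} (hz : IsRed Ψ z) (a b : E3) (s t : ℝ) :
    ang a b (z s) = ang a b (z t) :=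
  eq_of_hasDerivAt_zero (fun t => by
    obtain ⟨c, hc⟩ := h.acc_parallel (z t).1
    exact hasDerivAt_ang (hz t) hc a b) s t

/-! ### Equivariance -/

theorem gradient_comp_isometry {Φ : E3 → ℝ} (hr : ∀ x y : E3, ‖x‖ = ‖y‖ → Φ x = Φ y)
    (A : E3 ≃ₗᵢ[ℝ] E3) (x : E3) : gradient Φ (A x) = A (gradient Φ x) := by
  have h1 : Φ ∘ A = Φ := by
    funext y; exact hr _ _ (A.norm_map y)
  apply ext_inner_right ℝ
  intro w
  rw [inner_gradient_eq]
  have h2 : inner ℝ (A (gradient Φ x)) w = (inner ℝ (gradient Φ x) (A.symm w) : ℝ) := by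
    exact A.inner_map_eq_flip _ _
  rw [h2, inner_gradient_eq]
  have h3 : fderiv ℝ Φ x = (fderiv ℝ Φ (A x)).comp (A : E3 →L[ℝ] E3) := by
    conv_lhs => rw [← h1]
    exact A.toContinuousLinearEquiv.comp_right_fderiv
  rw [h3]
  simp

theorem acc_comp_isometry {Φ : E3 → ℝ} (hr : ∀ x y : E3, ‖x‖ = ‖y‖ → Φ x = Φ y)
    (A : E3 ≃ₗᵢ[ℝ] E3) (x : E3) : acc Φ (A x) = A (acc Φ x) := by
  unfold acc
  rw [gradient_comp_isometry hr, map_neg, map_smul]

/-- The diagonal action of a linear isometry on phase space. -/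
def act (A : E3 ≃ₗᵢ[ℝ] E3) (p : Ph) : Ph := (A p.1, A p.2)

theorem isRed_act {Φ : E3 → ℝ} (hr : ∀ x y : E3, ‖x‖ = ‖y‖ → Φ x = Φ y)
    (A : E3 ≃ₗᵢ[ℝ] E3) {z : ℝ → Ph} (hz : IsRed Φ z) : IsRed Φ (fun t => act A (z t)) := by
  intro t
  have h1 : HasDerivAt (fun s => (z s).1) (z t).2 t := (hz t).fst
  have h2 : HasDerivAt (fun s => (z s).2) (acc Φ (z t).1) t := (hz t).snd
  have h3 : HasDerivAt (fun s => A (z s).1) (A (z t).2) t :=
    (A : E3 →L[ℝ] E3).hasFDerivAt.comp_hasDerivAt t h1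
  have h4 : HasDerivAt (fun s => A (z s).2) (A (acc Φ (z t).1)) t :=
    (A : E3 →L[ℝ] E3).hasFDerivAt.comp_hasDerivAt t h2
  have h5 := h3.prodMk h4
  rw [← acc_comp_isometry hr] at h5
  exact h5

theorem Sm.rflow_act (h : Sm Ψ) (A : E3 ≃ₗᵢ[ℝ] E3) (t : ℝ) (p : Ph) :
    rflow Ψ t (act A p) = act A (rflow Ψ t p) := by
  have h1 := h.eq_rflow (isRed_act h.radial A (h.isRed p)) 0 t
  simp only [sub_zero, h.zero] at h1
  exact h1.symm

/-! ### Free motion outside the ball -/

/-- Free motion. -/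
def free (t : ℝ) (p : Ph) : Ph := (p.1 + t • p.2, p.2)

theorem hasDerivAt_free (p : Ph) (t : ℝ) : HasDerivAt (fun s => free s p) (p.2, 0) t := by
  have h1 : HasDerivAt (fun s : ℝ => p.1 + s • p.2) p.2 t := by
    have := ((hasDerivAt_id t).smul_const p.2).const_add p.1
    simpa using this
  exact h1.prodMk (hasDerivAt_const t p.2)

theorem one_le_norm_of_inner_nonneg {x v : E3} (hx : 1 ≤ ‖x‖) (hv : 0 ≤ (inner ℝ x v : ℝ)) :
    1 ≤ ‖x + v‖ := by
  have h1 : ‖x + v‖ ^ 2 = ‖x‖ ^ 2 + 2 * inner ℝ x v + ‖v‖ ^ 2 := norm_add_sq_real x v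
  nlinarith [norm_nonneg (x + v), sq_nonneg ‖v‖, norm_nonneg x]

theorem Sm.free_fwd (h : Sm Ψ) {p : Ph} (hx : 1 ≤ ‖p.1‖) (hv : 0 ≤ (inner ℝ p.1 p.2 : ℝ))
    {t : ℝ} (ht : 0 ≤ t) : rflow Ψ t p = free t p := by
  obtain ⟨K, M, hK, hM⟩ := h.acc_lipschitz
  have h1 := ODE_solution_unique (v := fun _ => field (acc Ψ)) (K := max 1 K)
    (f := fun s => rflow Ψ s p) (g := fun s => free s p) (a := 0) (b := t)
    (fun _ => field_lipschitz hK) (h.continuous_time p).continuousOn
    (fun s _ => (h.isRed p s).hasDerivWithinAt)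
    (fun s _ => (hasDerivAt_free p s).continuousAt.continuousWithinAt)
    (fun s hs => by
      have h2 : field (acc Ψ) (free s p) = (p.2, 0) := by
        simp only [field, free]
        rw [h.acc_eq_zero]
        refine one_le_norm_of_inner_nonneg hx ?_
        rw [inner_smul_right]
        exact mul_nonneg hs.1 hv
      rw [h2]
      exact (hasDerivAt_free p s).hasDerivWithinAt)
    (by simp only [h.zero]; simp [free])
  exact h1 ⟨ht, le_rfl⟩

theorem rev_free (t : ℝ) (p : Ph) : rev (free t (rev p)) = free (-t) p := by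
  simp [rev, free]

theorem Sm.free_bwd (h : Sm Ψ) {p : Ph} (hx : 1 ≤ ‖p.1‖) (hv : (inner ℝ p.1 p.2 : ℝ) ≤ 0)
    {t : ℝ} (ht : t ≤ 0) : rflow Ψ t p = free t p := by
  have h1 := h.free_fwd (p := rev p) hx (by simp only [rev]; rw [inner_neg_right]; linarith)
    (t := -t) (by linarith)
  rw [h.rev_flow, neg_neg] at h1
  have h2 := congrArg rev h1
  rw [rev_rev, rev_free, neg_neg] at h2
  exact h2

end Vale.Agent.P119.KU
end
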