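import Vale.Agent.P119.KU.Scat9

/-!
# Pairs of lines: contact, separation, symmetries, measure
-/

open MeasureTheory Filter Topology Set ProbabilityTheory
open scoped ENNReal NNReal RealInnerProductSpace

noncomputable section

namespace Vale.Agent.P119.KU

variable {Φ : E3 → ℝ} {ε : ℝ}

/-! ### Lines -/

/-- The pair trajectory which is asymptotic to the pair of lines `q` in the past. -/
def pairLine (Φ : E3 → ℝ) (ε : ℝ) (q : Ph × Ph) (t : ℝ) : Ph × Ph :=
  mk2 ε (free t (com q)) (traj Φ (rel ε q) (t / ε))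

/-- The scattering map for pairs of lines. -/
def sc2 (Φ : E3 → ℝ) (ε : ℝ) (q : Ph × Ph) : Ph × Ph := mk2 ε (com q) (scat Φ (rel ε q))

/-- The two lines are at distance `< ε` at some time, and not parallel. -/
def Meets (ε : ℝ) (q : Ph × Ph) : Prop := q.1.2 - q.2.2 ≠ 0 ∧ ‖perp (rel ε q)‖ < 1

/-- First time at which the free lines are at distance `ε`. -/
def hitT (ε : ℝ) (q : Ph × Ph) : ℝ := ε * tin (rel ε q)

/-- Time at which the interacting pair separates. -/
def sepT (Φ : E3 → ℝ) (ε : ℝ) (q : Ph × Ph) : ℝ := ε * tout Φ (rel ε q)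

/-- The line coordinates of a pair state at time `s`. -/
def back (s : ℝ) (q : Ph × Ph) : Ph × Ph := (free (-s) q.1, free (-s) q.2)

theorem com_pairLine (q : Ph × Ph) (t : ℝ) : com (pairLine Φ ε q t) = free t (com q) := by
  unfold pairLine; rw [com_mk2]

theorem rel_pairLine (hε : ε ≠ 0) (q : Ph × Ph) (t : ℝ) :
    rel ε (pairLine Φ ε q t) = traj Φ (rel ε q) (t / ε) := by
  unfold pairLine; rw [rel_mk2 hε]

theorem com_sc2 (q : Ph × Ph) : com (sc2 Φ ε q) = com q := by unfold sc2; rw [com_mk2]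

theorem rel_sc2 (hε : ε ≠ 0) (q : Ph × Ph) : rel ε (sc2 Φ ε q) = scat Φ (rel ε q) := by
  unfold sc2; rw [rel_mk2 hε]

/-- The distance in terms of the relative coordinates. -/
theorem dist_eq_rel (hε : 0 < ε) (q : Ph × Ph) : ‖q.1.1 - q.2.1‖ = ε * ‖(rel ε q).1‖ := by
  unfold rel
  simp only
  rw [norm_smul, norm_inv, Real.norm_eq_abs, abs_of_pos hε, ← mul_assoc,
    mul_inv_cancel₀ hε.ne', one_mul]

/-- Before the contact both particles move freely along their lines. -/
theorem pairLine_before (hΦ : IsPotential Φ) (hε : 0 < ε) {q : Ph × Ph}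
    (hv : q.1.2 - q.2.2 ≠ 0) (hb : ‖perp (rel ε q)‖ ≤ 1) {t : ℝ} (ht : t ≤ hitT ε q) :
    pairLine Φ ε q t = (free t q.1, free t q.2) := by
  unfold pairLine
  have h1 : t / ε ≤ tin (rel ε q) := by
    rw [div_le_iff₀ hε, mul_comm]; exact ht
  rw [traj_before hΦ hv hb h1]
  have h := mk2_free (com q) (rel ε q) t hε.ne'
  rwa [mk2_com_rel hε.ne'] at h

/-- After the separation both particles move freely along the outgoing lines. -/
theorem pairLine_after (hΦ : IsPotential Φ) (hε : 0 < ε) {q : Ph × Ph}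
    (h : Exits Φ (rel ε q)) (hb : ‖perp (rel ε q)‖ ≤ 1) {t : ℝ} (ht : sepT Φ ε q ≤ t) :
    pairLine Φ ε q t = (free t (sc2 Φ ε q).1, free t (sc2 Φ ε q).2) := by
  unfold pairLine
  have h1 : tout Φ (rel ε q) ≤ t / ε := by
    rw [le_div_iff₀ hε, mul_comm]; exact ht
  rw [traj_after hΦ h hb h1]
  have h := mk2_free (com (sc2 Φ ε q)) (rel ε (sc2 Φ ε q)) t hε.ne'
  rwa [mk2_com_rel hε.ne', com_sc2, rel_sc2 hε.ne'] at h

/-- The particles are at distance `< ε` exactly between contact and separation. -/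
theorem dist_pairLine_lt_iff (hΦ : IsPotential Φ) (hε : 0 < ε) {q : Ph × Ph}
    (h : Exits Φ (rel ε q)) (hb : ‖perp (rel ε q)‖ < 1) (t : ℝ) :
    ‖(pairLine Φ ε q t).1.1 - (pairLine Φ ε q t).2.1‖ < ε ↔ hitT ε q < t ∧ t < sepT Φ ε q := by
  rw [dist_eq_rel hε, rel_pairLine hε.ne']
  have h1 : ε * ‖(traj Φ (rel ε q) (t / ε)).1‖ < ε ↔ ‖(traj Φ (rel ε q) (t / ε)).1‖ < 1 := by
    constructor
    · intro h2
      by_contra hcon
      nlinarith [not_lt.1 hcon]
    · intro h2
      nlinarith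
  rw [h1, norm_traj_lt_one_iff hΦ h hb, lt_div_iff₀ hε, div_lt_iff₀ hε]
  unfold hitT sepT
  rw [mul_comm ε, mul_comm ε]

theorem hitT_lt_sepT (hΦ : IsPotential Φ) (hε : 0 < ε) {q : Ph × Ph}
    (h : Exits Φ (rel ε q)) (hb : ‖perp (rel ε q)‖ < 1) : hitT ε q < sepT Φ ε q :=
  mul_lt_mul_of_pos_left (tin_lt_tout hΦ h hb) hε

/-- The pair trajectory is the isolated evolution. -/
theorem pairEv_pairLine (hΦ : IsPotential Φ) (hε : ε ≠ 0) (q : Ph × Ph) (s t : ℝ) :
    pairEv Φ ε s (pairLine Φ ε q t) = pairLine Φ ε q (s + t) := by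
  unfold pairEv
  rw [com_pairLine, rel_pairLine hε, gflow_traj hΦ, ← free_add, ← add_div]
  rfl

/-- The evolution started on the incoming side is the line trajectory. -/
theorem pairEv_eq_pairLine (hΦ : IsPotential Φ) (hε : 0 < ε) {q : Ph × Ph}
    (hv : q.1.2 - q.2.2 ≠ 0) (hb : ‖perp (rel ε q)‖ ≤ 1) {s : ℝ} (hs : s ≤ hitT ε q) (t : ℝ) :
    pairEv Φ ε (t - s) (free s q.1, free s q.2) = pairLine Φ ε q t := by
  rw [← pairLine_before hΦ hε hv hb hs, pairEv_pairLine hΦ hε.ne', sub_add_cancel]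

/-- Shift of lines. -/
theorem pairLine_free (hΦ : IsPotential Φ) (hε : ε ≠ 0) {q : Ph × Ph}
    (hv : q.1.2 - q.2.2 ≠ 0) (s t : ℝ) :
    pairLine Φ ε (free s q.1, free s q.2) t = pairLine Φ ε q (t + s) := by
  unfold pairLine
  rw [rel_free hε, com_free, traj_free hΦ (p := rel ε q) hv, ← free_add, ← add_div]

theorem sc2_free (hΦ : IsPotential Φ) (hε : ε ≠ 0) (q : Ph × Ph) (s : ℝ) :
    sc2 Φ ε (free s q.1, free s q.2) = (free s (sc2 Φ ε q).1, free s (sc2 Φ ε q).2) := by
  unfold sc2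
  rw [rel_free hε, com_free, scat_free hΦ, mk2_free _ _ _ hε]

/-- The outgoing velocities. -/
theorem sc2_vel (hΦ : IsPotential Φ) (q : Ph × Ph) (hv : q.1.2 - q.2.2 ≠ 0) :
    (sc2 Φ ε q).1.2 = postV Φ q.1.2 q.2.2 (perp (rel ε q)) ∧
    (sc2 Φ ε q).2.2 = postW Φ q.1.2 q.2.2 (perp (rel ε q)) := by
  have h1 : (scat Φ (rel ε q)).2 = outVel Φ (q.1.2 - q.2.2) (perp (rel ε q)) := by
    rw [outVel_eq hΦ _ hv]
    have h2 : scat Φ (rel ε q) = free (crd (rel ε q)) (scat Φ (perp (rel ε q), (rel ε q).2)) := by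
      rw [← scat_free hΦ, free_crd_perp]
    rw [h2, free_snd]
    rfl
  unfold sc2 mk2 postV postW com
  simp only [h1]
  constructor
  · module
  · module

/-! ### Exchange -/

theorem rel_swap (q : Ph × Ph) : rel ε q.swap = act parity (rel ε q) := by
  unfold rel act
  simp only [Prod.fst_swap, Prod.snd_swap, parity_apply]
  ext1
  · simp only; module
  · simp only; module

theorem com_swap (q : Ph × Ph) : com q.swap = com q := by
  unfold com
  simp only [Prod.fst_swap, Prod.snd_swap]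
  rw [add_comm, add_comm q.2.2]

theorem mk2_parity (c p : Ph) : mk2 ε c (act parity p) = (mk2 ε c p).swap := by
  unfold mk2 act
  simp only [parity_apply, Prod.swap_prod_mk]
  ext1
  · ext1
    · simp only; module
    · simp only; module
  · ext1
    · simp only; module
    · simp only; module

theorem pairEv_swap (hΦ : IsPotential Φ) (t : ℝ) (q : Ph × Ph) :
    pairEv Φ ε t q.swap = (pairEv Φ ε t q).swap := by
  unfold pairEv
  rw [rel_swap, com_swap, gflow_act hΦ, mk2_parity]

theorem pairLine_swap (hΦ : IsPotential Φ) (q : Ph × Ph) (t : ℝ) :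
    pairLine Φ ε q.swap t = (pairLine Φ ε q t).swap := by
  unfold pairLine
  rw [rel_swap, com_swap, traj_act hΦ, mk2_parity]

theorem sc2_swap (hΦ : IsPotential Φ) (q : Ph × Ph) :
    sc2 Φ ε q.swap = (sc2 Φ ε q).swap := by
  unfold sc2
  rw [rel_swap, com_swap, scat_act hΦ, mk2_parity]

theorem meets_swap (q : Ph × Ph) : Meets ε q.swap ↔ Meets ε q := by
  unfold Meets
  rw [rel_swap, perp_act, LinearIsometryEquiv.norm_map, Prod.fst_swap, Prod.snd_swap,
    sub_ne_zero, sub_ne_zero, ne_comm]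

theorem hitT_swap (q : Ph × Ph) : hitT ε q.swap = hitT ε q := by
  unfold hitT tin half
  rw [rel_swap, crd_act, perp_act, LinearIsometryEquiv.norm_map]
  unfold act
  rw [LinearIsometryEquiv.norm_map]

/-! ### Galilean invariance -/

/-- Boost of a phase point: adds the motion `a + t u`. -/
def boost (c p : Ph) : Ph := (p.1 + c.1, p.2 + c.2)

theorem rel_boost (c : Ph) (q : Ph × Ph) : rel ε (boost c q.1, boost c q.2) = rel ε q := by
  unfold rel boost
  ext1
  · simp only; rw [add_sub_add_right_eq_sub]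
  · simp only; rw [add_sub_add_right_eq_sub]

theorem com_boost (c : Ph) (q : Ph × Ph) : com (boost c q.1, boost c q.2) = boost c (com q) := by
  unfold com boost
  ext1
  · simp only; module
  · simp only; module

theorem free_boost (t : ℝ) (c p : Ph) : free t (boost c p) = boost (free t c) (free t p) := by
  unfold free boost
  ext1
  · simp only; module
  · rfl

theorem mk2_boost (c d p : Ph) :
    mk2 ε (boost d c) p = (boost d (mk2 ε c p).1, boost d (mk2 ε c p).2) := by
  unfold mk2 boost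
  ext1
  · ext1
    · simp only; module
    · simp only; module
  · ext1
    · simp only; module
    · simp only; module

theorem pairEv_boost (t : ℝ) (c : Ph) (q : Ph × Ph) :
    pairEv Φ ε t (boost c q.1, boost c q.2) =
      (boost (free t c) (pairEv Φ ε t q).1, boost (free t c) (pairEv Φ ε t q).2) := by
  unfold pairEv
  rw [rel_boost, com_boost, free_boost, mk2_boost]

theorem pairLine_boost (c : Ph) (q : Ph × Ph) (t : ℝ) :
    pairLine Φ ε (boost c q.1, boost c q.2) t =
      (boost (free t c) (pairLine Φ ε q t).1, boost (free t c) (pairLine Φ ε q t).2) := by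
  unfold pairLine
  rw [rel_boost, com_boost, free_boost, mk2_boost]

theorem sc2_boost (c : Ph) (q : Ph × Ph) :
    sc2 Φ ε (boost c q.1, boost c q.2) = (boost c (sc2 Φ ε q).1, boost c (sc2 Φ ε q).2) := by
  unfold sc2
  rw [rel_boost, com_boost, mk2_boost]

theorem hitT_boost (c : Ph) (q : Ph × Ph) : hitT ε (boost c q.1, boost c q.2) = hitT ε q := by
  unfold hitT; rw [rel_boost]

/-! ### Conservation laws -/

theorem momentum_pairEv (t : ℝ) (q : Ph × Ph) :
    (pairEv Φ ε t q).1.2 + (pairEv Φ ε t q).2.2 = q.1.2 + q.2.2 := by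
  unfold pairEv mk2 free com
  simp only
  module

/-- Kinetic energy in the coordinates. -/
theorem kin_eq (ε : ℝ) (q : Ph × Ph) :
    ‖q.1.2‖ ^ 2 + ‖q.2.2‖ ^ 2 = 2 * ‖(com q).2‖ ^ 2 + ‖(rel ε q).2‖ ^ 2 / 2 := by
  have h := parallelogram_law_with_norm ℝ q.1.2 q.2.2
  unfold com rel
  simp only
  rw [norm_smul, Real.norm_eq_abs, abs_of_pos (by norm_num : (0 : ℝ) < 2⁻¹)]
  nlinarith

theorem energy_pairEv (hΦ : IsPotential Φ) (hε : ε ≠ 0) (t : ℝ) (q : Ph × Ph) :
    ‖(pairEv Φ ε t q).1.2‖ ^ 2 / 2 + ‖(pairEv Φ ε t q).2.2‖ ^ 2 / 2 +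
        Φ (ε⁻¹ • ((pairEv Φ ε t q).1.1 - (pairEv Φ ε t q).2.1)) =
      ‖q.1.2‖ ^ 2 / 2 + ‖q.2.2‖ ^ 2 / 2 + Φ (ε⁻¹ • (q.1.1 - q.2.1)) := by
  have h1 := kin_eq ε (pairEv Φ ε t q)
  have h2 := kin_eq ε q
  have h3 := en_gflow hΦ (t / ε) (rel ε q)
  rw [← rel_pairEv hε] at h3
  rw [com_pairEv, free_snd] at h1
  unfold en at h3
  have h4 : (rel ε (pairEv Φ ε t q)).1 =
      ε⁻¹ • ((pairEv Φ ε t q).1.1 - (pairEv Φ ε t q).2.1) := rfl
  have h5 : (rel ε q).1 = ε⁻¹ • (q.1.1 - q.2.1) := rfl
  rw [← h4, ← h5]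
  linarith

theorem energy_sc2 (hΦ : IsPotential Φ) (hε : ε ≠ 0) (q : Ph × Ph) :
    ‖(sc2 Φ ε q).1.2‖ ^ 2 + ‖(sc2 Φ ε q).2.2‖ ^ 2 = ‖q.1.2‖ ^ 2 + ‖q.2.2‖ ^ 2 := by
  rw [kin_eq ε, kin_eq ε q, com_sc2, rel_sc2 hε, scat_snd_norm hΦ]

theorem momentum_sc2 (q : Ph × Ph) :
    (sc2 Φ ε q).1.2 + (sc2 Φ ε q).2.2 = q.1.2 + q.2.2 := by
  unfold sc2 mk2 com
  simp only
  module

/-! ### Reversibility -/

theorem rel_rev (q : Ph × Ph) : rel ε (rev q.1, rev q.2) = rev (rel ε q) := by
  unfold rel rev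
  ext1
  · rfl
  · simp only; module

theorem com_rev (q : Ph × Ph) : com (rev q.1, rev q.2) = rev (com q) := by
  unfold com rev
  ext1
  · rfl
  · simp only; module

theorem mk2_rev (c p : Ph) : mk2 ε (rev c) (rev p) = (rev (mk2 ε c p).1, rev (mk2 ε c p).2) := by
  unfold mk2 rev
  ext1
  · ext1
    · rfl
    · simp only; module
  · ext1
    · rfl
    · simp only; module

theorem sc2_rev (hΦ : IsPotential Φ) (hε : ε ≠ 0) {q : Ph × Ph} (h : Exits Φ (rel ε q)) :
    sc2 Φ ε (rev (sc2 Φ ε q).1, rev (sc2 Φ ε q).2) = (rev q.1, rev q.2) := by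
  have h1 : sc2 Φ ε (rev (sc2 Φ ε q).1, rev (sc2 Φ ε q).2) =
      mk2 ε (com (rev (sc2 Φ ε q).1, rev (sc2 Φ ε q).2))
        (scat Φ (rel ε (rev (sc2 Φ ε q).1, rev (sc2 Φ ε q).2))) := rfl
  rw [h1, com_rev, rel_rev, com_sc2, rel_sc2 hε, scat_rev_scat hΦ h, mk2_rev, mk2_com_rel hε]

/-! ### Measurability and measure -/

/-- Coordinates of pairs as a linear equivalence. -/
def pairCoord (hε : ε ≠ 0) : (Ph × Ph) ≃ₗ[ℝ] (Ph × Ph) where
  toFun q := (com q, rel ε q)
  invFun q := mk2 ε q.1 q.2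
  left_inv q := mk2_com_rel hε q
  right_inv q := by simp only [com_mk2, rel_mk2 hε]
  map_add' q q' := by
    unfold com rel
    ext1
    · ext1
      · simp only [Prod.fst_add, Prod.snd_add, Prod.mk_add_mk]; module
      · simp only [Prod.fst_add, Prod.snd_add, Prod.mk_add_mk]; module
    · ext1
      · simp only [Prod.fst_add, Prod.snd_add, Prod.mk_add_mk]; module
      · simp only [Prod.fst_add, Prod.snd_add, Prod.mk_add_mk]; module
  map_smul' a q := by
    unfold com rel
    ext1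
    · ext1
      · simp only [Prod.smul_fst, Prod.smul_snd, RingHom.id_apply, Prod.smul_mk]; module
      · simp only [Prod.smul_fst, Prod.smul_snd, RingHom.id_apply, Prod.smul_mk]; module
    · ext1
      · simp only [Prod.smul_fst, Prod.smul_snd, RingHom.id_apply, Prod.smul_mk]; module
      · simp only [Prod.smul_fst, Prod.smul_snd, RingHom.id_apply, Prod.smul_mk]; module

theorem continuous_rel : Continuous (rel ε) := by unfold rel; fun_prop

theorem continuous_com : Continuous com := by unfold com; fun_prop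

theorem continuous_mk2 : Continuous (fun q : Ph × Ph => mk2 ε q.1 q.2) := by
  unfold mk2; fun_prop

/-- Coordinates of pairs as a measurable equivalence. -/
def pairMeas (hε : ε ≠ 0) : (Ph × Ph) ≃ᵐ (Ph × Ph) where
  toEquiv := (pairCoord hε).toEquiv
  measurable_toFun := (continuous_com.prodMk continuous_rel).measurable
  measurable_invFun := continuous_mk2.measurable

theorem pairMeas_apply (hε : ε ≠ 0) (q : Ph × Ph) : pairMeas hε q = (com q, rel ε q) := rfl

theorem pairMeas_symm_apply (hε : ε ≠ 0) (q : Ph × Ph) :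
    (pairMeas hε).symm q = mk2 ε q.1 q.2 := rfl

theorem map_pairMeas (hε : ε ≠ 0) : ∃ c : ℝ≥0∞, c ≠ 0 ∧ c ≠ ∞ ∧
    (volume : Measure (Ph × Ph)).map (pairMeas hε) = c • volume := by
  have hdet : LinearMap.det ((pairCoord hε : (Ph × Ph) ≃ₗ[ℝ] (Ph × Ph)) :
      (Ph × Ph) →ₗ[ℝ] (Ph × Ph)) ≠ 0 := (LinearEquiv.isUnit_det' _).ne_zero
  have i1 : (volume : Measure Ph).IsAddHaarMeasure :=
    Measure.prod.instIsAddHaarMeasure (volume : Measure E3) (volume : Measure E3)
  have i2 : (volume : Measure (Ph × Ph)).IsAddHaarMeasure :=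
    Measure.prod.instIsAddHaarMeasure (volume : Measure Ph) (volume : Measure Ph)
  have h1 := Measure.map_linearMap_addHaar_eq_smul_addHaar (volume : Measure (Ph × Ph)) hdet
  refine ⟨_, ?_, ENNReal.ofReal_ne_top, h1⟩
  rw [Ne, ENNReal.ofReal_eq_zero, not_le]
  exact abs_pos.2 (inv_ne_zero hdet)

/-- Conjugation of a measure preserving map of the coordinates. -/
theorem pair_preserving (hε : ε ≠ 0) {F : Ph → Ph} {G : Ph → Ph}
    (hF : MeasurePreserving F (volume : Measure Ph) volume)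
    (hG : MeasurePreserving G (volume : Measure Ph) volume) :
    MeasurePreserving (fun q : Ph × Ph => mk2 ε (F (com q)) (G (rel ε q)))
      (volume : Measure (Ph × Ph)) volume := by
  obtain ⟨c, hc0, hc, hmap⟩ := map_pairMeas hε
  have h1 : MeasurePreserving (pairMeas hε) volume (c • volume) := ⟨(pairMeas hε).measurable, hmap⟩
  have h2 : MeasurePreserving (Prod.map F G) (volume : Measure (Ph × Ph)) volume := hF.prod hG
  have h3 : MeasurePreserving (Prod.map F G) (c • volume : Measure (Ph × Ph)) (c • volume) := by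
    refine ⟨h2.measurable, ?_⟩
    rw [Measure.map_smul, h2.map_eq]
  exact (h1.symm).comp (h3.comp h1)

theorem measurePreserving_pairEv (hΦ : IsPotential Φ) (hε : ε ≠ 0) (t : ℝ) :
    MeasurePreserving (pairEv Φ ε t) (volume : Measure (Ph × Ph)) volume :=
  pair_preserving hε (free_preserving t) (measurePreserving_gflow hΦ (t / ε))

/-- **The scattering map of pairs of lines preserves Lebesgue measure.** -/
theorem measurePreserving_sc2 (hΦ : IsPotential Φ) (hε : ε ≠ 0) :
    MeasurePreserving (sc2 Φ ε) (volume : Measure (Ph × Ph)) volume :=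
  pair_preserving hε (MeasurePreserving.id _) (measurePreserving_scat hΦ)

theorem quasi_rel (hε : ε ≠ 0) :
    Measure.QuasiMeasurePreserving (rel ε) (volume : Measure (Ph × Ph)) volume := by
  obtain ⟨c, hc0, hc, hmap⟩ := map_pairMeas hε
  have h1 : MeasurePreserving (pairMeas hε) volume (c • volume : Measure (Ph × Ph)) :=
    ⟨(pairMeas hε).measurable, hmap⟩
  have h2 : Measure.QuasiMeasurePreserving (Prod.snd : Ph × Ph → Ph)
      (c • volume : Measure (Ph × Ph)) volume := by
    have h3 : Measure.QuasiMeasurePreserving (Prod.snd : Ph × Ph → Ph)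
      (volume : Measure (Ph × Ph)) volume := Measure.quasiMeasurePreserving_snd
    refine ⟨h3.measurable, ?_⟩
    rw [Measure.map_smul]
    exact Measure.AbsolutelyContinuous.smul_left h3.absolutelyContinuous c
  exact h2.comp h1.quasiMeasurePreserving

/-- Almost every pair of lines is scattered. -/
theorem ae_exits_pair (hΦ : IsPotential Φ) (hε : ε ≠ 0) :
    ∀ᵐ q : Ph × Ph, Exits Φ (rel ε q) :=
  (quasi_rel hε).ae (ae_exits hΦ)

theorem measurable_sc2 (hΦ : IsPotential Φ) (hε : ε ≠ 0) : Measurable (sc2 Φ ε) :=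
  (measurePreserving_sc2 hΦ hε).measurable

theorem measurable_hitT : Measurable (hitT ε) :=
  (measurable_tin.comp continuous_rel.measurable).const_mul ε

theorem measurable_sepT (hΦ : IsPotential Φ) : Measurable (sepT Φ ε) :=
  ((measurable_tout hΦ).comp continuous_rel.measurable).const_mul ε

theorem measurable_pairEv (hΦ : IsPotential Φ) :
    Measurable (fun q : ℝ × (Ph × Ph) => pairEv Φ ε q.1 q.2) := by
  have h1 : Measurable (fun q : ℝ × (Ph × Ph) => free q.1 (com q.2)) :=
    continuous_free.measurable.comp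
      (measurable_fst.prodMk (continuous_com.measurable.comp measurable_snd))
  have h2 : Measurable (fun q : ℝ × (Ph × Ph) => gflow Φ (q.1 / ε) (rel ε q.2)) := by
    have h3 : Measurable (fun q : ℝ × (Ph × Ph) => ((q.1 / ε, rel ε q.2) : ℝ × Ph)) :=
      (measurable_fst.div_const ε).prodMk (continuous_rel.measurable.comp measurable_snd)
    exact (measurable_gflow_uncurry hΦ).comp h3
  exact continuous_mk2.measurable.comp (h1.prodMk h2)

theorem measurable_pairLine (hΦ : IsPotential Φ) :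
    Measurable (fun q : ℝ × (Ph × Ph) => pairLine Φ ε q.2 q.1) := by
  have h1 : Measurable (fun q : ℝ × (Ph × Ph) => free q.1 (com q.2)) :=
    continuous_free.measurable.comp
      (measurable_fst.prodMk (continuous_com.measurable.comp measurable_snd))
  have h2 : Measurable (fun q : ℝ × (Ph × Ph) => traj Φ (rel ε q.2) (q.1 / ε)) := by
    have h3 : Measurable (fun q : ℝ × (Ph × Ph) => ((q.1 / ε, rel ε q.2) : ℝ × Ph)) :=
      (measurable_fst.div_const ε).prodMk (continuous_rel.measurable.comp measurable_snd)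
    have h4 := measurable_traj_uncurry hΦ
    have h5 := h4.comp h3
    exact h5
  exact continuous_mk2.measurable.comp (h1.prodMk h2)

theorem continuous_pairEv (hΦ : IsPotential Φ) (q : Ph × Ph) :
    Continuous (fun t => pairEv Φ ε t q) := by
  have h1 : Continuous (fun t : ℝ => free t (com q)) :=
    continuous_free.comp (continuous_id.prodMk continuous_const)
  have h2 : Continuous (fun t : ℝ => gflow Φ (t / ε) (rel ε q)) :=
    (continuous_gflow_time hΦ _).comp (continuous_id.div_const ε)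
  exact continuous_mk2.comp (h1.prodMk h2)

end Vale.Agent.P119.KU
end
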