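import Vale.Agent.P119.KU.Scat11

/-!
# Isotropic measures

A finite measure on `ℝ³` which is invariant under all linear isometries is the average of the
uniform measures of spheres.
-/

open MeasureTheory Filter Topology Set ProbabilityTheory
open scoped ENNReal NNReal RealInnerProductSpace BoundedContinuousFunction

noncomputable section

namespace Vale.Agent.P119.KU

/-- Invariance under linear isometries. -/
def Isotropic (m : Measure E3) : Prop := ∀ A : E3 ≃ₗᵢ[ℝ] E3, m.map A = m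

theorem Isotropic.lintegral {m : Measure E3} (hm : Isotropic m) (A : E3 ≃ₗᵢ[ℝ] E3)
    {h : E3 → ℝ≥0∞} (hh : Measurable h) : ∫⁻ x, h (A x) ∂m = ∫⁻ x, h x ∂m := by
  conv_rhs => rw [← hm A]
  rw [lintegral_map hh A.continuous.measurable]

/-- The direction of a vector. -/
def dir (z : E3) : E3 := ‖z‖⁻¹ • z

theorem measurable_dir : Measurable dir := by unfold dir; fun_prop

theorem norm_dir {z : E3} (hz : z ≠ 0) : ‖dir z‖ = 1 := by
  unfold dir
  rw [norm_smul, norm_inv, norm_norm, inv_mul_cancel₀ (norm_ne_zero_iff.2 hz)]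

theorem norm_smul_dir {z : E3} (hz : z ≠ 0) : ‖z‖ • dir z = z := by
  unfold dir
  rw [smul_smul, mul_inv_cancel₀ (norm_ne_zero_iff.2 hz), one_smul]

theorem dir_map (A : E3 ≃ₗᵢ[ℝ] E3) (z : E3) : dir (A z) = A (dir z) := by
  unfold dir; rw [A.norm_map, map_smul]

/-- The uniform probability on the unit sphere, as a measure on `ℝ³`. -/
def sph : Measure E3 :=
  ((volume : Measure E3) (Metric.ball 0 1))⁻¹ •
    ((volume : Measure E3).restrict (Metric.ball 0 1)).map dir

theorem vol_ball_ne_zero : (volume : Measure E3) (Metric.ball 0 1) ≠ 0 :=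
  (Metric.measure_ball_pos _ _ one_pos).ne'

theorem vol_ball_ne_top : (volume : Measure E3) (Metric.ball 0 1) ≠ ∞ :=
  measure_ball_lt_top.ne

instance : IsProbabilityMeasure sph := by
  refine ⟨?_⟩
  unfold sph
  rw [Measure.smul_apply, Measure.map_apply measurable_dir MeasurableSet.univ, preimage_univ,
    Measure.restrict_apply_univ, smul_eq_mul, ENNReal.inv_mul_cancel vol_ball_ne_zero
      vol_ball_ne_top]

theorem lintegral_sph {h : E3 → ℝ≥0∞} (hh : Measurable h) :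
    ∫⁻ ω, h ω ∂sph =
      ((volume : Measure E3) (Metric.ball 0 1))⁻¹ * ∫⁻ z in Metric.ball 0 1, h (dir z) := by
  unfold sph
  rw [lintegral_smul_measure, lintegral_map hh measurable_dir, smul_eq_mul]

theorem ae_ne_zero_vol : ∀ᵐ z : E3, z ≠ 0 := by
  have h0 : (volume : Measure E3) {0} = 0 := measure_singleton _
  have h1 : ∀ᵐ u : E3, u ∉ ({0} : Set E3) := measure_eq_zero_iff_ae_notMem.1 h0
  filter_upwards [h1] with z hz h
  exact hz h

theorem sph_ae_norm : ∀ᵐ ω ∂sph, ‖ω‖ = 1 := by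
  unfold sph
  refine Measure.ae_smul_measure ?_ _
  rw [ae_map_iff measurable_dir.aemeasurable (measurableSet_eq_fun measurable_norm measurable_const)]
  filter_upwards [ae_restrict_of_ae ae_ne_zero_vol] with z hz
  exact norm_dir hz

theorem isotropic_sph : Isotropic sph := by
  intro A
  refine Measure.ext_of_lintegral _ fun h hh => ?_
  have hA : Measurable (fun x : E3 => A x) := A.continuous.measurable
  have hhA : Measurable (fun x : E3 => h (A x)) := hh.comp hA
  have hhd : Measurable (fun x : E3 => h (dir x)) := hh.comp measurable_dir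
  rw [lintegral_map hh hA, lintegral_sph hhA, lintegral_sph hh]
  congr 1
  have hmA : MeasurePreserving (fun x : E3 => A x) volume volume := A.measurePreserving
  rw [← hmA.setLIntegral_comp_preimage Metric.isOpen_ball.measurableSet hhd]
  have e : (fun x : E3 => A x) ⁻¹' Metric.ball 0 1 = Metric.ball 0 1 := by
    ext x; simp
  rw [e]
  refine lintegral_congr fun z => ?_
  rw [dir_map]

/-- Transitivity on the unit sphere. -/
theorem exists_isometry {a b : E3} (h : ‖a‖ = ‖b‖) : ∃ A : E3 ≃ₗᵢ[ℝ] E3, A a = b :=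
  ⟨(ℝ ∙ (a - b))ᗮ.reflection, Submodule.reflection_sub h⟩

/-- The measure of a spherical cap. -/
def cap (δ : ℝ) (n : E3) : ℝ≥0∞ := sph {ω | ‖n - ω‖ < δ}

theorem measurableSet_cap (δ : ℝ) (n : E3) : MeasurableSet {ω : E3 | ‖n - ω‖ < δ} :=
  measurableSet_lt (measurable_const.sub measurable_id).norm measurable_const

theorem cap_eq {δ : ℝ} {a b : E3} (h : ‖a‖ = ‖b‖) : cap δ a = cap δ b := by
  obtain ⟨A, hA⟩ := exists_isometry h
  unfold cap
  conv_lhs => rw [← isotropic_sph A.symm]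
  rw [Measure.map_apply A.symm.continuous.measurable (measurableSet_cap δ a)]
  congr 1
  ext ω
  simp only [mem_preimage, mem_ofPred_eq]
  rw [← hA, ← A.norm_map, map_sub, A.apply_symm_apply]

theorem cap_ne_top (δ : ℝ) (n : E3) : cap δ n ≠ ∞ := measure_ne_top _ _

theorem cap_ne_zero {δ : ℝ} (hδ : 0 < δ) {n : E3} (hn : ‖n‖ = 1) : cap δ n ≠ 0 := by
  unfold cap sph
  rw [Measure.smul_apply, Measure.map_apply measurable_dir (measurableSet_cap δ n),
    smul_eq_mul, mul_ne_zero_iff]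
  refine ⟨ENNReal.inv_ne_zero.2 vol_ball_ne_top, ?_⟩
  rw [Measure.restrict_apply (measurable_dir (measurableSet_cap δ n))]
  -- an open subset
  have hcont : ContinuousAt dir ((2 : ℝ)⁻¹ • n) := by
    unfold dir
    have h0 : ‖(2 : ℝ)⁻¹ • n‖ ≠ 0 := by
      rw [norm_smul, hn]; norm_num
    exact (continuous_norm.continuousAt.inv₀ h0).smul continuousAt_id
  have hd : dir ((2 : ℝ)⁻¹ • n) = n := by
    unfold dir
    rw [norm_smul, hn, smul_smul]
    norm_num
  have h1 : ∀ᶠ z in 𝓝 ((2 : ℝ)⁻¹ • n), z ∈ dir ⁻¹' {ω | ‖n - ω‖ < δ} ∩ Metric.ball 0 1 := by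
    have h2 : ∀ᶠ ω in 𝓝 (dir ((2 : ℝ)⁻¹ • n)), ‖n - ω‖ < δ := by
      have h3 : ContinuousAt (fun ω : E3 => ‖n - ω‖) (dir ((2 : ℝ)⁻¹ • n)) := by fun_prop
      refine h3.eventually (gt_mem_nhds ?_)
      change ‖n - dir ((2 : ℝ)⁻¹ • n)‖ < δ
      rw [hd, sub_self, norm_zero]; exact hδ
    have h4 : ∀ᶠ z in 𝓝 ((2 : ℝ)⁻¹ • n), z ∈ Metric.ball (0 : E3) 1 := by
      apply Metric.isOpen_ball.mem_nhds
      rw [mem_ball_zero_iff, norm_smul, hn]; norm_num
    filter_upwards [hcont.eventually h2, h4] with z hz1 hz2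
    exact ⟨hz1, hz2⟩
  exact (Measure.measure_pos_of_mem_nhds (volume : Measure E3) h1).ne'

/-- The double integral over a spherical cap. -/
theorem lintegral_cap {m : Measure E3} [SFinite m] (hm : Isotropic m) (h0 : m {0} = 0) {δ : ℝ}
    {h : E3 → ℝ≥0∞} (hh : Measurable h) {e : E3} (he : ‖e‖ = 1) :
    ∫⁻ N, ∫⁻ ω, ({q : E3 × E3 | ‖dir q.1 - q.2‖ < δ}).indicator
        (fun q => h (‖q.1‖ • q.2)) (N, ω) ∂sph ∂m =
      cap δ e * ∫⁻ N, ∫⁻ ω, h (‖N‖ • ω) ∂sph ∂m := by
  have hset : MeasurableSet {q : E3 × E3 | ‖dir q.1 - q.2‖ < δ} :=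
    measurableSet_lt ((measurable_dir.comp measurable_fst).sub measurable_snd).norm
      measurable_const
  have hf : Measurable (fun q : E3 × E3 => h (‖q.1‖ • q.2)) := by
    apply hh.comp; fun_prop
  rw [lintegral_lintegral_swap (by exact (hf.indicator hset).aemeasurable)]
  -- the inner integral with an independent centre of the cap
  set J : E3 → E3 → ℝ≥0∞ := fun ω ω' => ∫⁻ N, ({N : E3 | ‖dir N - ω'‖ < δ}).indicator
    (fun N => h (‖N‖ • ω)) N ∂m with hJ
  have hsetN : ∀ ω' : E3, MeasurableSet {N : E3 | ‖dir N - ω'‖ < δ} := fun ω' =>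
    measurableSet_lt (measurable_dir.sub measurable_const).norm measurable_const
  have hfN : ∀ ω : E3, Measurable (fun N : E3 => h (‖N‖ • ω)) := by
    intro ω; apply hh.comp; fun_prop
  have hJc : ∀ ω a b : E3, ‖a‖ = ‖b‖ → J ω a = J ω b := by
    intro ω a b hab
    obtain ⟨A, hA⟩ := exists_isometry hab
    simp only [hJ]
    rw [← hm.lintegral A ((hfN ω).indicator (hsetN b))]
    refine lintegral_congr fun N => ?_
    have e1 : ‖dir (A N) - b‖ = ‖dir N - a‖ := by
      rw [dir_map, ← hA, ← map_sub, A.norm_map]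
    by_cases hN : ‖dir N - a‖ < δ
    · rw [indicator_of_mem (show N ∈ {N : E3 | ‖dir N - a‖ < δ} from hN),
        indicator_of_mem (show A N ∈ {N : E3 | ‖dir N - b‖ < δ} from by
          change ‖dir (A N) - b‖ < δ; rw [e1]; exact hN), A.norm_map]
    · rw [indicator_of_notMem (show N ∉ {N : E3 | ‖dir N - a‖ < δ} from hN),
        indicator_of_notMem (show A N ∉ {N : E3 | ‖dir N - b‖ < δ} from by
          change ¬ ‖dir (A N) - b‖ < δ; rw [e1]; exact hN)]
  have hJavg : ∀ ω : E3, ∫⁻ ω', J ω ω' ∂sph = cap δ e * ∫⁻ N, h (‖N‖ • ω) ∂m := by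
    intro ω
    simp only [hJ]
    have hm3 : Measurable (fun q : E3 × E3 => ({q : E3 × E3 | ‖dir q.2 - q.1‖ < δ}).indicator
        (fun q => h (‖q.2‖ • ω)) q) := by
      refine Measurable.indicator ?_ ?_
      · exact (hfN ω).comp measurable_snd
      · exact measurableSet_lt ((measurable_dir.comp measurable_snd).sub measurable_fst).norm
          measurable_const
    have h4 : ∀ ω' N : E3, ({N : E3 | ‖dir N - ω'‖ < δ}).indicator (fun N => h (‖N‖ • ω)) N =
        ({q : E3 × E3 | ‖dir q.2 - q.1‖ < δ}).indicator (fun q => h (‖q.2‖ • ω)) (ω', N) := by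
      intro ω' N; rfl
    simp_rw [h4]
    rw [lintegral_lintegral_swap (by exact hm3.aemeasurable), ← lintegral_const_mul _ (hfN ω)]
    have hae : ∀ᵐ N ∂m, N ≠ 0 := by
      have h1 : ∀ᵐ u ∂m, u ∉ ({0} : Set E3) := measure_eq_zero_iff_ae_notMem.1 h0
      filter_upwards [h1] with z hz h
      exact hz h
    refine lintegral_congr_ae ?_
    filter_upwards [hae] with N hN
    have h5 : ∀ ω' : E3, ({q : E3 × E3 | ‖dir q.2 - q.1‖ < δ}).indicator
        (fun q => h (‖q.2‖ • ω)) (ω', N) =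
        ({ω' : E3 | ‖dir N - ω'‖ < δ}).indicator (fun _ => h (‖N‖ • ω)) ω' := by
      intro ω'; rfl
    simp_rw [h5]
    rw [lintegral_indicator (measurableSet_cap δ (dir N)), setLIntegral_const, mul_comm]
    congr 1
    change cap δ (dir N) = cap δ e
    exact cap_eq (by rw [norm_dir hN, he])
  have h6 : ∀ᵐ ω ∂sph, ∫⁻ N, ({q : E3 × E3 | ‖dir q.1 - q.2‖ < δ}).indicator
      (fun q => h (‖q.1‖ • q.2)) (N, ω) ∂m = cap δ e * ∫⁻ N, h (‖N‖ • ω) ∂m := by
    filter_upwards [sph_ae_norm] with ω hω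
    rw [← hJavg ω]
    have h7 : ∀ᵐ ω' ∂sph, J ω ω' = J ω ω := by
      filter_upwards [sph_ae_norm] with ω' hω'
      exact hJc ω ω' ω (by rw [hω', hω])
    rw [lintegral_congr_ae h7, lintegral_const, measure_univ, mul_one]
    rfl
  rw [lintegral_congr_ae h6, lintegral_const_mul]
  · rw [lintegral_lintegral_swap]
    have : Measurable (fun q : E3 × E3 => h (‖q.2‖ • q.1)) := by
      apply hh.comp; fun_prop
    exact this.aemeasurable
  · have : Measurable (fun q : E3 × E3 => h (‖q.2‖ • q.1)) := by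
      apply hh.comp; fun_prop
    exact this.lintegral_prod_right'

/-- Averages over small caps converge. -/
theorem tendsto_cap (h : E3 →ᵇ ℝ≥0) {N : E3} (hN : N ≠ 0) {e : E3} (he : ‖e‖ = 1) :
    Tendsto (fun k : ℕ => (cap (1 / (k + 1 : ℝ)) e)⁻¹ *
      ∫⁻ ω, ({q : E3 × E3 | ‖dir q.1 - q.2‖ < 1 / (k + 1 : ℝ)}).indicator
        (fun q => (h (‖q.1‖ • q.2) : ℝ≥0∞)) (N, ω) ∂sph) atTop (𝓝 (h N)) := by
  rw [ENNReal.tendsto_nhds ENNReal.coe_ne_top]
  intro η hη
  have hNp : 0 < ‖N‖ := norm_pos_iff.2 hN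
  have hc : Continuous (fun y : E3 => (h y : ℝ≥0∞)) :=
    ENNReal.continuous_coe.comp h.continuous
  have h1 : ∀ᶠ y in 𝓝 N, (h y : ℝ≥0∞) ∈ Icc ((h N : ℝ≥0∞) - η) ((h N : ℝ≥0∞) + η) :=
    hc.continuousAt.eventually (ENNReal.Icc_mem_nhds ENNReal.coe_ne_top hη.ne')
  obtain ⟨δ, hδ, h2⟩ := Metric.eventually_nhds_iff.1 h1
  have h3 : ∀ᶠ k : ℕ in atTop, ‖N‖ * (1 / (k + 1 : ℝ)) < δ := by
    have h4 : Tendsto (fun k : ℕ => ‖N‖ * (1 / (k + 1 : ℝ))) atTop (𝓝 (‖N‖ * 0)) :=
      tendsto_one_div_add_atTop_nhds_zero_nat.const_mul _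
    rw [mul_zero] at h4
    exact h4.eventually (gt_mem_nhds hδ)
  filter_upwards [h3] with k hk
  set d : ℝ := 1 / (k + 1 : ℝ) with hd
  have hdp : 0 < d := by positivity
  have hcap : cap d e = cap d (dir N) := cap_eq (by rw [he, norm_dir hN])
  have h5 : ∀ ω : E3, ({q : E3 × E3 | ‖dir q.1 - q.2‖ < d}).indicator
      (fun q => (h (‖q.1‖ • q.2) : ℝ≥0∞)) (N, ω) =
      ({ω : E3 | ‖dir N - ω‖ < d}).indicator (fun ω => (h (‖N‖ • ω) : ℝ≥0∞)) ω := by
    intro ω; rfl
  simp_rw [h5]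
  rw [lintegral_indicator (measurableSet_cap d (dir N)), hcap]
  have hin : ∀ ω ∈ {ω : E3 | ‖dir N - ω‖ < d},
      (h (‖N‖ • ω) : ℝ≥0∞) ∈ Icc ((h N : ℝ≥0∞) - η) ((h N : ℝ≥0∞) + η) := by
    intro ω hω
    apply h2
    have hω' : ‖dir N - ω‖ < d := hω
    rw [dist_eq_norm]
    have e1 : ‖N‖ • ω - N = -(‖N‖ • (dir N - ω)) := by
      rw [smul_sub, norm_smul_dir hN]; abel
    rw [e1, norm_neg, norm_smul, norm_norm]
    calc ‖N‖ * ‖dir N - ω‖ < ‖N‖ * d := mul_lt_mul_of_pos_left hω' hNp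
      _ < δ := hk
  have hc0 : cap d (dir N) ≠ 0 := cap_ne_zero hdp (norm_dir hN)
  have hct : cap d (dir N) ≠ ∞ := cap_ne_top _ _
  have hmul : ∀ a : ℝ≥0∞, (cap d (dir N))⁻¹ * ∫⁻ _ in {ω : E3 | ‖dir N - ω‖ < d}, a ∂sph = a := by
    intro a
    rw [setLIntegral_const, mul_comm a, ← mul_assoc]
    change (cap d (dir N))⁻¹ * cap d (dir N) * a = a
    rw [ENNReal.inv_mul_cancel hc0 hct, one_mul]
  constructor
  · calc (h N : ℝ≥0∞) - η = (cap d (dir N))⁻¹ *
          ∫⁻ _ in {ω : E3 | ‖dir N - ω‖ < d}, ((h N : ℝ≥0∞) - η) ∂sph := (hmul _).symm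
      _ ≤ _ := mul_le_mul_right
        (setLIntegral_mono' (measurableSet_cap d (dir N)) fun ω hω => (hin ω hω).1) _
  · refine le_trans (mul_le_mul_right
      (setLIntegral_mono' (measurableSet_cap d (dir N)) fun ω hω => (hin ω hω).2) _) ?_
    exact (hmul _).le

theorem exists_unit : ∃ e : E3, ‖e‖ = 1 := ⟨EuclideanSpace.single 0 1, by simp⟩

/-- **Isotropic measures are averages of uniform measures on spheres.** -/
theorem isotropic_eq {m : Measure E3} [IsFiniteMeasure m] (hm : Isotropic m) (h0 : m {0} = 0) :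
    m = (m.prod sph).map (fun q => ‖q.1‖ • q.2) := by
  obtain ⟨e, he⟩ := exists_unit
  refine ext_of_forall_lintegral_eq_of_IsFiniteMeasure fun h => ?_
  have hc : Continuous (fun y : E3 => (h y : ℝ≥0∞)) :=
    ENNReal.continuous_coe.comp h.continuous
  have hmap : Measurable (fun q : E3 × E3 => ‖q.1‖ • q.2) := by fun_prop
  have hcm : Measurable (fun q : E3 × E3 => (h (‖q.1‖ • q.2) : ℝ≥0∞)) := hc.measurable.comp hmap
  rw [lintegral_map hc.measurable hmap, lintegral_prod _ hcm.aemeasurable]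
  -- the approximations
  set u : ℕ → E3 → ℝ≥0∞ := fun k N => (cap (1 / (k + 1 : ℝ)) e)⁻¹ *
      ∫⁻ ω, ({q : E3 × E3 | ‖dir q.1 - q.2‖ < 1 / (k + 1 : ℝ)}).indicator
        (fun q => (h (‖q.1‖ • q.2) : ℝ≥0∞)) (N, ω) ∂sph with hu
  have hset : ∀ δ : ℝ, MeasurableSet {q : E3 × E3 | ‖dir q.1 - q.2‖ < δ} := fun δ =>
    measurableSet_lt ((measurable_dir.comp measurable_fst).sub measurable_snd).norm
      measurable_const
  have hum : ∀ k, Measurable (u k) := by
    intro k
    have := (hcm.indicator (hset (1 / (k + 1 : ℝ)))).lintegral_prod_right'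
      (ν := sph)
    exact this.const_mul _
  have huint : ∀ k, ∫⁻ N, u k N ∂m = ∫⁻ N, ∫⁻ ω, (h (‖N‖ • ω) : ℝ≥0∞) ∂sph ∂m := by
    intro k
    have hpos : (0 : ℝ) < 1 / (k + 1 : ℝ) := by positivity
    have := (hcm.indicator (hset (1 / (k + 1 : ℝ)))).lintegral_prod_right'
      (ν := sph)
    simp only [hu]
    rw [lintegral_const_mul _ this, lintegral_cap hm h0 hc.measurable he, ← mul_assoc,
      ENNReal.inv_mul_cancel (cap_ne_zero hpos he) (cap_ne_top _ _), one_mul]
  have hae : ∀ᵐ N ∂m, N ≠ 0 := by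
    have h1 : ∀ᵐ u ∂m, u ∉ ({0} : Set E3) := measure_eq_zero_iff_ae_notMem.1 h0
    filter_upwards [h1] with z hz h
    exact hz h
  -- uniform bound
  obtain ⟨C, hC⟩ : ∃ C : ℝ≥0, ∀ y, h y ≤ C := by
    obtain ⟨C, hC⟩ := h.isBounded_range.bddAbove
    exact ⟨C, fun y => hC ⟨y, rfl⟩⟩
  have hbound : ∀ k, ∀ᵐ N ∂m, u k N ≤ C := by
    intro k
    filter_upwards [hae] with N hN
    set d : ℝ := 1 / (k + 1 : ℝ) with hd
    have hdp : 0 < d := by positivity
    have hcap : cap d e = cap d (dir N) := cap_eq (by rw [he, norm_dir hN])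
    have h5 : ∀ ω : E3, ({q : E3 × E3 | ‖dir q.1 - q.2‖ < d}).indicator
        (fun q => (h (‖q.1‖ • q.2) : ℝ≥0∞)) (N, ω) ≤
        ({ω : E3 | ‖dir N - ω‖ < d}).indicator (fun _ => (C : ℝ≥0∞)) ω := by
      intro ω
      by_cases hω : ‖dir N - ω‖ < d
      · rw [indicator_of_mem (show (N, ω) ∈ {q : E3 × E3 | ‖dir q.1 - q.2‖ < d} from hω),
          indicator_of_mem (show ω ∈ {ω : E3 | ‖dir N - ω‖ < d} from hω)]
        exact_mod_cast hC _
      · rw [indicator_of_notMem (show (N, ω) ∉ {q : E3 × E3 | ‖dir q.1 - q.2‖ < d} from hω)]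
        exact zero_le
    simp only [hu]
    calc (cap d e)⁻¹ * ∫⁻ ω, ({q : E3 × E3 | ‖dir q.1 - q.2‖ < d}).indicator
          (fun q => (h (‖q.1‖ • q.2) : ℝ≥0∞)) (N, ω) ∂sph
        ≤ (cap d e)⁻¹ * ∫⁻ ω, ({ω : E3 | ‖dir N - ω‖ < d}).indicator
            (fun _ => (C : ℝ≥0∞)) ω ∂sph := by
          gcongr
          exact h5 _
      _ = C := by
          rw [lintegral_indicator (measurableSet_cap d (dir N)), setLIntegral_const, mul_comm (C : ℝ≥0∞),
            ← mul_assoc, hcap]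
          change (cap d (dir N))⁻¹ * cap d (dir N) * C = C
          rw [ENNReal.inv_mul_cancel (cap_ne_zero hdp (norm_dir hN)) (cap_ne_top _ _), one_mul]
  have hlim : ∀ᵐ N ∂m, Tendsto (fun k => u k N) atTop (𝓝 (h N)) := by
    filter_upwards [hae] with N hN
    exact tendsto_cap h hN he
  have hfin : ∫⁻ _, (C : ℝ≥0∞) ∂m ≠ ∞ := by
    rw [lintegral_const]
    exact ENNReal.mul_ne_top ENNReal.coe_ne_top (measure_ne_top _ _)
  have hconv := tendsto_lintegral_of_dominated_convergence (fun _ => (C : ℝ≥0∞)) hum hbound hfin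
    hlim
  simp_rw [huint] at hconv
  exact tendsto_nhds_unique tendsto_const_nhds hconv |>.symm

/-- Integration against an isotropic measure. -/
theorem lintegral_isotropic {m : Measure E3} [IsFiniteMeasure m] (hm : Isotropic m)
    {h : E3 → ℝ≥0∞} (hh : Measurable h) :
    ∫⁻ N in {0}ᶜ, h N ∂m = ∫⁻ N in {0}ᶜ, ∫⁻ ω, h (‖N‖ • ω) ∂sph ∂m := by
  have hmeas : MeasurableSet ({0}ᶜ : Set E3) := (measurableSet_singleton 0).compl
  have hm' : Isotropic (m.restrict {0}ᶜ) := by
    intro A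
    have hA : Measurable (fun x : E3 => A x) := A.continuous.measurable
    ext B hB
    rw [Measure.map_apply hA hB, Measure.restrict_apply (hA hB), Measure.restrict_apply hB]
    have e : (fun x : E3 => A x) ⁻¹' B ∩ {0}ᶜ = (fun x : E3 => A x) ⁻¹' (B ∩ {0}ᶜ) := by
      ext x
      simp only [mem_inter_iff, mem_preimage, mem_compl_iff, mem_singleton_iff]
      rw [map_eq_zero_iff A A.injective]
    change m ((fun x : E3 => A x) ⁻¹' B ∩ {0}ᶜ) = _
    rw [e, ← Measure.map_apply hA (hB.inter hmeas)]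
    have := hm A
    exact congrArg (fun μ => μ (B ∩ {0}ᶜ)) this
  have h0 : (m.restrict {0}ᶜ) {0} = 0 := by
    rw [Measure.restrict_apply (measurableSet_singleton 0)]; simp
  have h1 := isotropic_eq hm' h0
  have hmap : Measurable (fun q : E3 × E3 => ‖q.1‖ • q.2) := by fun_prop
  have hcm : Measurable (fun q : E3 × E3 => h (‖q.1‖ • q.2)) := hh.comp hmap
  conv_lhs => rw [h1]
  rw [lintegral_map hh hmap, lintegral_prod _ hcm.aemeasurable]

end Vale.Agent.P119.KU
end
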