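import Vale.Agent.P119.KU.Scat1

/-!
# The reduced two-body motion, all potentials

The global flow `gflow Φ` of `r'' = -2 ∇Φ(r)` for the (possibly singular) potentials of the
problem: uniqueness, group property, conservation laws, equivariance, Liouville.
-/

open MeasureTheory Filter Topology Set
open scoped ENNReal NNReal RealInnerProductSpace

noncomputable section

namespace Vale.Agent.P119.KU

variable {Φ : E3 → ℝ}

/-- The points at which the potential is regular. -/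
def Adm (Φ : E3 → ℝ) (x : E3) : Prop := ContDiff ℝ 2 Φ ∨ x ≠ 0

theorem adm_of_one_le {x : E3} (hx : 1 ≤ ‖x‖) : Adm Φ x :=
  Or.inr (by intro h; rw [h, norm_zero] at hx; linarith)

theorem contDiffAt_of_adm (hΦ : IsPotential Φ) {x : E3} (hx : Adm Φ x) : ContDiffAt ℝ 2 Φ x := by
  by_cases hs : ContDiff ℝ 2 Φ
  · exact hs.contDiffAt
  · have hx0 : x ≠ 0 := hx.resolve_left hs
    obtain ⟨h1, -, -⟩ := hΦ.regular.resolve_left hs
    exact h1.contDiffAt (isOpen_compl_singleton.mem_nhds hx0)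

theorem adm_of_trunc_lt {M : ℝ} {x : E3} (h : trunc Φ M x < M) :
    Adm Φ x ∧ Φ x < M := by
  by_cases hs : ContDiff ℝ 2 Φ
  · unfold trunc at h; rw [if_pos hs] at h
    exact ⟨Or.inl hs, h⟩
  · unfold trunc at h; rw [if_neg hs] at h
    have hx : x ≠ 0 := by
      intro h0
      simp only [h0, if_true] at h
      linarith
    simp only [hx, if_false] at h
    refine ⟨Or.inr hx, ?_⟩
    by_contra hcon
    have := le_hcut (not_lt.1 hcon)
    linarith

theorem trunc_eventuallyEq' (hΦ : IsPotential Φ) {M : ℝ} {x : E3} (hx : Adm Φ x)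
    (hM : Φ x < M) : trunc Φ M =ᶠ[𝓝 x] Φ := by
  by_cases hs : ContDiff ℝ 2 Φ
  · have : trunc Φ M = Φ := by unfold trunc; rw [if_pos hs]
    rw [this]
  · have hx0 : x ≠ 0 := hx.resolve_left hs
    have hcont : ContinuousAt Φ x := (contDiffAt_of_adm hΦ hx).continuousAt
    filter_upwards [hcont.eventually (gt_mem_nhds hM), isOpen_compl_singleton.mem_nhds hx0]
      with z hz hz0
    have hz0' : z ≠ 0 := hz0
    unfold trunc
    rw [if_neg hs]
    simp only [hz0', if_false]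
    exact hcut_of_le (le_of_lt hz)

theorem acc_congr {Φ₁ Φ₂ : E3 → ℝ} {x : E3} (h : Φ₁ =ᶠ[𝓝 x] Φ₂) : acc Φ₁ x = acc Φ₂ x := by
  unfold acc; rw [h.gradient_eq]

theorem lt_of_en_lt {p : Ph} {M : ℝ} (h : en Φ p < 2 * M) : Φ p.1 < M := by
  unfold en at h
  nlinarith [sq_nonneg ‖p.2‖]

theorem en_trunc_eq (hΦ : IsPotential Φ) {M : ℝ} {p : Ph} (hp : Adm Φ p.1)
    (h : en Φ p < 2 * M) : en (trunc Φ M) p = en Φ p := by
  unfold en
  rw [(trunc_eventuallyEq' hΦ hp (lt_of_en_lt h)).eq_of_nhds]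

/-- Trajectories of the truncated potential with small energy are trajectories of `Φ`. -/
theorem red_of_trunc (hΦ : IsPotential Φ) {M : ℝ} (hM : 0 ≤ M) {z : ℝ → Ph}
    (hz : IsRed (trunc Φ M) z) {t₀ : ℝ} (he : en (trunc Φ M) (z t₀) < 2 * M) :
    IsRed Φ z ∧ ∀ t, Adm Φ (z t).1 ∧ en Φ (z t) = en (trunc Φ M) (z t₀) := by
  have hS := sm_trunc hΦ hM
  have h1 : ∀ t, Adm Φ (z t).1 ∧ Φ (z t).1 < M := by
    intro t
    apply adm_of_trunc_lt
    apply lt_of_en_lt (Φ := trunc Φ M) (p := z t)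
    rw [hS.energy hz t t₀]
    exact he
  refine ⟨fun t => ?_, fun t => ⟨(h1 t).1, ?_⟩⟩
  · have h2 := hz t
    have h3 : field (acc (trunc Φ M)) (z t) = field (acc Φ) (z t) := by
      unfold field
      rw [acc_congr (trunc_eventuallyEq' hΦ (h1 t).1 (h1 t).2)]
    rw [h3] at h2
    exact h2
  · rw [hS.energy hz t₀ t]
    unfold en
    rw [(trunc_eventuallyEq' hΦ (h1 t).1 (h1 t).2).eq_of_nhds]

/-- Trajectories of `Φ` are trajectories of the truncated potential. -/
theorem red_trunc (hΦ : IsPotential Φ) {M : ℝ} (hM : 0 ≤ M) {z : ℝ → Ph} (hz : IsRed Φ z)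
    {t₀ : ℝ} (ha : Adm Φ (z t₀).1) (he : en Φ (z t₀) < 2 * M) :
    (∀ t, z t = rflow (trunc Φ M) (t - t₀) (z t₀)) ∧ IsRed (trunc Φ M) z ∧
      ∀ t, Adm Φ (z t).1 ∧ en Φ (z t) = en Φ (z t₀) := by
  have hS := sm_trunc hΦ hM
  obtain ⟨K, B, hK, hB⟩ := hS.acc_lipschitz
  set y : ℝ → Ph := fun t => rflow (trunc Φ M) (t - t₀) (z t₀) with hy
  have hy0 : y t₀ = z t₀ := by simp only [hy, sub_self]; rw [hS.zero]
  have hyr : IsRed (trunc Φ M) y := by
    intro t
    have h2 := HasDerivAt.scomp t (hS.isRed (z t₀) (t - t₀)) ((hasDerivAt_id t).sub_const t₀)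
    rw [one_smul] at h2
    exact h2
  have hen : en (trunc Φ M) (y t₀) = en Φ (z t₀) := by
    rw [hy0]; exact en_trunc_eq hΦ ha he
  obtain ⟨h1, h2⟩ := red_of_trunc hΦ hM hyr (t₀ := t₀) (by rw [hen]; exact he)
  have hΦy : ∀ t, Φ (y t).1 < M := by
    intro t
    apply lt_of_en_lt
    rw [(h2 t).2, hen]
    exact he
  have hzc : Continuous z := continuous_iff_continuousAt.2 fun t => (hz t).continuousAt
  have hyc : Continuous y := continuous_iff_continuousAt.2 fun t => (h1 t).continuousAt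
  have hclosed : IsClosed {t | z t = y t} := isClosed_eq hzc hyc
  have hopen : IsOpen {t | z t = y t} := by
    rw [isOpen_iff_mem_nhds]
    intro t₁ ht₁
    have ht₁ : z t₁ = y t₁ := ht₁
    have h3 := (trunc_eventuallyEq' hΦ (h2 t₁).1 (hΦy t₁)).eventuallyEq_nhds
    rw [← ht₁] at h3
    have h4 : ∀ᶠ t in 𝓝 t₁, trunc Φ M =ᶠ[𝓝 (z t).1] Φ :=
      (continuous_fst.comp hzc).continuousAt.eventually h3
    have h5 : ∀ᶠ t in 𝓝 t₁, HasDerivAt z (field (acc (trunc Φ M)) (z t)) t ∧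
        z t ∈ (univ : Set _) := by
      filter_upwards [h4] with t ht
      refine ⟨?_, trivial⟩
      have h6 := hz t
      have h7 : field (acc (trunc Φ M)) (z t) = field (acc Φ) (z t) := by
        unfold field
        rw [acc_congr ht]
      rw [h7]
      exact h6
    exact ODE_solution_unique_of_eventually (v := fun _ => field (acc (trunc Φ M)))
      (s := fun _ => univ) (K := max 1 K)
      (Eventually.of_forall fun t => (field_lipschitz hK).lipschitzOnWith) h5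
      (Eventually.of_forall fun t => ⟨hyr t, trivial⟩) ht₁
  have huniv : {t | z t = y t} = univ := IsClopen.eq_univ ⟨hclosed, hopen⟩ ⟨t₀, hy0.symm⟩
  have hzy : z = y := by
    funext t
    have : t ∈ {t | z t = y t} := by rw [huniv]; trivial
    exact this
  refine ⟨fun t => congrFun hzy t, ?_, fun t => ?_⟩
  · rw [hzy]; exact hyr
  · have h6 := h2 t
    rw [hen] at h6
    rw [congrFun hzy t]
    exact h6

/-! ### The flow -/

/-- The truncation level used at a phase point. -/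
def lev (Φ : E3 → ℝ) (p : Ph) : ℕ := ⌈|en Φ p|⌉₊ + 1

theorem en_lt_lev (p : Ph) : en Φ p < 2 * (lev Φ p : ℝ) := by
  unfold lev
  have h1 := Nat.le_ceil |en Φ p|
  have h2 := le_abs_self (en Φ p)
  have h3 := abs_nonneg (en Φ p)
  push_cast
  linarith

open Classical in
/-- The flow of the reduced motion. -/
def gflow (Φ : E3 → ℝ) (t : ℝ) (p : Ph) : Ph :=
  if Adm Φ p.1 then rflow (trunc Φ (lev Φ p)) t p else p

theorem gflow_of_not_adm {p : Ph} (h : ¬ Adm Φ p.1) (t : ℝ) : gflow Φ t p = p := by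
  unfold gflow; rw [if_neg h]

theorem gflow_isRed (hΦ : IsPotential Φ) {p : Ph} (hp : Adm Φ p.1) :
    IsRed Φ (fun t => gflow Φ t p) ∧ ∀ t, Adm Φ (gflow Φ t p).1 ∧ en Φ (gflow Φ t p) = en Φ p := by
  have hM : (0 : ℝ) ≤ lev Φ p := Nat.cast_nonneg _
  have hS := sm_trunc hΦ hM
  have h1 := red_of_trunc hΦ hM (hS.isRed p) (t₀ := 0)
    (by rw [hS.zero, en_trunc_eq hΦ hp (en_lt_lev p)]; exact en_lt_lev p)
  simp only [gflow, if_pos hp]
  refine ⟨h1.1, fun t => ⟨(h1.2 t).1, ?_⟩⟩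
  rw [(h1.2 t).2, hS.zero, en_trunc_eq hΦ hp (en_lt_lev p)]

theorem gflow_zero (hΦ : IsPotential Φ) (p : Ph) : gflow Φ 0 p = p := by
  unfold gflow
  split_ifs with h
  · exact (sm_trunc hΦ (Nat.cast_nonneg _)).zero p
  · rfl

/-- Every trajectory through an admissible point is given by the flow. -/
theorem red_eq_gflow (hΦ : IsPotential Φ) {z : ℝ → Ph} (hz : IsRed Φ z) {t₀ : ℝ}
    (ha : Adm Φ (z t₀).1) (t : ℝ) : z t = gflow Φ (t - t₀) (z t₀) := by
  have hM : (0 : ℝ) ≤ lev Φ (z t₀) := Nat.cast_nonneg _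
  rw [(red_trunc hΦ hM hz ha (en_lt_lev _)).1 t]
  unfold gflow
  rw [if_pos ha]

theorem gflow_eq_rflow (hΦ : IsPotential Φ) {p : Ph} (hp : Adm Φ p.1) {M : ℝ} (hM : 0 ≤ M)
    (he : en Φ p < 2 * M) (t : ℝ) : gflow Φ t p = rflow (trunc Φ M) t p := by
  have h1 := (red_trunc hΦ hM (gflow_isRed hΦ hp).1 (t₀ := 0)
    (by rw [gflow_zero hΦ]; exact hp) (by rw [gflow_zero hΦ]; exact he)).1 t
  rw [gflow_zero hΦ, sub_zero] at h1
  exact h1

theorem gflow_eq_rflow_of_smooth (hΦ : IsPotential Φ) (hs : ContDiff ℝ 2 Φ) (t : ℝ) (p : Ph) :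
    gflow Φ t p = rflow Φ t p := by
  rw [gflow_eq_rflow hΦ (Or.inl hs) (Nat.cast_nonneg _) (en_lt_lev p)]
  have : ∀ M, trunc Φ M = Φ := by intro M; unfold trunc; rw [if_pos hs]
  rw [this]

theorem red_unique (hΦ : IsPotential Φ) {z₁ z₂ : ℝ → Ph} (h1 : IsRed Φ z₁) (h2 : IsRed Φ z₂)
    {t₀ : ℝ} (h : z₁ t₀ = z₂ t₀) (ha : Adm Φ (z₁ t₀).1) : z₁ = z₂ := by
  funext t
  rw [red_eq_gflow hΦ h1 ha, red_eq_gflow hΦ h2 (by rw [← h]; exact ha), h]

theorem adm_gflow (hΦ : IsPotential Φ) {p : Ph} (t : ℝ) (hp : Adm Φ p.1) :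
    Adm Φ (gflow Φ t p).1 := ((gflow_isRed hΦ hp).2 t).1

theorem en_gflow (hΦ : IsPotential Φ) (t : ℝ) (p : Ph) : en Φ (gflow Φ t p) = en Φ p := by
  by_cases hp : Adm Φ p.1
  · exact ((gflow_isRed hΦ hp).2 t).2
  · rw [gflow_of_not_adm hp]

theorem gflow_add (hΦ : IsPotential Φ) (s t : ℝ) (p : Ph) :
    gflow Φ (s + t) p = gflow Φ s (gflow Φ t p) := by
  by_cases hp : Adm Φ p.1
  · have := red_eq_gflow hΦ (gflow_isRed hΦ hp).1 (t₀ := t) (adm_gflow hΦ t hp) (s + t)
    rwa [add_sub_cancel_right] at this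
  · rw [gflow_of_not_adm hp, gflow_of_not_adm hp, gflow_of_not_adm hp]

theorem gflow_neg_left (hΦ : IsPotential Φ) (t : ℝ) (p : Ph) : gflow Φ (-t) (gflow Φ t p) = p := by
  rw [← gflow_add hΦ, neg_add_cancel, gflow_zero hΦ]

theorem gflow_neg_right (hΦ : IsPotential Φ) (t : ℝ) (p : Ph) :
    gflow Φ t (gflow Φ (-t) p) = p := by
  rw [← gflow_add hΦ, add_neg_cancel, gflow_zero hΦ]

theorem adm_gflow_iff (hΦ : IsPotential Φ) {p : Ph} (t : ℝ) :
    Adm Φ (gflow Φ t p).1 ↔ Adm Φ p.1 := by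
  refine ⟨fun h => ?_, adm_gflow hΦ t⟩
  have := adm_gflow hΦ (-t) h
  rwa [gflow_neg_left hΦ] at this

theorem continuous_gflow_time (hΦ : IsPotential Φ) (p : Ph) :
    Continuous (fun t => gflow Φ t p) := by
  by_cases hp : Adm Φ p.1
  · exact continuous_iff_continuousAt.2 fun t => ((gflow_isRed hΦ hp).1 t).continuousAt
  · simp only [gflow_of_not_adm hp]
    exact continuous_const

theorem gflow_rev (hΦ : IsPotential Φ) (t : ℝ) (p : Ph) :
    gflow Φ t (rev p) = rev (gflow Φ (-t) p) := by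
  by_cases hp : Adm Φ p.1
  · have h1 := red_eq_gflow hΦ (isRed_rev (gflow_isRed hΦ hp).1) (t₀ := 0)
      (by simp only [neg_zero, gflow_zero hΦ]; exact hp) t
    simp only [sub_zero, neg_zero, gflow_zero hΦ] at h1
    exact h1.symm
  · rw [gflow_of_not_adm hp]
    exact gflow_of_not_adm (p := rev p) hp t

theorem adm_map (A : E3 ≃ₗᵢ[ℝ] E3) {x : E3} : Adm Φ (A x) ↔ Adm Φ x := by
  unfold Adm
  rw [Ne, Ne, map_eq_zero_iff A A.injective]

theorem gflow_act (hΦ : IsPotential Φ) (A : E3 ≃ₗᵢ[ℝ] E3) (t : ℝ) (p : Ph) :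
    gflow Φ t (act A p) = act A (gflow Φ t p) := by
  by_cases hp : Adm Φ p.1
  · have h1 := red_eq_gflow hΦ (isRed_act hΦ.radial' A (gflow_isRed hΦ hp).1) (t₀ := 0)
      (by simp only [gflow_zero hΦ]; exact (adm_map A).2 hp) t
    simp only [sub_zero, gflow_zero hΦ] at h1
    exact h1.symm
  · rw [gflow_of_not_adm hp, gflow_of_not_adm (p := act A p)]
    exact fun h => hp ((adm_map A).1 h)

theorem ang_gflow (hΦ : IsPotential Φ) (a b : E3) (t : ℝ) (p : Ph) :
    ang a b (gflow Φ t p) = ang a b p := by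
  by_cases hp : Adm Φ p.1
  · have hM : (0 : ℝ) ≤ lev Φ p := Nat.cast_nonneg _
    have hS := sm_trunc hΦ hM
    rw [gflow_eq_rflow hΦ hp hM (en_lt_lev p)]
    have := hS.angular (hS.isRed p) a b t 0
    rwa [hS.zero] at this
  · rw [gflow_of_not_adm hp]

theorem en_of_one_le (hΦ : IsPotential Φ) {p : Ph} (hx : 1 ≤ ‖p.1‖) : en Φ p = ‖p.2‖ ^ 2 / 2 := by
  unfold en; rw [hΦ.vanishing _ hx]; ring

theorem gflow_free_fwd (hΦ : IsPotential Φ) {p : Ph} (hx : 1 ≤ ‖p.1‖)
    (hv : 0 ≤ (inner ℝ p.1 p.2 : ℝ)) {t : ℝ} (ht : 0 ≤ t) : gflow Φ t p = free t p := by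
  rw [gflow_eq_rflow hΦ (adm_of_one_le hx) (Nat.cast_nonneg _) (en_lt_lev p)]
  exact (sm_trunc hΦ (Nat.cast_nonneg _)).free_fwd hx hv ht

theorem gflow_free_bwd (hΦ : IsPotential Φ) {p : Ph} (hx : 1 ≤ ‖p.1‖)
    (hv : (inner ℝ p.1 p.2 : ℝ) ≤ 0) {t : ℝ} (ht : t ≤ 0) : gflow Φ t p = free t p := by
  rw [gflow_eq_rflow hΦ (adm_of_one_le hx) (Nat.cast_nonneg _) (en_lt_lev p)]
  exact (sm_trunc hΦ (Nat.cast_nonneg _)).free_bwd hx hv ht

/-! ### Measurability and Liouville -/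

theorem measurable_pot (hΦ : IsPotential Φ) : Measurable Φ := by
  apply measurable_of_continuousOn_compl_singleton (0 : E3)
  intro x hx
  exact (contDiffAt_of_adm hΦ (Or.inr hx)).continuousAt.continuousWithinAt

theorem measurable_en (hΦ : IsPotential Φ) : Measurable (en Φ) := by
  have := measurable_pot hΦ
  unfold en
  fun_prop

theorem measurableSet_adm : MeasurableSet {p : Ph | Adm Φ p.1} := by
  by_cases hs : ContDiff ℝ 2 Φ
  · have : {p : Ph | Adm Φ p.1} = univ := by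
      ext p; simp [Adm, hs]
    rw [this]; exact MeasurableSet.univ
  · have : {p : Ph | Adm Φ p.1} = {p : Ph | p.1 = 0}ᶜ := by
      ext p; simp [Adm, hs]
    rw [this]
    exact (measurableSet_eq_fun (by fun_prop) (by fun_prop)).compl

/-- Admissible points of energy below `2 M`. -/
def eset (Φ : E3 → ℝ) (M : ℕ) : Set Ph := {p | Adm Φ p.1 ∧ en Φ p < 2 * (M : ℝ)}

theorem measurableSet_eset (hΦ : IsPotential Φ) (M : ℕ) : MeasurableSet (eset Φ M) :=
  measurableSet_adm.inter (measurableSet_lt (measurable_en hΦ) measurable_const)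

theorem mem_eset_gflow (hΦ : IsPotential Φ) {M : ℕ} {p : Ph} (t : ℝ) :
    gflow Φ t p ∈ eset Φ M ↔ p ∈ eset Φ M := by
  unfold eset
  simp only [mem_ofPred_eq]
  rw [adm_gflow_iff hΦ, en_gflow hΦ]

theorem measurable_gflow_uncurry (hΦ : IsPotential Φ) :
    Measurable (fun q : ℝ × Ph => gflow Φ q.1 q.2) := by
  classical
  have h1 : ∀ M : ℕ, Measurable (fun q : ℝ × Ph =>
      if q.2 ∈ eset Φ M then rflow (trunc Φ M) q.1 q.2 else q.2) := by
    intro M
    refine Measurable.ite ?_ ?_ measurable_snd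
    · exact measurable_snd (measurableSet_eset hΦ M)
    · exact (sm_trunc hΦ (Nat.cast_nonneg M)).continuous_uncurry.measurable
  refine measurable_of_tendsto_metrizable h1 ?_
  rw [tendsto_pi_nhds]
  intro q
  by_cases hp : Adm Φ q.2.1
  · refine tendsto_const_nhds.congr' ?_
    filter_upwards [eventually_ge_atTop (lev Φ q.2)] with M hM
    have h2 : en Φ q.2 < 2 * (M : ℝ) := by
      have h3 : (lev Φ q.2 : ℝ) ≤ M := by exact_mod_cast hM
      have := en_lt_lev (Φ := Φ) q.2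
      linarith
    rw [if_pos ⟨hp, h2⟩, gflow_eq_rflow hΦ hp (Nat.cast_nonneg M) h2]
  · refine tendsto_const_nhds.congr' ?_
    filter_upwards with M
    rw [if_neg (fun h => hp h.1), gflow_of_not_adm hp]

theorem measurable_gflow (hΦ : IsPotential Φ) (t : ℝ) : Measurable (gflow Φ t) :=
  (measurable_gflow_uncurry hΦ).comp (measurable_const.prodMk measurable_id)

theorem ae_adm : ∀ᵐ p : Ph, Adm Φ p.1 := by
  have h1 : (volume : Measure Ph) ({p : Ph | p.1 = 0}) = 0 := by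
    have e : {p : Ph | p.1 = 0} = ({0} : Set E3) ×ˢ (univ : Set E3) := by
      ext p; simp
    rw [e, Measure.volume_eq_prod, Measure.prod_prod, measure_singleton, zero_mul]
  have h2 : ∀ᵐ p : Ph, p.1 ≠ 0 := by
    rw [ae_iff]; simpa using h1
  filter_upwards [h2] with p hp using Or.inr hp

/-- **Liouville** for the reduced motion. -/
theorem measurePreserving_gflow (hΦ : IsPotential Φ) (t : ℝ) :
    MeasurePreserving (gflow Φ t) (volume : Measure Ph) volume := by
  refine ⟨measurable_gflow hΦ t, ?_⟩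
  ext B hB
  rw [Measure.map_apply (measurable_gflow hΦ t) hB]
  -- exhaust by energy
  have hmono : Monotone (fun M : ℕ => eset Φ M) := by
    intro M M' hMM p hp
    have : (M : ℝ) ≤ M' := by exact_mod_cast hMM
    exact ⟨hp.1, by linarith [hp.2]⟩
  have hunion : ⋃ M : ℕ, eset Φ M = {p : Ph | Adm Φ p.1} := by
    ext p
    simp only [mem_iUnion, mem_ofPred_eq]
    exact ⟨fun ⟨M, hM⟩ => hM.1, fun h => ⟨lev Φ p, h, en_lt_lev p⟩⟩
  have key : ∀ C : Set Ph, MeasurableSet C →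
      (volume : Measure Ph) C = ⨆ M : ℕ, (volume : Measure Ph) (C ∩ eset Φ M) := by
    intro C _
    have h1 : (volume : Measure Ph) C = volume (C ∩ {p : Ph | Adm Φ p.1}) := by
      apply measure_congr
      filter_upwards [ae_adm (Φ := Φ)] with p hp
      apply propext
      exact ⟨fun h => ⟨h, hp⟩, fun h => h.1⟩
    rw [h1, ← hunion, inter_iUnion]
    exact (Monotone.measure_iUnion fun M M' h => inter_subset_inter_right C (hmono h))
  rw [key _ (measurable_gflow hΦ t hB), key _ hB]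
  refine iSup_congr fun M => ?_
  have e : gflow Φ t ⁻¹' B ∩ eset Φ M = rflow (trunc Φ M) t ⁻¹' (B ∩ eset Φ M) := by
    have hS := sm_trunc hΦ (Nat.cast_nonneg M)
    ext p
    simp only [mem_inter_iff, mem_preimage]
    constructor
    · rintro ⟨h1, h2⟩
      rw [← gflow_eq_rflow hΦ h2.1 (Nat.cast_nonneg M) h2.2]
      exact ⟨h1, (mem_eset_gflow hΦ t).2 h2⟩
    · rintro ⟨h1, h2⟩
      -- go back
      have h3 : p = gflow Φ (-t) (rflow (trunc Φ M) t p) := by
        rw [gflow_eq_rflow hΦ h2.1 (Nat.cast_nonneg M) h2.2, hS.neg_left]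
      have h4 : p ∈ eset Φ M := by
        rw [h3]; exact (mem_eset_gflow hΦ (-t)).2 h2
      rw [gflow_eq_rflow hΦ h4.1 (Nat.cast_nonneg M) h4.2]
      exact ⟨h1, h4⟩
  rw [e]
  exact ((sm_trunc hΦ (Nat.cast_nonneg M)).measurePreserving t).measure_preimage
    (hB.inter (measurableSet_eset hΦ M)).nullMeasurableSet

/-- The flow as a measurable equivalence. -/
def gequiv (hΦ : IsPotential Φ) (t : ℝ) : Ph ≃ᵐ Ph where
  toFun := gflow Φ t
  invFun := gflow Φ (-t)
  left_inv := gflow_neg_left hΦ t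
  right_inv := gflow_neg_right hΦ t
  measurable_toFun := measurable_gflow hΦ t
  measurable_invFun := measurable_gflow hΦ (-t)

end Vale.Agent.P119.KU
end
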