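import Vale.Agent.P119.KU.Scat4

/-!
# Scattering in the variables (velocity, impact vector)

The kernel `kappa V` is the area measure on the unit disc orthogonal to `V`; the measure
`|V| kappa_V(dρ) dV` is invariant under `(V, ρ) ↦ (outVel Φ V ρ, outImp Φ V ρ)`.
-/

open MeasureTheory Filter Topology Set ProbabilityTheory
open scoped ENNReal NNReal RealInnerProductSpace

noncomputable section

namespace Vale.Agent.P119.KU

variable {Φ : E3 → ℝ}

/-! ### Coordinates of a line -/

/-- The coordinate along the velocity. -/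
def crd (p : Ph) : ℝ := inner ℝ p.1 p.2 / ‖p.2‖ ^ 2

/-- The component of the position orthogonal to the velocity. -/
def perp (p : Ph) : E3 := p.1 - crd p • p.2

theorem measurable_crd : Measurable crd := by unfold crd; fun_prop

theorem measurable_perp : Measurable perp := by
  have := measurable_crd
  unfold perp; fun_prop

theorem crd_free {p : Ph} (hp : p.2 ≠ 0) (s : ℝ) : crd (free s p) = crd p + s := by
  unfold crd free
  have h : ‖p.2‖ ^ 2 ≠ 0 := pow_ne_zero 2 (norm_ne_zero_iff.2 hp)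
  simp only
  rw [inner_add_left, real_inner_smul_left, real_inner_self_eq_norm_sq, add_div,
    mul_div_cancel_right₀ _ h]

theorem perp_free (p : Ph) (s : ℝ) : perp (free s p) = perp p := by
  by_cases hp : p.2 = 0
  · have : free s p = p := by
      unfold free; rw [hp, smul_zero, add_zero, ← hp]
    rw [this]
  · unfold perp
    rw [crd_free hp]
    unfold free
    simp only
    rw [add_smul]
    abel

theorem inner_perp (p : Ph) : (inner ℝ (perp p) p.2 : ℝ) = 0 := by
  by_cases hp : p.2 = 0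
  · rw [hp, inner_zero_right]
  · unfold perp crd
    have h : ‖p.2‖ ^ 2 ≠ 0 := pow_ne_zero 2 (norm_ne_zero_iff.2 hp)
    rw [inner_sub_left, real_inner_smul_left, real_inner_self_eq_norm_sq,
      div_mul_cancel₀ _ h, sub_self]

theorem free_crd_perp (p : Ph) : free (crd p) (perp p, p.2) = p := by
  unfold free perp
  simp

theorem crd_of_inner {p : Ph} (h : (inner ℝ p.1 p.2 : ℝ) = 0) : crd p = 0 := by
  unfold crd; rw [h, zero_div]

theorem perp_of_inner {p : Ph} (h : (inner ℝ p.1 p.2 : ℝ) = 0) : perp p = p.1 := by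
  unfold perp; rw [crd_of_inner h, zero_smul, sub_zero]

theorem norm_perp_sq (p : Ph) : ‖perp p‖ ^ 2 * ‖p.2‖ ^ 2 = ang p.1 p.2 p := by
  by_cases hp : p.2 = 0
  · unfold ang; rw [hp]; simp
  · have h : ‖p.2‖ ^ 2 ≠ 0 := pow_ne_zero 2 (norm_ne_zero_iff.2 hp)
    have h1 : ‖p.1‖ ^ 2 = ‖perp p‖ ^ 2 + crd p ^ 2 * ‖p.2‖ ^ 2 := by
      have h2 : p.1 = perp p + crd p • p.2 := by unfold perp; abel
      conv_lhs => rw [h2]
      rw [norm_add_sq_real, real_inner_smul_right, inner_perp, norm_smul, mul_pow,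
        Real.norm_eq_abs, sq_abs]
      ring
    have h3 : (inner ℝ p.1 p.2 : ℝ) = crd p * ‖p.2‖ ^ 2 := by
      unfold crd; rw [div_mul_cancel₀ _ h]
    unfold ang
    rw [real_inner_self_eq_norm_sq, real_inner_self_eq_norm_sq, real_inner_comm p.1 p.2, h3, h1]
    ring

/-- Scattering preserves the length of the impact vector. -/
theorem norm_perp_scat (hΦ : IsPotential Φ) (p : Ph) : ‖perp (scat Φ p)‖ = ‖perp p‖ := by
  by_cases hp : p.2 = 0
  · rw [scat_of_not (fun h => h.1 hp)]
  · have h : ‖p.2‖ ^ 2 ≠ 0 := pow_ne_zero 2 (norm_ne_zero_iff.2 hp)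
    have h1 := norm_perp_sq (scat Φ p)
    have h2 := norm_perp_sq p
    rw [scat_ang hΦ] at h1
    rw [← scat_ang hΦ] at h2
    have h3 : ang (scat Φ p).1 (scat Φ p).2 p = ang p.1 p.2 (scat Φ p) := by
      unfold ang
      rw [real_inner_comm p.1, real_inner_comm p.2 (scat Φ p).2, real_inner_comm p.2,
        real_inner_comm p.1 (scat Φ p).2]
      ring
    rw [h3, ← h2, scat_snd_norm hΦ] at h1
    have h4 := mul_right_cancel₀ h h1
    exact (sq_eq_sq₀ (norm_nonneg _) (norm_nonneg _)).1 h4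

/-- The outgoing impact vector. -/
def outImp (Φ : E3 → ℝ) (V ρ : E3) : E3 := perp (scat Φ (ρ, V))

/-- The delay: the outgoing line is `t ↦ outImp + (t - delay) outVel`. -/
def delay (Φ : E3 → ℝ) (V ρ : E3) : ℝ := -crd (scat Φ (ρ, V))

theorem scat_eq_out (hΦ : IsPotential Φ) {V : E3} (hV : V ≠ 0) (ρ : E3) :
    scat Φ (ρ, V) = (outImp Φ V ρ - delay Φ V ρ • outVel Φ V ρ, outVel Φ V ρ) := by
  rw [outVel_eq hΦ ρ hV]
  unfold outImp delay
  have h := free_crd_perp (scat Φ (ρ, V))
  conv_lhs => rw [← h]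
  unfold free
  ext1
  · simp only [neg_smul, sub_neg_eq_add]
  · rfl

theorem inner_outImp (hΦ : IsPotential Φ) {V : E3} (hV : V ≠ 0) (ρ : E3) :
    (inner ℝ (outImp Φ V ρ) (outVel Φ V ρ) : ℝ) = 0 := by
  rw [outVel_eq hΦ ρ hV]
  exact inner_perp _

theorem norm_outVel (hΦ : IsPotential Φ) {V : E3} (hV : V ≠ 0) (ρ : E3) :
    ‖outVel Φ V ρ‖ = ‖V‖ := by
  rw [outVel_eq hΦ ρ hV]
  exact scat_snd_norm hΦ (ρ, V)

theorem norm_outImp (hΦ : IsPotential Φ) {V ρ : E3} (h : (inner ℝ ρ V : ℝ) = 0) :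
    ‖outImp Φ V ρ‖ = ‖ρ‖ := by
  unfold outImp
  rw [norm_perp_scat hΦ, perp_of_inner (p := (ρ, V)) h]

/-- The outgoing impact vector is determined by the outgoing velocity. -/
theorem outImp_eq (hΦ : IsPotential Φ) {V : E3} (hV : V ≠ 0) (ρ : E3) :
    outImp Φ V ρ = (‖V‖ ^ 2)⁻¹ • ((inner ℝ (outVel Φ V ρ) V : ℝ) • ρ -
      (inner ℝ (outVel Φ V ρ) ρ : ℝ) • V) := by
  have hV2 : ‖V‖ ^ 2 ≠ 0 := pow_ne_zero 2 (norm_ne_zero_iff.2 hV)
  apply ext_inner_left ℝ
  intro a
  have h1 := scat_ang hΦ a (outVel Φ V ρ) (ρ, V)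
  rw [scat_eq_out hΦ hV] at h1
  unfold ang at h1
  simp only [inner_sub_right, real_inner_smul_right] at h1
  rw [real_inner_comm (outImp Φ V ρ) (outVel Φ V ρ), inner_outImp hΦ hV,
    real_inner_self_eq_norm_sq, norm_outVel hΦ hV] at h1
  rw [real_inner_smul_right, inner_sub_right, real_inner_smul_right, real_inner_smul_right,
    inv_mul_eq_div, eq_div_iff hV2]
  linarith

/-- Galilean form of the equivariance. -/
theorem outVel_map (hΦ : IsPotential Φ) (A : E3 ≃ₗᵢ[ℝ] E3) {V : E3} (hV : V ≠ 0) (ρ : E3) :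
    outVel Φ (A V) (A ρ) = A (outVel Φ V ρ) := by
  have hAV : A V ≠ 0 := by rwa [Ne, map_eq_zero_iff A A.injective]
  rw [outVel_eq hΦ _ hAV, outVel_eq hΦ _ hV]
  have h := scat_act hΦ A (ρ, V)
  exact congrArg Prod.snd h

theorem crd_act (A : E3 ≃ₗᵢ[ℝ] E3) (p : Ph) : crd (act A p) = crd p := by
  unfold crd act
  simp only [LinearIsometryEquiv.norm_map, LinearIsometryEquiv.inner_map_map]

theorem perp_act (A : E3 ≃ₗᵢ[ℝ] E3) (p : Ph) : perp (act A p) = A (perp p) := by
  unfold perp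
  rw [crd_act]
  unfold act
  simp only [map_sub, map_smul]

theorem outImp_map (hΦ : IsPotential Φ) (A : E3 ≃ₗᵢ[ℝ] E3) (V ρ : E3) :
    outImp Φ (A V) (A ρ) = A (outImp Φ V ρ) := by
  unfold outImp
  rw [← perp_act, ← scat_act hΦ]
  rfl

theorem delay_map (hΦ : IsPotential Φ) (A : E3 ≃ₗᵢ[ℝ] E3) (V ρ : E3) :
    delay Φ (A V) (A ρ) = delay Φ V ρ := by
  unfold delay
  rw [← crd_act A (scat Φ (ρ, V)), ← scat_act hΦ]
  rfl

theorem outVel_add (hΦ : IsPotential Φ) {V : E3} (hV : V ≠ 0) (ρ : E3) (s : ℝ) :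
    outVel Φ V (ρ + s • V) = outVel Φ V ρ := by
  rw [outVel_eq hΦ _ hV, outVel_eq hΦ _ hV]
  have h := congrArg Prod.snd (scat_free hΦ s (ρ, V))
  rw [free_snd] at h
  exact h

theorem measurable_outImp (hΦ : IsPotential Φ) :
    Measurable (fun q : E3 × E3 => outImp Φ q.1 q.2) := by
  have h1 : Measurable (fun q : E3 × E3 => ((q.2, q.1) : Ph)) := measurable_snd.prodMk measurable_fst
  exact (measurable_perp.comp (measurable_scat hΦ)).comp h1

theorem measurable_delay (hΦ : IsPotential Φ) :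
    Measurable (fun q : E3 × E3 => delay Φ q.1 q.2) := by
  have h1 : Measurable (fun q : E3 × E3 => ((q.2, q.1) : Ph)) := measurable_snd.prodMk measurable_fst
  exact ((measurable_crd.comp (measurable_scat hΦ)).comp h1).neg

/-- At zero velocity nothing is scattered. -/
theorem outVel_zero (hΦ : IsPotential Φ) (ρ : E3) : outVel Φ 0 ρ = 0 := by
  classical
  unfold outVel
  split_ifs with h
  · obtain ⟨r, w, h1, h2, h3⟩ := h.choose_spec
    have hz : IsRed Φ (fun t => (r t, w t)) := fun t => (h1 t).1.prodMk (h1 t).2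
    obtain ⟨T, hT⟩ := eventually_atTop.1 h3
    have hfin := hT T le_rfl
    -- the trajectory is admissible at all times since it is at time `T`
    have hT' : Adm Φ (r T) := adm_of_one_le hfin.1
    have hen : ∀ t, Adm Φ (r t) ∧ en Φ (r t, w t) = en Φ (r T, w T) := by
      intro t
      have h4 : (r t, w t) = gflow Φ (t - T) (r T, w T) := red_eq_gflow hΦ hz (t₀ := T) hT' t
      have h5 := adm_gflow hΦ (p := (r T, w T)) (t - T) hT'
      have h6 := en_gflow hΦ (t - T) (r T, w T)
      rw [← h4] at h5 h6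
      exact ⟨h5, h6⟩
    obtain ⟨t₁, h5⟩ := eventually_atBot.1 h2
    have h6 : ∀ t, t < t₁ → w t = 0 := by
      intro t ht
      have h7 : r =ᶠ[𝓝 t] fun _ => ρ := by
        filter_upwards [Iio_mem_nhds ht] with s hs
        rw [h5 s (le_of_lt hs), smul_zero, add_zero]
      exact ((h1 t).1.congr_of_eventuallyEq h7.symm).unique (hasDerivAt_const t ρ)
    have h8 : ∀ t, t < t₁ → r t = ρ := by
      intro t ht; rw [h5 t ht.le, smul_zero, add_zero]
    -- so the acceleration vanishes at `ρ` and the trajectory is constant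
    have h9 : acc Φ ρ = 0 := by
      have h10 : w =ᶠ[𝓝 (t₁ - 1)] fun _ => 0 := by
        filter_upwards [Iio_mem_nhds (show t₁ - 1 < t₁ by linarith)] with s hs using h6 s hs
      have h11 := ((h1 (t₁ - 1)).2.congr_of_eventuallyEq h10.symm).unique
        (hasDerivAt_const (t₁ - 1) (0 : E3))
      rw [h8 _ (by linarith)] at h11
      exact h11
    have hconst : IsRed Φ (fun _ => ((ρ, 0) : Ph)) := by
      intro t
      have h12 : field (acc Φ) ((ρ, 0) : Ph) = 0 := by
        unfold field; simp only [h9]; rfl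
      rw [h12]
      exact hasDerivAt_const t _
    have h13 := red_unique hΦ hz hconst (t₀ := t₁ - 1)
      (by simp only [h8 (t₁ - 1) (by linarith), h6 (t₁ - 1) (by linarith)])
      (hen (t₁ - 1)).1
    have h14 := congrFun h13 T
    have h15 : w T = 0 := congrArg Prod.snd h14
    rw [← hfin.2, h15]
  · rfl

theorem measurable_outVel (hΦ : IsPotential Φ) :
    Measurable (fun q : E3 × E3 => outVel Φ q.1 q.2) := by
  classical
  have h1 : Measurable (fun q : E3 × E3 => ((q.2, q.1) : Ph)) := measurable_snd.prodMk measurable_fst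
  have h2 : Measurable (fun q : E3 × E3 => (scat Φ ((q.2, q.1) : Ph)).2) :=
    ((measurable_scat hΦ).comp h1).snd
  have h3 : Measurable (fun q : E3 × E3 => if q.1 = 0 then (0 : E3)
      else (scat Φ ((q.2, q.1) : Ph)).2) :=
    Measurable.ite (measurableSet_eq_fun measurable_fst measurable_const) measurable_const h2
  have e : (fun q : E3 × E3 => outVel Φ q.1 q.2) = fun q : E3 × E3 => if q.1 = 0 then (0 : E3)
      else (scat Φ ((q.2, q.1) : Ph)).2 := by
    funext q
    split_ifs with h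
    · rw [h, outVel_zero hΦ]
    · exact outVel_eq hΦ _ h
  rw [e]
  exact h3

end Vale.Agent.P119.KU
end
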