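import Vale.Agent.P119.KU.Scat5

/-!
# The kernel of impact vectors and the invariance of the collision measure
-/

open MeasureTheory Filter Topology Set ProbabilityTheory
open scoped ENNReal NNReal RealInnerProductSpace

noncomputable section

namespace Vale.Agent.P119.KU

variable {Φ : E3 → ℝ}

/-- Points of coordinate in `[0, 1)` with impact vector in the unit disc. -/
def cyl : Set Ph := {p | p.2 ≠ 0 ∧ 0 ≤ crd p ∧ crd p < 1 ∧ ‖perp p‖ < 1}

theorem measurableSet_cyl : MeasurableSet cyl := by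
  have h0 : MeasurableSet {p : Ph | p.2 ≠ 0} :=
    (measurableSet_eq_fun measurable_snd measurable_const).compl
  have h1 : MeasurableSet {p : Ph | 0 ≤ crd p} := measurableSet_le measurable_const measurable_crd
  have h2 : MeasurableSet {p : Ph | crd p < 1} := measurableSet_lt measurable_crd measurable_const
  have h3 : MeasurableSet {p : Ph | ‖perp p‖ < 1} :=
    measurableSet_lt measurable_perp.norm measurable_const
  exact h0.inter (h1.inter (h2.inter h3))

/-- The section of the cylinder at the velocity `V`. -/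
def cylAt (V : E3) : Set E3 := (fun x => ((x, V) : Ph)) ⁻¹' cyl

theorem measurableSet_cylAt (V : E3) : MeasurableSet (cylAt V) :=
  measurable_prodMk_right measurableSet_cyl

theorem measurable_perp_left (V : E3) : Measurable (fun x : E3 => perp (x, V)) :=
  measurable_perp.comp measurable_prodMk_right

/-- The area measure on the unit disc orthogonal to `V`. -/
def kappa : Kernel E3 E3 where
  toFun V := (‖V‖ₑ)⁻¹ • ((volume : Measure E3).restrict (cylAt V)).map (fun x => perp (x, V))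
  measurable' := by
    refine Measure.measurable_of_measurable_coe _ fun B hB => ?_
    have h1 : MeasurableSet (cyl ∩ perp ⁻¹' B) := measurableSet_cyl.inter (measurable_perp hB)
    have h2 := measurable_measure_prodMk_right (μ := (volume : Measure E3)) h1
    have h3 : Measurable (fun V : E3 => (‖V‖ₑ)⁻¹) := measurable_enorm.inv
    have e : (fun V : E3 => ((‖V‖ₑ)⁻¹ •
        ((volume : Measure E3).restrict (cylAt V)).map (fun x => perp (x, V))) B) =
        fun V : E3 => (‖V‖ₑ)⁻¹ * volume ((fun x => ((x, V) : Ph)) ⁻¹' (cyl ∩ perp ⁻¹' B)) := by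
      funext V
      rw [Measure.smul_apply, Measure.map_apply (measurable_perp_left V) hB,
        Measure.restrict_apply (measurable_perp_left V hB), smul_eq_mul]
      congr 2
      ext x
      simp only [mem_preimage, mem_inter_iff, cylAt]
      tauto
    rw [e]
    exact h3.mul h2

theorem kappa_apply (V : E3) : kappa V =
    (‖V‖ₑ)⁻¹ • ((volume : Measure E3).restrict (cylAt V)).map (fun x => perp (x, V)) := rfl

theorem lintegral_kappa (V : E3) {F : E3 → ℝ≥0∞} (hF : Measurable F) :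
    ‖V‖ₑ * ∫⁻ ρ, F ρ ∂(kappa V) = ∫⁻ x in cylAt V, F (perp (x, V)) := by
  rw [kappa_apply, lintegral_smul_measure, lintegral_map hF (measurable_perp_left V),
    smul_eq_mul, ← mul_assoc]
  by_cases hV : V = 0
  · have h1 : cylAt V = ∅ := by
      ext x
      simp only [cylAt, mem_preimage, mem_empty_iff_false, iff_false]
      intro h
      exact h.1 hV
    rw [h1, Measure.restrict_empty, lintegral_zero_measure, mul_zero]
  · rw [ENNReal.mul_inv_cancel (by simpa using hV) enorm_ne_top, one_mul]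

/-- The bundle integral as an integral over phase space. -/
theorem lintegral_bundle {F : E3 → E3 → ℝ≥0∞} (hF : Measurable (fun q : E3 × E3 => F q.1 q.2)) :
    ∫⁻ V, ‖V‖ₑ * ∫⁻ ρ, F V ρ ∂(kappa V) = ∫⁻ p in cyl, F p.2 (perp p) := by
  have h1 : ∀ V, ‖V‖ₑ * ∫⁻ ρ, F V ρ ∂(kappa V) =
      ∫⁻ x, cyl.indicator (fun p => F p.2 (perp p)) (x, V) := by
    intro V
    have h2 : Measurable (F V) := hF.comp measurable_prodMk_left
    rw [lintegral_kappa V h2, ← lintegral_indicator (measurableSet_cylAt V)]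
    rfl
  simp_rw [h1]
  have h3 : Measurable (cyl.indicator (fun p : Ph => F p.2 (perp p))) := by
    refine Measurable.indicator ?_ measurableSet_cyl
    exact hF.comp (measurable_snd.prodMk measurable_perp)
  rw [← lintegral_indicator measurableSet_cyl, Measure.volume_eq_prod,
    lintegral_prod_symm _ h3.aemeasurable]

/-! ### Invariance -/

/-- Two unit windows for an invariant function of lines. -/
theorem lintegral_window {H : Ph → ℝ≥0∞} (hH : Measurable H)
    (hH1 : ∀ (k : ℤ) p, H (free k p) = H p) (hH0 : ∀ p : Ph, p.2 = 0 → H p = 0)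
    {c₁ c₂ : Ph → ℝ} (h1 : Measurable c₁) (h2 : Measurable c₂)
    (h1k : ∀ (k : ℤ) (p : Ph), p.2 ≠ 0 → c₁ (free k p) = c₁ p + k)
    (h2k : ∀ (k : ℤ) (p : Ph), p.2 ≠ 0 → c₂ (free k p) = c₂ p + k) :
    ∫⁻ p in {p | 0 ≤ c₁ p ∧ c₁ p < 1}, H p = ∫⁻ p in {p | 0 ≤ c₂ p ∧ c₂ p < 1}, H p := by
  classical
  have m1 : MeasurableSet {p | 0 ≤ c₁ p ∧ c₁ p < 1} :=
    (measurableSet_le measurable_const h1).inter (measurableSet_lt h1 measurable_const)
  have m2 : MeasurableSet {p | 0 ≤ c₂ p ∧ c₂ p < 1} :=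
    (measurableSet_le measurable_const h2).inter (measurableSet_lt h2 measurable_const)
  rw [← lintegral_indicator m1, ← lintegral_indicator m2]
  -- the partition of unity
  have hsum : ∀ (c : ℝ) (a : ℝ≥0∞), ∑' k : ℤ, (if 0 ≤ c - k ∧ c - k < 1 then a else 0) = a := by
    intro c a
    rw [tsum_eq_single ⌊c⌋]
    · rw [if_pos]
      exact ⟨by linarith [Int.floor_le c], by linarith [Int.lt_floor_add_one c]⟩
    · intro k hk
      rw [if_neg]
      rintro ⟨h3, h4⟩
      apply hk
      symm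
      rw [Int.floor_eq_iff]
      constructor <;> linarith
  have hsum' : ∀ (c : ℝ) (a : ℝ≥0∞),
      ∑' k : ℤ, (if 0 ≤ c + k ∧ c + k < 1 then a else 0) = a := by
    intro c a
    have h3 := hsum c a
    rw [← (Equiv.neg ℤ).tsum_eq] at h3
    refine Eq.trans (tsum_congr fun k => ?_) h3
    simp only [Equiv.neg_apply, Int.cast_neg, sub_neg_eq_add]
  -- the double sum
  set A : ℤ → Ph → ℝ≥0∞ := fun k p =>
    if (0 ≤ c₁ p ∧ c₁ p < 1) ∧ (0 ≤ c₂ p - k ∧ c₂ p - k < 1) then H p else 0 with hA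
  set B : ℤ → Ph → ℝ≥0∞ := fun k p =>
    if (0 ≤ c₁ p + k ∧ c₁ p + k < 1) ∧ (0 ≤ c₂ p ∧ c₂ p < 1) then H p else 0 with hB
  have e1 : ∀ p, ({p | 0 ≤ c₁ p ∧ c₁ p < 1}).indicator H p = ∑' k : ℤ, A k p := by
    intro p
    by_cases hp : 0 ≤ c₁ p ∧ c₁ p < 1
    · rw [indicator_of_mem (show p ∈ {p | 0 ≤ c₁ p ∧ c₁ p < 1} from hp), ← hsum (c₂ p) (H p)]
      refine tsum_congr fun k => ?_
      simp only [hA, hp, true_and, and_self]
    · rw [indicator_of_notMem (show p ∉ {p | 0 ≤ c₁ p ∧ c₁ p < 1} from hp)]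
      symm
      rw [ENNReal.tsum_eq_zero]
      intro k
      simp only [hA]
      rw [if_neg (fun h => hp h.1)]
  have e2 : ∀ p, ({p | 0 ≤ c₂ p ∧ c₂ p < 1}).indicator H p = ∑' k : ℤ, B k p := by
    intro p
    by_cases hp : 0 ≤ c₂ p ∧ c₂ p < 1
    · rw [indicator_of_mem (show p ∈ {p | 0 ≤ c₂ p ∧ c₂ p < 1} from hp), ← hsum' (c₁ p) (H p)]
      refine tsum_congr fun k => ?_
      simp only [hB, hp, and_true, and_self]
    · rw [indicator_of_notMem (show p ∉ {p | 0 ≤ c₂ p ∧ c₂ p < 1} from hp)]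
      symm
      rw [ENNReal.tsum_eq_zero]
      intro k
      simp only [hB]
      rw [if_neg (fun h => hp h.2)]
  have mA : ∀ k, Measurable (A k) := by
    intro k
    refine Measurable.ite ?_ hH measurable_const
    exact m1.inter ((measurableSet_le measurable_const (h2.sub_const _)).inter
      (measurableSet_lt (h2.sub_const _) measurable_const))
  have mB : ∀ k, Measurable (B k) := by
    intro k
    refine Measurable.ite ?_ hH measurable_const
    exact ((measurableSet_le measurable_const (h1.add_const _)).inter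
      (measurableSet_lt (h1.add_const _) measurable_const)).inter m2
  simp_rw [e1, e2]
  rw [lintegral_tsum fun k => (mA k).aemeasurable, lintegral_tsum fun k => (mB k).aemeasurable]
  refine tsum_congr fun k => ?_
  rw [← (free_preserving (k : ℝ)).lintegral_comp (mA k)]
  refine lintegral_congr fun p => ?_
  by_cases hp : p.2 = 0
  · have hp' : (free (k : ℝ) p).2 = 0 := hp
    simp only [hA, hB, hH0 _ hp, hH0 _ hp', ite_self]
  · simp only [hA, hB, h1k k p hp, h2k k p hp, hH1, add_sub_cancel_right]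

theorem setLIntegral_scat (hΦ : IsPotential Φ) {G : Ph → ℝ≥0∞} (hG : Measurable G)
    (hG1 : ∀ (s : ℝ) p, G (free s p) = G p) :
    ∫⁻ p in cyl, G (scat Φ p) = ∫⁻ p in cyl, G p := by
  classical
  set D : Set Ph := {p | p.2 ≠ 0 ∧ ‖perp p‖ < 1} with hD
  have hDm : MeasurableSet D :=
    (measurableSet_eq_fun measurable_snd measurable_const).compl.inter
      (measurableSet_lt measurable_perp.norm measurable_const)
  have hDs : ∀ p, scat Φ p ∈ D ↔ p ∈ D := by
    intro p
    simp only [hD, mem_ofPred_eq]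
    rw [norm_perp_scat hΦ, ← norm_ne_zero_iff, scat_snd_norm hΦ, norm_ne_zero_iff]
  have hDf : ∀ (s : ℝ) (p : Ph), free s p ∈ D ↔ p ∈ D := by
    intro s p
    simp only [hD, mem_ofPred_eq]
    rw [perp_free, free_snd]
  have hcyl : cyl = {p | 0 ≤ crd p ∧ crd p < 1} ∩ D := by
    ext p
    simp only [cyl, hD, mem_inter_iff, mem_ofPred_eq]
    tauto
  have m1 : MeasurableSet {p : Ph | 0 ≤ crd p ∧ crd p < 1} :=
    (measurableSet_le measurable_const measurable_crd).inter
      (measurableSet_lt measurable_crd measurable_const)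
  have hms := measurable_scat hΦ
  have m2 : MeasurableSet {p : Ph | 0 ≤ crd (scat Φ p) ∧ crd (scat Φ p) < 1} := hms m1
  -- the two window integrals
  have key := lintegral_window (H := D.indicator (fun p => G (scat Φ p)))
    ((hG.comp hms).indicator hDm)
    (fun k p => by
      by_cases hp : p ∈ D
      · rw [indicator_of_mem ((hDf _ _).2 hp), indicator_of_mem hp, scat_free hΦ, hG1]
      · rw [indicator_of_notMem (fun h => hp ((hDf _ _).1 h)), indicator_of_notMem hp])
    (fun p hp => indicator_of_notMem (fun h => h.1 hp) _)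
    (c₁ := crd) (c₂ := fun p => crd (scat Φ p)) measurable_crd (measurable_crd.comp hms)
    (fun k p hp => crd_free hp k)
    (fun k p hp => by rw [scat_free hΦ]; exact crd_free (scat_snd_ne hΦ hp) k)
  rw [lintegral_indicator hDm, lintegral_indicator hDm, Measure.restrict_restrict hDm,
    Measure.restrict_restrict hDm] at key
  rw [inter_comm, ← hcyl] at key
  rw [key]
  have h3 : D ∩ {p | 0 ≤ crd (scat Φ p) ∧ crd (scat Φ p) < 1} = scat Φ ⁻¹' cyl := by
    ext p
    rw [mem_preimage, hcyl, mem_inter_iff, mem_inter_iff, hDs]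
    simp only [mem_ofPred_eq]
    tauto
  rw [h3, (measurePreserving_scat hΦ).setLIntegral_comp_preimage measurableSet_cyl hG]

/-- **Invariance of the collision measure** `|V| dρ dV` under scattering. -/
theorem lintegral_scattering (hΦ : IsPotential Φ) {F : E3 → E3 → ℝ≥0∞}
    (hF : Measurable (fun q : E3 × E3 => F q.1 q.2)) :
    ∫⁻ V, ‖V‖ₑ * ∫⁻ ρ, F (outVel Φ V ρ) (outImp Φ V ρ) ∂(kappa V) =
      ∫⁻ V, ‖V‖ₑ * ∫⁻ ρ, F V ρ ∂(kappa V) := by
  have hF' : Measurable (fun q : E3 × E3 => F (outVel Φ q.1 q.2) (outImp Φ q.1 q.2)) :=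
    hF.comp ((measurable_outVel hΦ).prodMk (measurable_outImp hΦ))
  rw [lintegral_bundle hF', lintegral_bundle hF]
  have hG : Measurable (fun p : Ph => F p.2 (perp p)) :=
    hF.comp (measurable_snd.prodMk measurable_perp)
  rw [← setLIntegral_scat hΦ hG (fun s p => by rw [perp_free, free_snd])]
  refine setLIntegral_congr_fun measurableSet_cyl fun p hp => ?_
  have hp0 : p.2 ≠ 0 := hp.1
  have h1 : scat Φ p = free (crd p) (scat Φ (perp p, p.2)) := by
    rw [← scat_free hΦ, free_crd_perp]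
  rw [h1, perp_free, free_snd, outVel_eq hΦ _ hp0]
  rfl

/-! ### The kernel is the area measure of the disc -/

theorem vol_span {V : E3} (hV : V ≠ 0) :
    (volume : Measure (ℝ ∙ V : Submodule ℝ E3)) = ‖V‖ₑ • (volume : Measure ℝ).map
      (fun s : ℝ => s • (⟨V, Submodule.mem_span_singleton_self V⟩ :
        (ℝ ∙ V : Submodule ℝ E3))) := by
  have hfr : Module.finrank ℝ (ℝ ∙ V : Submodule ℝ E3) = 1 := finrank_span_singleton hV
  have := volume_eq_of_finrank_eq_one hfr
    (v := (⟨V, Submodule.mem_span_singleton_self V⟩ : (ℝ ∙ V : Submodule ℝ E3)))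
    (by rw [Ne, Submodule.mk_eq_zero]; exact hV)
  rw [this]
  rfl

theorem lintegral_span {V : E3} (hV : V ≠ 0) {f : (ℝ ∙ V : Submodule ℝ E3) → ℝ≥0∞}
    (hf : Measurable f) :
    ∫⁻ a, f a = ‖V‖ₑ * ∫⁻ s : ℝ, f (s • ⟨V, Submodule.mem_span_singleton_self V⟩) := by
  have hm : Measurable (fun s : ℝ => s • (⟨V, Submodule.mem_span_singleton_self V⟩ :
      (ℝ ∙ V : Submodule ℝ E3))) := by fun_prop
  have h1 : ∫⁻ a, f a = ∫⁻ a, f a ∂(‖V‖ₑ • (volume : Measure ℝ).map
      (fun s : ℝ => s • (⟨V, Submodule.mem_span_singleton_self V⟩ :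
        (ℝ ∙ V : Submodule ℝ E3)))) :=
    congrArg (fun μ => ∫⁻ a, f a ∂μ) (vol_span hV)
  rw [h1, lintegral_smul_measure, lintegral_map hf hm, smul_eq_mul]

theorem lintegral_decomp (V : E3) {g : E3 → ℝ≥0∞} (hg : Measurable g) :
    ∫⁻ x, g x = ∫⁻ ρ : (ℝ ∙ V : Submodule ℝ E3)ᗮ, ∫⁻ a : (ℝ ∙ V : Submodule ℝ E3),
      g (a + ρ) := by
  have h1 := (ℝ ∙ V : Submodule ℝ E3).measurePreserving_measurableEquivProd (0 : E3)
  rw [InnerProductSpace.euclideanHausdorffMeasure_eq_volume] at h1
  have hfm : Measurable (fun q : (ℝ ∙ V : Submodule ℝ E3) × (ℝ ∙ V : Submodule ℝ E3)ᗮ =>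
      g (((ℝ ∙ V : Submodule ℝ E3).measurableEquivProd (0 : E3)).symm q)) :=
    hg.comp ((ℝ ∙ V : Submodule ℝ E3).measurableEquivProd (0 : E3)).symm.measurable
  have h2 : ∫⁻ q, g (((ℝ ∙ V : Submodule ℝ E3).measurableEquivProd (0 : E3)).symm q) =
      ∫⁻ x, g x := (h1.symm).lintegral_comp hg
  rw [← h2, Measure.volume_eq_prod, lintegral_prod_symm _ hfm.aemeasurable]
  refine lintegral_congr fun ρ => lintegral_congr fun a => ?_
  rw [Submodule.measurableEquivProd_symm_apply]
  simp

/-- Integration along lines of direction `V`. -/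
theorem lintegral_line {V : E3} (hV : V ≠ 0) {g : E3 → ℝ≥0∞} (hg : Measurable g) :
    ∫⁻ x, g x =
      ‖V‖ₑ * ∫⁻ ρ : (ℝ ∙ V : Submodule ℝ E3)ᗮ, ∫⁻ s : ℝ, g ((ρ : E3) + s • V) := by
  have h4 : Measurable (fun q : (ℝ ∙ V : Submodule ℝ E3)ᗮ × ℝ => g ((q.1 : E3) + q.2 • V)) := by
    apply hg.comp; fun_prop
  rw [lintegral_decomp V hg, ← lintegral_const_mul _ h4.lintegral_prod_right']
  refine lintegral_congr fun ρ => ?_
  have h5 : Measurable (fun a : (ℝ ∙ V : Submodule ℝ E3) => g ((a : E3) + (ρ : E3))) := by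
    apply hg.comp; fun_prop
  rw [lintegral_span hV h5]
  congr 1
  refine lintegral_congr fun s => ?_
  rw [add_comm]
  rfl

theorem inner_orth {V : E3} (ρ : (ℝ ∙ V : Submodule ℝ E3)ᗮ) : (inner ℝ (ρ : E3) V : ℝ) = 0 :=
  Submodule.mem_orthogonal_singleton_iff_inner_left.1 ρ.2

theorem crd_line {V : E3} (hV : V ≠ 0) (ρ : (ℝ ∙ V : Submodule ℝ E3)ᗮ) (s : ℝ) :
    crd ((ρ : E3) + s • V, V) = s := by
  have h := crd_free (p := ((ρ : E3), V)) hV s
  rw [crd_of_inner (p := ((ρ : E3), V)) (inner_orth ρ), zero_add] at h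
  exact h

theorem perp_line {V : E3} (ρ : (ℝ ∙ V : Submodule ℝ E3)ᗮ) (s : ℝ) :
    perp ((ρ : E3) + s • V, V) = ρ := by
  have h := perp_free ((ρ : E3), V) s
  rw [perp_of_inner (p := ((ρ : E3), V)) (inner_orth ρ)] at h
  exact h

/-- The kernel `kappa` is the area measure of the unit disc of `(ℝ ∙ V)ᗮ`. -/
theorem lintegral_kappa_eq {V : E3} (hV : V ≠ 0) {F : E3 → ℝ≥0∞} (hF : Measurable F) :
    ∫⁻ ρ, F ρ ∂(kappa V) = ∫⁻ ρ : (ℝ ∙ V : Submodule ℝ E3)ᗮ in Metric.ball 0 1, F ρ := by
  have h1 : ∫⁻ x in cylAt V, F (perp (x, V)) =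
      ‖V‖ₑ * ∫⁻ ρ : (ℝ ∙ V : Submodule ℝ E3)ᗮ in Metric.ball 0 1, F ρ := by
    have hm : Measurable (fun x : E3 => (cylAt V).indicator (fun x => F (perp (x, V))) x) :=
      (hF.comp (measurable_perp_left V)).indicator (measurableSet_cylAt V)
    rw [← lintegral_indicator (measurableSet_cylAt V), lintegral_line hV hm,
      ← lintegral_indicator Metric.isOpen_ball.measurableSet]
    congr 1
    refine lintegral_congr fun ρ => ?_
    have h2 : ∀ s : ℝ, (cylAt V).indicator (fun x => F (perp (x, V))) ((ρ : E3) + s • V) =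
        (Ico (0 : ℝ) 1).indicator (fun _ => (Metric.ball (0 : (ℝ ∙ V : Submodule ℝ E3)ᗮ) 1).indicator
          (fun ρ => F (ρ : E3)) ρ) s := by
      intro s
      by_cases h3 : s ∈ Ico (0 : ℝ) 1
      · rw [indicator_of_mem h3]
        by_cases h4 : ρ ∈ Metric.ball (0 : (ℝ ∙ V : Submodule ℝ E3)ᗮ) 1
        · rw [indicator_of_mem h4, indicator_of_mem, perp_line]
          refine ⟨hV, ?_, ?_, ?_⟩
          · rw [crd_line hV]; exact h3.1
          · rw [crd_line hV]; exact h3.2
          · rw [perp_line]; simpa using h4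
        · rw [indicator_of_notMem h4, indicator_of_notMem]
          rintro ⟨-, -, -, h5⟩
          rw [perp_line] at h5
          apply h4
          simpa using h5
      · rw [indicator_of_notMem h3, indicator_of_notMem]
        rintro ⟨-, h5, h6, -⟩
        rw [crd_line hV] at h5 h6
        exact h3 ⟨h5, h6⟩
    simp_rw [h2]
    rw [lintegral_indicator measurableSet_Ico, lintegral_const]
    simp
  have h2 := lintegral_kappa V hF
  rw [h1] at h2
  exact (ENNReal.mul_right_inj (by simpa using hV) enorm_ne_top).1 h2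

theorem finrank_orth {V : E3} (hV : V ≠ 0) :
    Module.finrank ℝ (ℝ ∙ V : Submodule ℝ E3)ᗮ = 2 := by
  have h1 := (ℝ ∙ V : Submodule ℝ E3).finrank_add_finrank_orthogonal
  rw [finrank_span_singleton hV, finrank_euclideanSpace, Fintype.card_fin] at h1
  omega

theorem kappa_univ {V : E3} (hV : V ≠ 0) : kappa V univ = ENNReal.ofReal Real.pi := by
  have h1 := lintegral_kappa_eq hV (F := fun _ => 1) measurable_const
  rw [lintegral_const, one_mul, setLIntegral_const, one_mul] at h1
  rw [h1]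
  have : Nontrivial (ℝ ∙ V : Submodule ℝ E3)ᗮ := by
    apply Module.nontrivial_of_finrank_pos (R := ℝ)
    rw [finrank_orth hV]; norm_num
  rw [InnerProductSpace.volume_ball_of_dim_even (k := 1) (by rw [finrank_orth hV])]
  simp

theorem kappa_zero : kappa 0 = 0 := by
  rw [kappa_apply]
  have h1 : cylAt 0 = ∅ := by
    ext x
    simp only [cylAt, mem_preimage, mem_empty_iff_false, iff_false]
    intro h
    exact h.1 rfl
  rw [h1, Measure.restrict_empty, Measure.map_zero, smul_zero]

instance : IsFiniteKernel kappa := by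
  refine ⟨ENNReal.ofReal Real.pi, ENNReal.ofReal_lt_top, fun V => ?_⟩
  by_cases hV : V = 0
  · rw [hV, kappa_zero]; simp
  · exact (kappa_univ hV).le

/-- The kernel in the notation of the statement. -/
theorem kappa_eq_hausdorff {V : E3} (hV : V ≠ 0) :
    kappa V = (μHE[2] : Measure E3).restrict {ρ : E3 | ‖ρ‖ < 1 ∧ ⟪ρ, V⟫ = 0} := by
  have hcl : MeasurableSet ((ℝ ∙ V : Submodule ℝ E3)ᗮ : Set E3) :=
    (Submodule.closed_of_finiteDimensional _).measurableSet
  have hset : {ρ : E3 | ‖ρ‖ < 1 ∧ ⟪ρ, V⟫ = 0} =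
      ((ℝ ∙ V : Submodule ℝ E3)ᗮ : Set E3) ∩ Metric.ball 0 1 := by
    ext ρ
    simp only [mem_ofPred_eq, mem_inter_iff, SetLike.mem_coe, mem_ball_zero_iff]
    rw [Submodule.mem_orthogonal_singleton_iff_inner_left]
    exact and_comm
  refine Measure.ext_of_lintegral _ fun F hF => ?_
  rw [lintegral_kappa_eq hV hF, hset]
  have hemb : MeasurableEmbedding (Subtype.val : (ℝ ∙ V : Submodule ℝ E3)ᗮ → E3) :=
    MeasurableEmbedding.subtype_coe hcl
  have hmap : ((volume : Measure (ℝ ∙ V : Submodule ℝ E3)ᗮ)).map Subtype.val =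
      (μHE[2] : Measure E3).restrict ((ℝ ∙ V : Submodule ℝ E3)ᗮ : Set E3) := by
    have h1 : (volume : Measure (ℝ ∙ V : Submodule ℝ E3)ᗮ) = μHE[2] := by
      rw [← finrank_orth hV]
      exact InnerProductSpace.euclideanHausdorffMeasure_eq_volume.symm
    rw [h1]
    have h2 := (isometry_subtype_coe (s := ((ℝ ∙ V : Submodule ℝ E3)ᗮ : Set E3))).map_euclideanHausdorffMeasure
      (d := 2)
    rw [Subtype.range_coe] at h2
    exact h2
  have h3 : Subtype.val ⁻¹' (Metric.ball (0 : E3) 1) =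
      Metric.ball (0 : (ℝ ∙ V : Submodule ℝ E3)ᗮ) 1 := by
    ext ρ; simp
  rw [← h3, ← hemb.lintegral_map (μ := volume.restrict _)]
  rw [← hemb.restrict_map, hmap, Measure.restrict_restrict Metric.isOpen_ball.measurableSet,
    inter_comm]

end Vale.Agent.P119.KU
end
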