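import Vale.Agent.P119.KU.Scat7

/-!
# Entrance and exit times, local uniqueness
-/

open MeasureTheory Filter Topology Set ProbabilityTheory
open scoped ENNReal NNReal RealInnerProductSpace

noncomputable section

namespace Vale.Agent.P119.KU

variable {Φ : E3 → ℝ}

/-! ### The free line and the unit ball -/

/-- Half of the time which the free line spends in the ball. -/
def half (p : Ph) : ℝ := √(1 - ‖perp p‖ ^ 2) / ‖p.2‖

/-- Entrance time of the free line. -/
def tin (p : Ph) : ℝ := -crd p - half p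

theorem half_nonneg (p : Ph) : 0 ≤ half p := by unfold half; positivity

theorem half_free (s : ℝ) (p : Ph) : half (free s p) = half p := by
  unfold half; rw [perp_free, free_snd]

theorem tin_free {p : Ph} (hp : p.2 ≠ 0) (s : ℝ) : tin (free s p) = tin p - s := by
  unfold tin; rw [crd_free hp, half_free]; ring

theorem half_pos {p : Ph} (hp : p.2 ≠ 0) (hb : ‖perp p‖ < 1) : 0 < half p := by
  unfold half
  have h1 : 0 < 1 - ‖perp p‖ ^ 2 := by nlinarith [norm_nonneg (perp p)]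
  have h2 : 0 < ‖p.2‖ := norm_pos_iff.2 hp
  positivity

theorem half_scat (hΦ : IsPotential Φ) (p : Ph) : half (scat Φ p) = half p := by
  unfold half; rw [norm_perp_scat hΦ, scat_snd_norm hΦ]

theorem norm_free_sq (p : Ph) (t : ℝ) :
    ‖(free t p).1‖ ^ 2 = ‖perp p‖ ^ 2 + (crd p + t) ^ 2 * ‖p.2‖ ^ 2 := by
  have h2 : (free t p).1 = perp p + (crd p + t) • p.2 := by
    unfold perp free; simp only; rw [add_smul]; abel
  rw [h2, norm_add_sq_real, real_inner_smul_right, inner_perp, norm_smul, mul_pow,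
    Real.norm_eq_abs, sq_abs]
  ring

theorem inner_free (p : Ph) (t : ℝ) :
    (inner ℝ (free t p).1 (free t p).2 : ℝ) = (crd p + t) * ‖p.2‖ ^ 2 := by
  have h2 : (free t p).1 = perp p + (crd p + t) • p.2 := by
    unfold perp free; simp only; rw [add_smul]; abel
  rw [h2, free_snd, inner_add_left, inner_perp, real_inner_smul_left,
    real_inner_self_eq_norm_sq, zero_add]

theorem half_sq {p : Ph} (hp : p.2 ≠ 0) (hb : ‖perp p‖ ≤ 1) :
    half p ^ 2 * ‖p.2‖ ^ 2 = 1 - ‖perp p‖ ^ 2 := by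
  unfold half
  have h1 : 0 ≤ 1 - ‖perp p‖ ^ 2 := by nlinarith [norm_nonneg (perp p)]
  have h2 : ‖p.2‖ ^ 2 ≠ 0 := pow_ne_zero 2 (norm_ne_zero_iff.2 hp)
  rw [div_pow, div_mul_cancel₀ _ h2, Real.sq_sqrt h1]

/-- The free line is outside and incoming exactly up to the entrance time. -/
theorem inc_free_iff {p : Ph} (hp : p.2 ≠ 0) (hb : ‖perp p‖ ≤ 1) (t : ℝ) :
    Inc (free t p) ↔ t ≤ tin p := by
  have hV : 0 < ‖p.2‖ ^ 2 := by have := norm_pos_iff.2 hp; positivity
  have h1 := norm_free_sq p t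
  have h2 := inner_free p t
  have h3 := half_sq hp hb
  have h4 := half_nonneg p
  unfold tin
  constructor
  · rintro ⟨h5, h6⟩
    rw [h2] at h6
    have h7 : crd p + t ≤ 0 := by
      by_contra hcon
      rw [not_le] at hcon
      have := mul_pos hcon hV
      linarith
    have h8 : 1 ≤ ‖(free t p).1‖ ^ 2 := by nlinarith [norm_nonneg (free t p).1]
    rw [h1] at h8
    have h9 : half p ^ 2 ≤ (crd p + t) ^ 2 := by
      by_contra hcon
      rw [not_le] at hcon
      nlinarith [mul_lt_mul_of_pos_right hcon hV]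
    by_contra hcon
    rw [not_le] at hcon
    nlinarith
  · intro h5
    have h6 : crd p + t ≤ -half p := by linarith
    refine ⟨?_, ?_⟩
    · have h7 : half p ^ 2 ≤ (crd p + t) ^ 2 := by nlinarith
      have h8 : 1 ≤ ‖(free t p).1‖ ^ 2 := by
        rw [h1]
        nlinarith [mul_le_mul_of_nonneg_right h7 hV.le]
      by_contra hcon
      rw [not_le] at hcon
      nlinarith [norm_nonneg (free t p).1]
    · rw [h2]
      have h7 : crd p + t ≤ 0 := by linarith
      exact mul_nonpos_of_nonpos_of_nonneg h7 hV.le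

/-- The free line is outside and outgoing exactly from the exit time of the free line. -/
theorem out_free_iff {p : Ph} (hp : p.2 ≠ 0) (hb : ‖perp p‖ ≤ 1) (t : ℝ) :
    Out (free t p) ↔ -crd p + half p ≤ t := by
  have hV : 0 < ‖p.2‖ ^ 2 := by have := norm_pos_iff.2 hp; positivity
  have h1 := norm_free_sq p t
  have h2 := inner_free p t
  have h3 := half_sq hp hb
  have h4 := half_nonneg p
  constructor
  · rintro ⟨h5, h6⟩
    rw [h2] at h6
    have h7 : 0 ≤ crd p + t := by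
      by_contra hcon
      rw [not_le] at hcon
      have := mul_neg_of_neg_of_pos hcon hV
      linarith
    have h8 : 1 ≤ ‖(free t p).1‖ ^ 2 := by nlinarith [norm_nonneg (free t p).1]
    rw [h1] at h8
    have h9 : half p ^ 2 ≤ (crd p + t) ^ 2 := by
      by_contra hcon
      rw [not_le] at hcon
      nlinarith [mul_lt_mul_of_pos_right hcon hV]
    by_contra hcon
    rw [not_le] at hcon
    nlinarith
  · intro h5
    have h6 : half p ≤ crd p + t := by linarith
    refine ⟨?_, ?_⟩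
    · have h7 : half p ^ 2 ≤ (crd p + t) ^ 2 := by nlinarith
      have h8 : 1 ≤ ‖(free t p).1‖ ^ 2 := by
        rw [h1]
        nlinarith [mul_le_mul_of_nonneg_right h7 hV.le]
      by_contra hcon
      rw [not_le] at hcon
      nlinarith [norm_nonneg (free t p).1]
    · rw [h2]
      have h7 : 0 ≤ crd p + t := by linarith
      exact mul_nonneg h7 hV.le

/-! ### Entrance -/

/-- The trajectory starts at the entrance point. -/
theorem traj_eq_tin (hΦ : IsPotential Φ) {p : Ph} (hp : p.2 ≠ 0) (hb : ‖perp p‖ ≤ 1) (t : ℝ) :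
    traj Φ p t = gflow Φ (t - tin p) (free (tin p) p) := by
  set s := max (inT p) (-tin p) with hs
  have h1 := (inc_free_iff hp hb (tin p)).2 le_rfl
  rw [traj_eq hΦ hp (le_max_left (inT p) (-tin p)), ← hs]
  have h2 : free (-s) p = gflow Φ (-s - tin p) (free (tin p) p) := by
    rw [gflow_free_bwd hΦ h1.1 h1.2 (by linarith [le_max_right (inT p) (-tin p)]), ← free_add]
    congr 1; ring
  rw [h2, ← gflow_add hΦ]
  congr 1; ring

theorem traj_before (hΦ : IsPotential Φ) {p : Ph} (hp : p.2 ≠ 0) (hb : ‖perp p‖ ≤ 1) {t : ℝ}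
    (ht : t ≤ tin p) : traj Φ p t = free t p := by
  have h1 := (inc_free_iff hp hb (tin p)).2 le_rfl
  rw [traj_eq_tin hΦ hp hb, gflow_free_bwd hΦ h1.1 h1.2 (by linarith), ← free_add]
  congr 1; ring

/-! ### Exit -/

/-- Exit time of the trajectory. -/
def tout (Φ : E3 → ℝ) (p : Ph) : ℝ := -crd (scat Φ p) + half p

theorem tout_free (hΦ : IsPotential Φ) {p : Ph} (hp : p.2 ≠ 0) (s : ℝ) :
    tout Φ (free s p) = tout Φ p - s := by
  unfold tout; rw [scat_free hΦ, crd_free (scat_snd_ne hΦ hp), half_free]; ring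

/-- The trajectory is outside and outgoing exactly from the exit time. -/
theorem out_traj_iff (hΦ : IsPotential Φ) {p : Ph} (h : Exits Φ p) (hb : ‖perp p‖ ≤ 1) (t : ℝ) :
    Out (traj Φ p t) ↔ tout Φ p ≤ t := by
  have hp' := scat_snd_ne hΦ h.1
  have hb' : ‖perp (scat Φ p)‖ ≤ 1 := by rw [norm_perp_scat hΦ]; exact hb
  have key := out_free_iff hp' hb'
  rw [half_scat hΦ] at key
  constructor
  · intro h1
    rw [traj_late hΦ h.1 h1, key] at h1
    exact h1
  · intro h1
    obtain ⟨T, hT⟩ := eventually_atTop.1 (h.eventually hΦ)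
    -- go backwards from a late time along the free outgoing line
    set s := max T t with hs
    have h2 := hT s (le_max_left _ _)
    have h3 : Out (free t (scat Φ p)) := (key t).2 h1
    have h4 : gflow Φ (s - t) (free t (scat Φ p)) = traj Φ p s := by
      rw [gflow_free_fwd hΦ h3.1 h3.2 (by linarith [le_max_right T t]), ← free_add,
        sub_add_cancel, h2.2]
    have h5 : traj Φ p t = free t (scat Φ p) := by
      have h6 := congrArg (gflow Φ (-(s - t))) h4
      rw [gflow_neg_left hΦ, gflow_traj hΦ] at h6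
      rw [h6]; congr 1; ring
    rw [h5]; exact h3

theorem traj_after (hΦ : IsPotential Φ) {p : Ph} (h : Exits Φ p) (hb : ‖perp p‖ ≤ 1) {t : ℝ}
    (ht : tout Φ p ≤ t) : traj Φ p t = free t (scat Φ p) :=
  traj_late hΦ h.1 ((out_traj_iff hΦ h hb t).2 ht)

/-- Just after the entrance the trajectory is inside. -/
theorem exists_inside (hΦ : IsPotential Φ) {p : Ph} (hp : p.2 ≠ 0) (hb : ‖perp p‖ < 1) {t : ℝ}
    (ht : tin p < t) : ∃ s ∈ Ioo (tin p) t, ‖(traj Φ p s).1‖ < 1 := by
  have h0 : traj Φ p (tin p) = free (tin p) p := traj_before hΦ hp hb.le le_rfl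
  have hd : HasDerivAt (fun s => ‖(traj Φ p s).1‖ ^ 2)
      (2 * inner ℝ (traj Φ p (tin p)).1 (traj Φ p (tin p)).2) (tin p) := by
    have h3 : HasDerivAt (fun s => (traj Φ p s).1) (traj Φ p (tin p)).2 (tin p) :=
      (traj_isRed hΦ hp (tin p)).fst
    exact h3.norm_sq
  have h1 : (inner ℝ (traj Φ p (tin p)).1 (traj Φ p (tin p)).2 : ℝ) < 0 := by
    rw [h0, inner_free]
    have h2 : crd p + tin p = -half p := by unfold tin; ring
    rw [h2]
    have := half_pos hp hb
    have hV : 0 < ‖p.2‖ ^ 2 := by have := norm_pos_iff.2 hp; positivity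
    nlinarith [mul_pos this hV]
  have hn : ‖(traj Φ p (tin p)).1‖ ^ 2 = 1 := by
    rw [h0, norm_free_sq]
    have h2 : crd p + tin p = -half p := by unfold tin; ring
    rw [h2, neg_sq, half_sq hp hb.le]
    ring
  have hs := (hasDerivAt_iff_tendsto_slope.1 hd).eventually
    (gt_mem_nhds (show 2 * (inner ℝ (traj Φ p (tin p)).1 (traj Φ p (tin p)).2 : ℝ) < 0 by
      linarith))
  have hs' : ∀ᶠ s in 𝓝[>] (tin p), slope (fun s => ‖(traj Φ p s).1‖ ^ 2) (tin p) s < 0 :=
    hs.filter_mono (nhdsWithin_mono _ fun s hs => ne_of_gt hs)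
  obtain ⟨s, hs1, hs2⟩ := (hs'.and (Ioo_mem_nhdsGT ht)).exists
  refine ⟨s, hs2, ?_⟩
  rw [slope_def_field, div_neg_iff] at hs1
  have h5 : 0 < s - tin p := by linarith [hs2.1]
  have h6 : ‖(traj Φ p s).1‖ ^ 2 < 1 := by
    rcases hs1 with hs1 | hs1
    · linarith [hs1.2]
    · linarith [hs1.1]
  nlinarith [norm_nonneg (traj Φ p s).1]

/-- Inside the ball between entrance and exit. -/
theorem inside_of_not_out (hΦ : IsPotential Φ) {p : Ph} (hp : p.2 ≠ 0) (hb : ‖perp p‖ < 1)
    {t : ℝ} (ht : tin p < t) (ho : ¬ Out (traj Φ p t)) : ‖(traj Φ p t).1‖ < 1 := by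
  obtain ⟨s₀, hs₀, hs₀'⟩ := exists_inside hΦ hp hb ht
  by_contra hcon
  rw [not_lt] at hcon
  have hc : Continuous (fun s => ‖(traj Φ p s).1‖) :=
    (continuous_fst.comp (continuous_traj hΦ p)).norm
  set K : Set ℝ := Icc s₀ t ∩ {s | 1 ≤ ‖(traj Φ p s).1‖} with hK
  have hKc : IsCompact K := isCompact_Icc.inter_right (isClosed_le continuous_const hc)
  obtain ⟨τ, hτ⟩ := hKc.exists_isLeast ⟨t, ⟨hs₀.2.le, le_rfl⟩, hcon⟩
  have hτ1 : 1 ≤ ‖(traj Φ p τ).1‖ := hτ.1.2
  have hτt : s₀ < τ := by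
    rcases hτ.1.1.1.lt_or_eq with h2 | h2
    · exact h2
    · rw [← h2] at hτ1; linarith
  have hlt : ∀ s ∈ Ico s₀ τ, ‖(traj Φ p s).1‖ < 1 := by
    intro s hs
    by_contra h2
    have h3 := hτ.2 ⟨⟨hs.1, hs.2.le.trans hτ.1.1.2⟩, not_lt.1 h2⟩
    linarith [hs.2]
  have hneg : (inner ℝ (traj Φ p τ).1 (traj Φ p τ).2 : ℝ) < 0 := by
    by_contra h2
    exact ho (out_mono hΦ hτ.1.1.2 ⟨hτ1, not_lt.1 h2⟩).1
  have hd : HasDerivAt (fun s => ‖(traj Φ p s).1‖ ^ 2)
      (2 * inner ℝ (traj Φ p τ).1 (traj Φ p τ).2) τ := by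
    have h3 : HasDerivAt (fun s => (traj Φ p s).1) (traj Φ p τ).2 τ := (traj_isRed hΦ hp τ).fst
    exact h3.norm_sq
  have hs := (hasDerivAt_iff_tendsto_slope.1 hd).eventually
    (gt_mem_nhds (show 2 * (inner ℝ (traj Φ p τ).1 (traj Φ p τ).2 : ℝ) < 0 by linarith))
  have hs' : ∀ᶠ s in 𝓝[<] τ, slope (fun s => ‖(traj Φ p s).1‖ ^ 2) τ s < 0 :=
    hs.filter_mono (nhdsWithin_mono _ fun s hs => ne_of_lt hs)
  have hmem : ∀ᶠ s in 𝓝[<] τ, s ∈ Ioo s₀ τ := Ioo_mem_nhdsLT hτt
  obtain ⟨s, hs1, hs2⟩ := (hs'.and hmem).exists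
  have h4 := hlt s ⟨hs2.1.le, hs2.2⟩
  rw [slope_def_field, div_neg_iff] at hs1
  have h5 : s - τ < 0 := by linarith [hs2.2]
  have h6 : ‖(traj Φ p s).1‖ ^ 2 < 1 := by nlinarith [norm_nonneg (traj Φ p s).1]
  have h7 : 1 ≤ ‖(traj Φ p τ).1‖ ^ 2 := by nlinarith
  rcases hs1 with hs1 | hs1
  · linarith [hs1.1]
  · linarith [hs1.2]

theorem norm_traj_lt_one_iff (hΦ : IsPotential Φ) {p : Ph} (h : Exits Φ p) (hb : ‖perp p‖ < 1)
    (t : ℝ) : ‖(traj Φ p t).1‖ < 1 ↔ tin p < t ∧ t < tout Φ p := by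
  constructor
  · intro h1
    constructor
    · by_contra hcon
      rw [traj_before hΦ h.1 hb.le (not_lt.1 hcon)] at h1
      have := ((inc_free_iff h.1 hb.le t).2 (not_lt.1 hcon)).1
      linarith
    · by_contra hcon
      have := ((out_traj_iff hΦ h hb.le t).2 (not_lt.1 hcon)).1
      linarith
  · rintro ⟨h1, h2⟩
    refine inside_of_not_out hΦ h.1 hb h1 fun h3 => ?_
    have := (out_traj_iff hΦ h hb.le t).1 h3
    linarith

theorem tin_lt_tout (hΦ : IsPotential Φ) {p : Ph} (h : Exits Φ p) (hb : ‖perp p‖ < 1) :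
    tin p < tout Φ p := by
  by_contra hcon
  have h1 := (out_traj_iff hΦ h hb.le (tin p)).2 (not_lt.1 hcon)
  rw [traj_before hΦ h.1 hb.le le_rfl, out_free_iff h.1 hb.le] at h1
  have := half_pos h.1 hb
  unfold tin at h1
  linarith

theorem norm_traj_tin (hΦ : IsPotential Φ) {p : Ph} (hp : p.2 ≠ 0) (hb : ‖perp p‖ ≤ 1) :
    ‖(traj Φ p (tin p)).1‖ = 1 := by
  have hn : ‖(traj Φ p (tin p)).1‖ ^ 2 = 1 := by
    rw [traj_before hΦ hp hb le_rfl, norm_free_sq]
    have h2 : crd p + tin p = -half p := by unfold tin; ring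
    rw [h2, neg_sq, half_sq hp hb]
    ring
  nlinarith [norm_nonneg (traj Φ p (tin p)).1]

theorem norm_traj_tout (hΦ : IsPotential Φ) {p : Ph} (h : Exits Φ p) (hb : ‖perp p‖ ≤ 1) :
    ‖(traj Φ p (tout Φ p)).1‖ = 1 := by
  have hb' : ‖perp (scat Φ p)‖ ≤ 1 := by rw [norm_perp_scat hΦ]; exact hb
  have hn : ‖(traj Φ p (tout Φ p)).1‖ ^ 2 = 1 := by
    rw [traj_after hΦ h hb le_rfl, norm_free_sq]
    have h2 : crd (scat Φ p) + tout Φ p = half (scat Φ p) := by
      unfold tout; rw [half_scat hΦ]; ring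
    rw [h2, half_sq (scat_snd_ne hΦ h.1) hb']
    ring
  nlinarith [norm_nonneg (traj Φ p (tout Φ p)).1]

theorem measurable_half : Measurable half := by
  have := measurable_perp
  unfold half; fun_prop

theorem measurable_tin : Measurable tin := by
  have h1 := measurable_half
  have h2 := measurable_crd
  unfold tin; fun_prop

theorem measurable_tout (hΦ : IsPotential Φ) : Measurable (tout Φ) := by
  have h1 := measurable_half
  have h2 := measurable_crd.comp (measurable_scat hΦ)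
  exact h2.neg.add h1

/-! ### Local uniqueness -/

/-- A trajectory on an interval is given by the flow. -/
theorem red_eq_gflow_on (hΦ : IsPotential Φ) {z : ℝ → Ph} {a b : ℝ}
    (hc : ContinuousOn z (Icc a b))
    (hz : ∀ t ∈ Ico a b, HasDerivWithinAt z (field (acc Φ) (z t)) (Ici t) t)
    (ha : Adm Φ (z a).1) {t : ℝ} (ht : t ∈ Icc a b) : z t = gflow Φ (t - a) (z a) := by
  classical
  set y : ℝ → Ph := fun t => gflow Φ (t - a) (z a) with hy
  have hyc : Continuous y := (continuous_gflow_time hΦ (z a)).comp (continuous_id.sub continuous_const)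
  have hyr : IsRed Φ y := by
    intro t
    have h2 := HasDerivAt.scomp t ((gflow_isRed hΦ ha).1 (t - a)) ((hasDerivAt_id t).sub_const a)
    rw [one_smul] at h2
    exact h2
  have hya : ∀ t, Adm Φ (y t).1 := fun t => adm_gflow hΦ _ ha
  have hclosed : IsClosed ({t | z t = y t} ∩ Icc a b) := by
    have h1 : ContinuousOn (fun t => z t - y t) (Icc a b) := hc.sub hyc.continuousOn
    have h2 := h1.preimage_isClosed_of_isClosed isClosed_Icc (isClosed_singleton (x := (0 : Ph)))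
    have e : {t | z t = y t} ∩ Icc a b = Icc a b ∩ (fun t => z t - y t) ⁻¹' {0} := by
      ext t
      simp only [mem_inter_iff, mem_ofPred_eq, mem_preimage, mem_singleton_iff, sub_eq_zero]
      tauto
    rw [e]; exact h2
  have hmem : a ∈ {t | z t = y t} := by
    simp only [mem_ofPred_eq, hy, sub_self, gflow_zero hΦ]
  have key := hclosed.Icc_subset_of_forall_mem_nhdsWithin hmem ?_ ht
  · exact key
  rintro s ⟨hs, hsI⟩
  have hs : z s = y s := hs
  -- near `s` both solve a Lipschitz equation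
  obtain ⟨M, hM0, hM⟩ : ∃ M : ℝ, 0 ≤ M ∧ Φ (y s).1 < M :=
    ⟨|Φ (y s).1| + 1, by positivity, by linarith [le_abs_self (Φ (y s).1)]⟩
  have hS := sm_trunc hΦ hM0
  obtain ⟨K, B, hK, hB⟩ := hS.acc_lipschitz
  have h3 := (trunc_eventuallyEq' hΦ (hya s) hM).eventuallyEq_nhds
  have h4y : ∀ᶠ t in 𝓝 s, trunc Φ M =ᶠ[𝓝 (y t).1] Φ :=
    (continuous_fst.comp hyc).continuousAt.eventually h3
  have hzs : ContinuousWithinAt (fun t => (z t).1) (Icc a b) s :=
    continuous_fst.continuousAt.comp_continuousWithinAt (hc s ⟨hsI.1, hsI.2.le⟩)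
  have h4z : ∀ᶠ t in 𝓝[Icc a b] s, trunc Φ M =ᶠ[𝓝 (z t).1] Φ := by
    have h5 : ∀ᶠ x in 𝓝 (z s).1, trunc Φ M =ᶠ[𝓝 x] Φ := by rw [hs]; exact h3
    exact hzs.eventually h5
  obtain ⟨δ, hδ, h6⟩ : ∃ δ > 0, ∀ t, s ≤ t → t < s + δ → t < b →
      trunc Φ M =ᶠ[𝓝 (y t).1] Φ ∧ trunc Φ M =ᶠ[𝓝 (z t).1] Φ := by
    rw [eventually_nhdsWithin_iff] at h4z
    obtain ⟨δ, hδ, h7⟩ := Metric.eventually_nhds_iff.1 (h4y.and h4z)
    refine ⟨δ, hδ, fun t h8 h9 h10 => ?_⟩
    have h11 := h7 (y := t) (by rw [Real.dist_eq, abs_lt]; constructor <;> linarith)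
    exact ⟨h11.1, h11.2 ⟨hsI.1.trans h8, h10.le⟩⟩
  set c : ℝ := min (s + δ / 2) b with hcdef
  have hsc : s < c := lt_min (by linarith) hsI.2
  have hcb : c ≤ b := min_le_right _ _
  have hcδ : c ≤ s + δ / 2 := min_le_left _ _
  have heq : EqOn z y (Icc s c) := by
    refine ODE_solution_unique_of_mem_Icc_right (v := fun _ => field (acc (trunc Φ M)))
      (s := fun _ => univ) (K := max 1 K) (fun _ _ => (field_lipschitz hK).lipschitzOnWith)
      (hc.mono (Icc_subset_Icc hsI.1 hcb)) (fun t ht => ?_) (fun _ _ => trivial)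
      hyc.continuousOn (fun t ht => ?_) (fun _ _ => trivial) hs
    · have h7 := hz t ⟨hsI.1.trans ht.1, ht.2.trans_le hcb⟩
      have h8 : field (acc (trunc Φ M)) (z t) = field (acc Φ) (z t) := by
        unfold field
        rw [acc_congr (h6 t ht.1 (by linarith [ht.2]) (ht.2.trans_le hcb)).2]
      simp only [h8]
      exact h7
    · have h7 := (hyr t).hasDerivWithinAt (s := Ici t)
      have h8 : field (acc (trunc Φ M)) (y t) = field (acc Φ) (y t) := by
        unfold field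
        rw [acc_congr (h6 t ht.1 (by linarith [ht.2]) (ht.2.trans_le hcb)).1]
      simp only [h8]
      exact h7
  filter_upwards [Ioc_mem_nhdsGT hsc] with t ht
  exact heq ⟨ht.1.le, ht.2⟩

end Vale.Agent.P119.KU
end
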