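import Vale.Agent.P119.KU.Scat8

/-!
# The isolated two-body evolution at scale `ε`

A pair is an element of `Ph × Ph`. `pairEv Φ ε t q` is the state at time `t` of the isolated pair
started at `q`; `pairLine Φ ε q` is the pair trajectory which is asymptotic in the past to the pair
of lines `q`, and `sc2 Φ ε q` is the pair of lines to which it is asymptotic in the future.
-/

open MeasureTheory Filter Topology Set ProbabilityTheory
open scoped ENNReal NNReal RealInnerProductSpace

noncomputable section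

namespace Vale.Agent.P119.KU

variable {Φ : E3 → ℝ} {ε : ℝ}

/-! ### Coordinates -/

/-- Relative coordinates of a pair, positions in units of `ε`. -/
def rel (ε : ℝ) (q : Ph × Ph) : Ph := (ε⁻¹ • (q.1.1 - q.2.1), q.1.2 - q.2.2)

/-- Centre of mass of a pair. -/
def com (q : Ph × Ph) : Ph := ((2 : ℝ)⁻¹ • (q.1.1 + q.2.1), (2 : ℝ)⁻¹ • (q.1.2 + q.2.2))

/-- The pair with given centre of mass and relative coordinates. -/
def mk2 (ε : ℝ) (c p : Ph) : Ph × Ph :=
  ((c.1 + (2 : ℝ)⁻¹ • (ε • p.1), c.2 + (2 : ℝ)⁻¹ • p.2),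
    (c.1 - (2 : ℝ)⁻¹ • (ε • p.1), c.2 - (2 : ℝ)⁻¹ • p.2))

theorem com_mk2 (c p : Ph) : com (mk2 ε c p) = c := by
  unfold com mk2
  ext1
  · simp only; module
  · simp only; module

theorem rel_mk2 (hε : ε ≠ 0) (c p : Ph) : rel ε (mk2 ε c p) = p := by
  unfold rel mk2
  ext1
  · simp only
    have h : c.1 + (2 : ℝ)⁻¹ • (ε • p.1) - (c.1 - (2 : ℝ)⁻¹ • (ε • p.1)) = ε • p.1 := by module
    rw [h, smul_smul, inv_mul_cancel₀ hε, one_smul]
  · simp only; module

theorem mk2_com_rel (hε : ε ≠ 0) (q : Ph × Ph) : mk2 ε (com q) (rel ε q) = q := by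
  unfold com rel mk2
  simp only [smul_smul, mul_inv_cancel₀ hε, one_smul]
  ext1
  · ext1
    · simp only; module
    · simp only; module
  · ext1
    · simp only; module
    · simp only; module

theorem mk2_free (c p : Ph) (t : ℝ) (hε : ε ≠ 0) :
    mk2 ε (free t c) (free (t / ε) p) = (free t (mk2 ε c p).1, free t (mk2 ε c p).2) := by
  have h : ∀ x : E3, ε • ((t / ε) • x) = t • x := by
    intro x; rw [smul_smul, mul_div_cancel₀ _ hε]
  unfold mk2 free
  simp only [smul_add, h]
  ext1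
  · ext1
    · simp only; module
    · simp only
  · ext1
    · simp only; module
    · simp only

theorem rel_free (hε : ε ≠ 0) (q : Ph × Ph) (t : ℝ) :
    rel ε (free t q.1, free t q.2) = free (t / ε) (rel ε q) := by
  have h := mk2_free (com q) (rel ε q) t hε
  rw [mk2_com_rel hε] at h
  rw [← h, rel_mk2 hε]

theorem com_free (q : Ph × Ph) (t : ℝ) : com (free t q.1, free t q.2) = free t (com q) := by
  unfold com free
  ext1
  · simp only; module
  · rfl

/-! ### The evolution -/

/-- The isolated evolution of a pair. -/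
def pairEv (Φ : E3 → ℝ) (ε t : ℝ) (q : Ph × Ph) : Ph × Ph :=
  mk2 ε (free t (com q)) (gflow Φ (t / ε) (rel ε q))

theorem pairEv_zero (hΦ : IsPotential Φ) (hε : ε ≠ 0) (q : Ph × Ph) : pairEv Φ ε 0 q = q := by
  unfold pairEv
  rw [zero_div, gflow_zero hΦ, free_zero, mk2_com_rel hε]

theorem com_pairEv (t : ℝ) (q : Ph × Ph) : com (pairEv Φ ε t q) = free t (com q) := by
  unfold pairEv; rw [com_mk2]

theorem rel_pairEv (hε : ε ≠ 0) (t : ℝ) (q : Ph × Ph) :
    rel ε (pairEv Φ ε t q) = gflow Φ (t / ε) (rel ε q) := by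
  unfold pairEv; rw [rel_mk2 hε]

theorem pairEv_add (hΦ : IsPotential Φ) (hε : ε ≠ 0) (s t : ℝ) (q : Ph × Ph) :
    pairEv Φ ε (s + t) q = pairEv Φ ε s (pairEv Φ ε t q) := by
  conv_rhs => unfold pairEv
  rw [show mk2 ε (free t (com q)) (gflow Φ (t / ε) (rel ε q)) = pairEv Φ ε t q from rfl,
    com_pairEv, rel_pairEv hε, ← free_add, ← gflow_add hΦ, ← add_div]
  rfl

/-- The equations of motion of an isolated pair. -/
structure IsPair (Φ : E3 → ℝ) (ε : ℝ) (γ : ℝ → Ph × Ph) (t : ℝ) (s : Set ℝ) : Prop where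
  pos₁ : HasDerivWithinAt (fun s => (γ s).1.1) (γ t).1.2 s t
  vel₁ : HasDerivWithinAt (fun s => (γ s).1.2)
    (-(ε⁻¹ • gradient Φ (ε⁻¹ • ((γ t).1.1 - (γ t).2.1)))) s t
  pos₂ : HasDerivWithinAt (fun s => (γ s).2.1) (γ t).2.2 s t
  vel₂ : HasDerivWithinAt (fun s => (γ s).2.2)
    (-(ε⁻¹ • gradient Φ (ε⁻¹ • ((γ t).2.1 - (γ t).1.1)))) s t

theorem isPair_pairEv (hΦ : IsPotential Φ) (hε : ε ≠ 0) {q : Ph × Ph}
    (hq : Adm Φ (rel ε q).1) (t : ℝ) (s : Set ℝ) :
    IsPair Φ ε (fun t => pairEv Φ ε t q) t s := by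
  -- scaled relative motion
  have h1 := HasDerivAt.scomp t ((gflow_isRed hΦ hq).1 (t / ε)) ((hasDerivAt_id t).div_const ε)
  have h2 : HasDerivAt (fun s => gflow Φ (s / ε) (rel ε q))
      ((1 / ε) • field (acc Φ) (gflow Φ (t / ε) (rel ε q))) t := h1
  set p : ℝ → Ph := fun s => gflow Φ (s / ε) (rel ε q) with hp
  have h3 : HasDerivAt (fun s => (p s).1) (ε⁻¹ • (p t).2) t := by
    have := h2.fst; rw [one_div] at this; exact this
  have h4 : HasDerivAt (fun s => (p s).2) (ε⁻¹ • acc Φ (p t).1) t := by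
    have := h2.snd; rw [one_div] at this; exact this
  have hc : HasDerivAt (fun s => (free s (com q)).1) (com q).2 t := (hasDerivAt_free (com q) t).fst
  have h5 : HasDerivAt (fun s => (2 : ℝ)⁻¹ • (ε • (p s).1)) ((2 : ℝ)⁻¹ • (p t).2) t := by
    have := (h3.const_smul ε).const_smul (2 : ℝ)⁻¹
    rwa [smul_smul ε, mul_inv_cancel₀ hε, one_smul] at this
  have h6 : HasDerivAt (fun s => (2 : ℝ)⁻¹ • (p s).2) (-(ε⁻¹ • gradient Φ (p t).1)) t := by
    have := h4.const_smul (2 : ℝ)⁻¹
    have e : (2 : ℝ)⁻¹ • (ε⁻¹ • acc Φ (p t).1) = -(ε⁻¹ • gradient Φ (p t).1) := by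
      unfold acc
      rw [smul_comm, smul_neg, smul_smul (2 : ℝ)⁻¹, inv_mul_cancel₀ two_ne_zero, one_smul,
        smul_neg]
    rwa [e] at this
  have hr : (p t).1 = ε⁻¹ • ((pairEv Φ ε t q).1.1 - (pairEv Φ ε t q).2.1) := by
    have := congrArg Prod.fst (rel_pairEv (Φ := Φ) hε t q)
    exact this.symm
  have hr' : gradient Φ (ε⁻¹ • ((pairEv Φ ε t q).2.1 - (pairEv Φ ε t q).1.1)) =
      -gradient Φ (p t).1 := by
    rw [← gradient_odd hΦ.radial', hr, ← smul_neg, neg_sub]
  refine ⟨?_, ?_, ?_, ?_⟩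
  · exact (hc.add h5).hasDerivWithinAt
  · rw [← hr]
    have := (hasDerivAt_const t (com q).2).add h6
    rw [zero_add] at this
    exact this.hasDerivWithinAt
  · exact (hc.sub h5).hasDerivWithinAt
  · rw [hr', smul_neg, neg_neg]
    have := (hasDerivAt_const t (com q).2).sub h6
    rw [zero_sub, neg_neg] at this
    exact this.hasDerivWithinAt

/-- **Local uniqueness** for the pair. -/
theorem pair_unique_on (hΦ : IsPotential Φ) (hε : 0 < ε) {γ : ℝ → Ph × Ph} {a b : ℝ}
    (hc : ContinuousOn γ (Icc a b)) (hγ : ∀ t ∈ Ico a b, IsPair Φ ε γ t (Ici t))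
    (ha : Adm Φ (rel ε (γ a)).1) {t : ℝ} (ht : t ∈ Icc a b) :
    γ t = pairEv Φ ε (t - a) (γ a) := by
  have hε0 : ε ≠ 0 := hε.ne'
  -- the relative motion in scaled time
  have hrel : rel ε (γ t) = gflow Φ ((t - a) / ε) (rel ε (γ a)) := by
    have hlin : Continuous (rel ε) := by unfold rel; fun_prop
    have hz := red_eq_gflow_on hΦ (z := fun s => rel ε (γ (ε * s))) (a := a / ε) (b := b / ε)
      ?_ ?_ ?_ (t := t / ε) ⟨by gcongr; exact ht.1, by gcongr; exact ht.2⟩
    · simp only [mul_div_cancel₀ _ hε0] at hz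
      rw [hz, ← sub_div]
    · refine (hlin.comp_continuousOn hc).comp (by fun_prop) ?_
      intro s hs
      have h1 := hs.1
      have h2 := hs.2
      rw [div_le_iff₀ hε] at h1
      rw [le_div_iff₀ hε] at h2
      exact ⟨by linarith [mul_comm ε s], by linarith [mul_comm ε s]⟩
    · intro s hs
      have h1 := hs.1
      have h2 := hs.2
      rw [div_le_iff₀ hε] at h1
      rw [lt_div_iff₀ hε] at h2
      have hmem : ε * s ∈ Ico a b := ⟨by linarith [mul_comm ε s], by linarith [mul_comm ε s]⟩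
      obtain ⟨d1, d2, d3, d4⟩ := hγ (ε * s) hmem
      have hinner : HasDerivWithinAt (fun s : ℝ => ε * s) ε (Ici s) s := by
        have := ((hasDerivAt_id s).const_mul ε).hasDerivWithinAt (s := Ici s)
        rwa [mul_one] at this
      have hmaps : MapsTo (fun s : ℝ => ε * s) (Ici s) (Ici (ε * s)) := by
        intro u hu
        have hu' : s ≤ u := hu
        exact mul_le_mul_of_nonneg_left hu' hε.le
      have e1 := (d1.sub d3).scomp s hinner hmaps
      have e2 := (d2.sub d4).scomp s hinner hmaps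
      have e3 : HasDerivWithinAt (fun s => ε⁻¹ • ((γ (ε * s)).1.1 - (γ (ε * s)).2.1))
          ((γ (ε * s)).1.2 - (γ (ε * s)).2.2) (Ici s) s := by
        have := e1.const_smul ε⁻¹
        rwa [smul_smul, inv_mul_cancel₀ hε0, one_smul] at this
      have e4 : HasDerivWithinAt (fun s => (γ (ε * s)).1.2 - (γ (ε * s)).2.2)
          (acc Φ (ε⁻¹ • ((γ (ε * s)).1.1 - (γ (ε * s)).2.1))) (Ici s) s := by
        refine e2.congr_deriv ?_
        have hr' : gradient Φ (ε⁻¹ • ((γ (ε * s)).2.1 - (γ (ε * s)).1.1)) =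
            -gradient Φ (ε⁻¹ • ((γ (ε * s)).1.1 - (γ (ε * s)).2.1)) := by
          rw [← gradient_odd hΦ.radial', ← smul_neg, neg_sub]
        rw [hr']
        unfold acc
        rw [smul_neg, neg_neg, ← neg_add', ← two_smul ℝ, smul_neg, smul_comm ε, smul_smul ε,
          mul_inv_cancel₀ hε0, one_smul]
      exact e3.prodMk e4
    · simp only [mul_div_cancel₀ _ hε0]
      exact ha
  have hcom : com (γ t) = free (t - a) (com (γ a)) := by
    have hlin : Continuous com := by unfold com; fun_prop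
    have key : ∀ t ∈ Icc a b, free (a - t) (com (γ t)) = free (a - a) (com (γ a)) := by
      intro t ht
      refine constant_of_has_deriv_right_zero (f := fun t => free (a - t) (com (γ t))) ?_ ?_ t ht
      · have h1 : ContinuousOn (fun t => com (γ t)) (Icc a b) := hlin.comp_continuousOn hc
        have h2 : ContinuousOn (fun t : ℝ => a - t) (Icc a b) := by fun_prop
        exact continuous_free.comp_continuousOn (h2.prodMk h1)
      · intro s hs
        obtain ⟨d1, d2, d3, d4⟩ := hγ s hs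
        have hr' : gradient Φ (ε⁻¹ • ((γ s).2.1 - (γ s).1.1)) =
            -gradient Φ (ε⁻¹ • ((γ s).1.1 - (γ s).2.1)) := by
          rw [← gradient_odd hΦ.radial', ← smul_neg, neg_sub]
        have f1 : HasDerivWithinAt (fun s => (com (γ s)).1) (com (γ s)).2 (Ici s) s :=
          (d1.add d3).const_smul (2 : ℝ)⁻¹
        have f2 : HasDerivWithinAt (fun s => (com (γ s)).2) 0 (Ici s) s := by
          have := (d2.add d4).const_smul (2 : ℝ)⁻¹
          refine this.congr_deriv ?_
          rw [hr', smul_neg, neg_neg, neg_add_cancel, smul_zero]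
        have f3 : HasDerivWithinAt (fun t : ℝ => a - t) (-1) (Ici s) s :=
          ((hasDerivAt_id s).const_sub a).hasDerivWithinAt
        have f4 := f3.smul f2
        have f5 := (f1.add f4).prodMk f2
        refine f5.congr_deriv ?_
        ext1
        · simp
        · rfl
    have h1 := congrArg (free (t - a)) (key t ht)
    rw [← free_add, sub_self, free_zero] at h1
    have h2 : t - a + (a - t) = 0 := by ring
    rw [h2, free_zero] at h1
    exact h1
  unfold pairEv
  rw [← hrel, ← hcom, mk2_com_rel hε0]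

end Vale.Agent.P119.KU
end
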